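import Vale.Agent.P095JS.PartT6

/-! Tensor products with actions. -/

open scoped TensorProduct

namespace Vale.Agent.JS.Act

universe u w

/-- Two star automorphisms of `A ⊗ Z` that agree on elementary tensors are equal. -/
theorem ext_tensor {A Z B : Type u} [NonUnitalCStarAlgebra A] [CStarAlgebra Z]
    [NonUnitalCStarAlgebra B] {T : A →ₗ[ℂ] Z →ₗ[ℂ] B} (hT : P095K.IsTensorProd T)
    {f g : B ≃⋆ₐ[ℂ] B} (h : ∀ a z, f (T a z) = g (T a z)) : f = g := by
  have hc : ∀ f : B ≃⋆ₐ[ℂ] B, Continuous f := fun f =>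
    AddMonoidHomClass.continuous_of_bound f 1 fun x => by
      rw [one_mul]
      exact NonUnitalStarAlgHom.norm_apply_le f x
  have h1 : ∀ x, f (TensorProduct.lift T x) = g (TensorProduct.lift T x) := by
    intro x
    induction x with
    | zero => simp
    | add x y hx hy => rw [map_add, map_add, map_add, hx, hy]
    | tmul a z => rw [TensorProduct.lift.tmul]; exact h a z
  have h2 : (f : B → B) = g := by
    refine hT.dense.equalizer (hc f) (hc g) ?_
    funext x
    exact h1 x
  exact DFunLike.coe_injective h2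

/-- Tensor products with the actions `α ⊗ id` exist. -/
theorem exists_tensor_act (A Z : Type u) [NonUnitalCStarAlgebra A] [CStarAlgebra Z] :
    ∃ (B : Type u) (_ : NonUnitalCStarAlgebra B) (T : A →ₗ[ℂ] Z →ₗ[ℂ] B),
      P095K.IsTensorProd T ∧ ∀ (G : Type w) [Group G] (α : G →* (A ≃⋆ₐ[ℂ] A)),
        ∃ β : G →* (B ≃⋆ₐ[ℂ] B), ∀ g a z, β g (T a z) = T (α g a) z := by
  obtain ⟨B, _, T, hT, hβ⟩ := PartT6.exists_tensorProd A Z
  choose b hb using hβ
  refine ⟨B, inferInstance, T, hT, fun G _ α => ⟨
    { toFun := fun g => b (α g)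
      map_one' := ext_tensor hT fun a z => by rw [hb, map_one]; rfl
      map_mul' := fun g k => ext_tensor hT fun a z => by
        rw [hb, map_mul]
        change _ = b (α g) (b (α k) (T a z))
        rw [hb, hb]
        rfl }, fun g a z => hb _ _ _⟩⟩

end Vale.Agent.JS.Act
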