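import Vale.Agent.P095JS.PartC3

/-! Part C: the connecting maps, and the sequence. -/

open scoped Kronecker Matrix.Norms.L2Operator

namespace Vale.Agent.JS.PartC

open Vale.Agent.JS

section Cst

variable {α m K : Type} [Fintype α] [DecidableEq α] [Fintype m] [DecidableEq m] [Fintype K]
  [DecidableEq K]

/-- `1 ⊗ c`. -/
def cst (ρ : α × m ≃ K) (c : Matrix m m ℂ) : Matrix K K ℂ :=
  bd ((Equiv.prodComm m α).trans ρ) (fun _ => c)

theorem cst_eq (ρ : α × m ≃ K) (c : Matrix m m ℂ) :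
    cst ρ c = Matrix.reindex ρ ρ ((1 : Matrix α α ℂ) ⊗ₖ c) := by
  ext x y
  obtain ⟨x, rfl⟩ := ρ.surjective x
  obtain ⟨y, rfl⟩ := ρ.surjective y
  rw [cst, bd_apply]
  simp only [Matrix.kroneckerMap_apply, Matrix.reindex_apply, Matrix.submatrix_apply,
    Equiv.symm_apply_apply, Matrix.one_apply, Equiv.symm_trans_apply, Equiv.prodComm_symm,
    Equiv.prodComm_apply, Prod.fst_swap, Prod.snd_swap]
  by_cases h : x.1 = y.1 <;> simp [h]

theorem commute_cst (ρ : α × m ≃ K) (c : Matrix m m ℂ) (Y : Matrix α α ℂ) :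
    Commute (Matrix.reindex ρ ρ (Y ⊗ₖ (1 : Matrix m m ℂ))) (cst ρ c) := by
  rw [cst_eq]
  simp only [Commute, SemiconjBy, Matrix.reindex_apply, Matrix.submatrix_mul_equiv,
    ← Matrix.mul_kronecker_mul, one_mul, mul_one]

theorem exists_units {μ : ℕ} (ρ : α × Fin (μ + 2) ≃ K) :
    (∀ i, cst ρ (cyc μ i) * cst ρ (cyc μ i) = 0) ∧
      ∑ i, star (cst ρ (cyc μ i)) * cst ρ (cyc μ i) = 1 := by
  constructor
  · intro i
    rw [cst, ← map_mul, show (fun _ : α => cyc μ i) * (fun _ => cyc μ i) =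
      fun _ => cyc μ i * cyc μ i from rfl, cyc_mul]
    exact map_zero _
  · have h : ∀ i, star (cst ρ (cyc μ i)) * cst ρ (cyc μ i) =
        bd ((Equiv.prodComm (Fin (μ + 2)) α).trans ρ) (fun _ => star (cyc μ i) * cyc μ i) := by
      intro i
      rw [cst, ← map_star, ← map_mul]
      rfl
    simp_rw [h]
    rw [← map_sum]
    have h2 : (∑ i, fun _ : α => star (cyc μ i) * cyc μ i) = 1 := by
      funext x
      rw [Finset.sum_apply, sum_cyc]
      rfl
    rw [h2, map_one]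

end Cst

/-- The evaluation points. -/
noncomputable def hlf : C(unitInterval, unitInterval) :=
  ⟨fun t => ⟨(t : ℝ) / 2, by have := t.2.1; positivity, by have := t.2.2; linarith⟩, by fun_prop⟩
noncomputable def mid : C(unitInterval, unitInterval) :=
  ⟨fun _ => ⟨1 / 2, by norm_num, by norm_num⟩, by fun_prop⟩
noncomputable def upp : C(unitInterval, unitInterval) :=
  ⟨fun t => ⟨((t : ℝ) + 1) / 2, by have := t.2.1; positivity, by have := t.2.2; linarith⟩,
    by fun_prop⟩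

theorem hlf_zero : hlf 0 = 0 := by ext; simp [hlf]
theorem hlf_one (s) : hlf 1 = mid s := by ext; simp [hlf, mid]
theorem upp_zero (s) : upp 0 = mid s := by ext; simp [upp, mid]
theorem upp_one : upp 1 = 1 := by ext; simp [upp]

variable {p q P Q k l b : ℕ}

/-- The multiplicities. -/
abbrev JJ (k l b : ℕ) := (Fin 2 × Fin l) ⊕ (Fin b ⊕ (Fin 3 × Fin k))

/-- The evaluation points. -/
noncomputable def pts : JJ k l b → C(unitInterval, unitInterval)
  | Sum.inl _ => hlf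
  | Sum.inr (Sum.inl _) => mid
  | Sum.inr (Sum.inr _) => upp

theorem pts_lip (j : JJ k l b) (s t : unitInterval) :
    |((pts j s : unitInterval) : ℝ) - (pts j t : unitInterval)| ≤ 1 / 2 * |(s : ℝ) - t| := by
  rcases j with j | j | j
  · show |(s : ℝ) / 2 - (t : ℝ) / 2| ≤ _
    rw [show (s : ℝ) / 2 - (t : ℝ) / 2 = 1 / 2 * ((s : ℝ) - t) by ring, abs_mul]
    norm_num
  · show |(1 / 2 : ℝ) - 1 / 2| ≤ _
    rw [sub_self, abs_zero]; positivity
  · show |((s : ℝ) + 1) / 2 - ((t : ℝ) + 1) / 2| ≤ _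
    rw [show ((s : ℝ) + 1) / 2 - ((t : ℝ) + 1) / 2 = 1 / 2 * ((s : ℝ) - t) by ring, abs_mul]
    norm_num

theorem pts_surj (hk : 0 < k) (hl : 0 < l) (x : unitInterval) :
    ∃ (j : JJ k l b) (s : unitInterval), pts j s = x := by
  by_cases hx : (x : ℝ) ≤ 1 / 2
  · refine ⟨Sum.inl (0, ⟨0, hl⟩), ⟨2 * x, by have := x.2.1; positivity, by linarith⟩, ?_⟩
    ext
    show 2 * (x : ℝ) / 2 = x
    ring
  · refine ⟨Sum.inr (Sum.inr (0, ⟨0, hk⟩)), ⟨2 * x - 1, by rw [not_le] at hx; linarith,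
      by have := x.2.2; linarith⟩, ?_⟩
    ext
    show (2 * (x : ℝ) - 1 + 1) / 2 = x
    ring

/-- The properties of a connecting map. -/
def Dat.IsStep (D : Dat p q P Q) : Prop :=
  D.Lip (1 / 2) ∧ (∀ x, ∃ j s, D.ξ j s = x) ∧
    (∀ f ∈ DD p q, D.hom f ∈ DD P Q) ∧
    (∃ x : Fin 2 → Matrix (Fin P) (Fin P) ℂ,
      (∀ i, x i * x i = 0) ∧ ∑ i, star (x i) * x i = 1 ∧
      ∀ f ∈ DD p q, ∀ i, Commute (D.hom f 0) (one1 _ (x i))) ∧
    (∃ y : Fin 3 → Matrix (Fin Q) (Fin Q) ℂ,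
      (∀ i, y i * y i = 0) ∧ ∑ i, star (y i) * y i = 1 ∧
      ∀ f ∈ DD p q, ∀ i, Commute (D.hom f 1) (one2 _ (y i)))

theorem step (hp : 0 < p) (hq : 0 < q) (hk : k = 2 * (1 + q)) (hl : l = 3 * (1 + p * k))
    (hP : P = p * k) (hQ : Q = q * l) : ∃ D : Dat p q P Q, D.IsStep := by
  have hkl : 3 * k ≤ 2 * q * l := by
    rw [hl]
    have h1 : k ≤ p * k := Nat.le_mul_of_pos_left _ hp
    have h2 : 1 + p * k ≤ q * (1 + p * k) := Nat.le_mul_of_pos_left _ hq
    nlinarith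
  obtain ⟨b, hb⟩ := Nat.exists_eq_add_of_le hkl
  have c0 : Fintype.card (Fin b ⊕ (Fin 3 × Fin k)) =
      Fintype.card (Unit × (Fin 2 × (Fin q × Fin l))) := by
    simp; linarith
  have c1 : Fintype.card ((Fin 2 × Fin l) ⊕ Fin b) =
      Fintype.card (Fin k × (Fin 3 × (Fin p × Fin k))) := by
    simp
    have h1 : 2 * l + 2 * q * l = k * l := by rw [hk]; ring
    have h2 : k * l = 3 * k + k * (3 * (p * k)) := by
      conv_lhs => rw [hl]
      ring
    omega
  have c2 : Fintype.card ((Fin p ⊕ ((Fin p × Fin q) × Unit)) × Fin (0 + 2)) =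
      Fintype.card (Fin P) := by
    simp; rw [hP, hk]; ring
  have c3 : Fintype.card (Fin q × Fin l) = Fintype.card (Fin Q) := by simp [hQ]
  have c4 : Fintype.card ((Fin q ⊕ ((Fin p × Fin q) × Fin k)) × Fin (1 + 2)) =
      Fintype.card (Fin Q) := by
    simp; rw [hQ, hl]; ring
  have c5 : Fintype.card (Fin p × Fin k) = Fintype.card (Fin P) := by simp [hP]
  let h0 := Fintype.equivOfCardEq c0
  let h1 := Fintype.equivOfCardEq c1
  let ρ₁ := Fintype.equivOfCardEq c2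
  let ρ₂ := Fintype.equivOfCardEq c3
  let τ₁ := Fintype.equivOfCardEq c4
  let τ₂ := Fintype.equivOfCardEq c5
  let eJ0 : JJ k l b ≃ (Fin 2 × Fin l) ⊕ (Unit × (Fin 2 × (Fin q × Fin l))) :=
    Equiv.sumCongr (Equiv.refl _) h0
  let eJ1 : JJ k l b ≃ (Fin 3 × Fin k) ⊕ (Fin k × (Fin 3 × (Fin p × Fin k))) :=
    ((Equiv.sumAssoc _ _ _).symm.trans (Equiv.sumComm _ _)).trans
      (Equiv.sumCongr (Equiv.refl _) h1)
  let E0 := eL (Equiv.refl (Fin p × Fin q)) eJ0 ρ₁ ρ₂
  let E1 := eR (Equiv.prodComm (Fin p) (Fin q)) eJ1 τ₁ τ₂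
  obtain ⟨V, hV, hV0, hV1⟩ := exists_path (E0.symm.trans E1)
  let D : Dat p q P Q :=
    { J := JJ k l b
      e := E0
      ξ := pts
      U := V
      hU := hV }
  have hD0 : ∀ f ∈ DD p q, ∃ Y, D.hom f 0 = one1 Q (Matrix.reindex ρ₁ ρ₁
      (Y ⊗ₖ (1 : Matrix (Fin (0 + 2)) (Fin (0 + 2)) ℂ))) := by
    intro f hf
    obtain ⟨A, hA⟩ := exists_left hq (f 0) hf.1
    obtain ⟨Y, hY⟩ := amp (Equiv.refl (Fin p × Fin q)) eJ0 (D.val f 0) A (f (mid 0))
      (fun z i i' => by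
        show f (hlf 0) i i' = _
        rw [hlf_zero]
        exact hA i i')
      (fun z => by
        show f (pts (Sum.inr (h0.symm z)) 0) = _
        rcases h0.symm z with w | w
        · rfl
        · show f (upp 0) = _
          rw [upp_zero 0])
    refine ⟨Y, ?_⟩
    rw [Dat.hom_apply]
    show V 0 * bd E0 _ * star (V 0) = _
    rw [hV0, one_mul, star_one, mul_one]
    exact bd_eL _ _ _ _ _ Y hY
  have hD1 : ∀ f ∈ DD p q, ∃ Y, D.hom f 1 = one2 P (Matrix.reindex τ₁ τ₁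
      (Y ⊗ₖ (1 : Matrix (Fin (1 + 2)) (Fin (1 + 2)) ℂ))) := by
    intro f hf
    obtain ⟨A, hA⟩ := exists_right hp (f 1) hf.2
    obtain ⟨Y, hY⟩ := amp (Equiv.prodComm (Fin p) (Fin q)) eJ1 (D.val f 1) A (f (mid 0))
      (fun z i i' => by
        show f (upp 1) i i' = _
        rw [upp_one]
        exact hA i i')
      (fun z => by
        have hz : eJ1.symm (Sum.inr z) = (Equiv.sumAssoc _ _ _) (Sum.inl (h1.symm z)) := rfl
        show f (pts (eJ1.symm (Sum.inr z)) 1) = _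
        rw [hz]
        rcases h1.symm z with w | w
        · show f (hlf 1) = _
          rw [hlf_one 0]
        · rfl)
    refine ⟨Y, ?_⟩
    rw [Dat.hom_apply]
    show V 1 * bd E0 _ * star (V 1) = _
    rw [hV1, pm_conj, bd_reindex, ← Equiv.trans_assoc, Equiv.self_trans_symm, Equiv.refl_trans]
    exact bd_eR _ _ _ _ _ Y hY
  refine ⟨D, pts_lip, pts_surj (by omega) (by omega), ?_, ?_, ?_⟩
  · intro f hf
    obtain ⟨Y, hY⟩ := hD0 f hf
    obtain ⟨Z, hZ⟩ := hD1 f hf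
    refine ⟨fun y => ?_, fun x => ?_⟩
    · rw [hY]; exact commute_one1_one2 _ _
    · rw [hZ]; exact (commute_one1_one2 _ _).symm
  · refine ⟨fun i => cst ρ₁ (cyc 0 i), (exists_units ρ₁).1, (exists_units ρ₁).2, fun f hf i => ?_⟩
    obtain ⟨Y, hY⟩ := hD0 f hf
    rw [hY]
    exact commute_one1 (commute_cst _ _ _)
  · refine ⟨fun i => cst τ₁ (cyc 1 i), (exists_units τ₁).1, (exists_units τ₁).2, fun f hf i => ?_⟩
    obtain ⟨Y, hY⟩ := hD1 f hf
    rw [hY]
    exact commute_one2 (commute_cst _ _ _)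

/-- The dimensions. -/
def pq : ℕ → ℕ × ℕ
  | 0 => (2, 3)
  | n + 1 => ((pq n).1 * (2 * (1 + (pq n).2)),
      (pq n).2 * (3 * (1 + (pq n).1 * (2 * (1 + (pq n).2)))))

theorem pq_inv (n : ℕ) : 0 < (pq n).1 ∧ 0 < (pq n).2 ∧ Nat.Coprime 2 (pq n).2 ∧ 3 ∣ (pq n).2 ∧
    Nat.Coprime 3 (pq n).1 ∧ Nat.Coprime (pq n).1 (pq n).2 := by
  induction n with
  | zero => simp only [pq]; decide
  | succ n ih =>
    obtain ⟨h1, h2, h3, h4, h5, h6⟩ := ih
    set p := (pq n).1
    set q := (pq n).2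
    have e1 : (pq (n + 1)).1 = p * (2 * (1 + q)) := rfl
    have e2 : (pq (n + 1)).2 = q * (3 * (1 + p * (2 * (1 + q)))) := rfl
    rw [e1, e2]
    have hq1 : Nat.Coprime (1 + q) q := by
      rw [Nat.coprime_add_self_left]; exact Nat.coprime_one_left q
    have h31 : Nat.Coprime 3 (1 + q) := by
      obtain ⟨c, hc⟩ := h4
      rw [hc]; simp
    have hP : ∀ P : ℕ, Nat.Coprime P (1 + P) := fun P => by simp
    have h3P : Nat.Coprime 3 (p * (2 * (1 + q))) :=
      Nat.Coprime.mul_right h5 (Nat.Coprime.mul_right (by norm_num) h31)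
    refine ⟨by positivity, by positivity, ?_, ?_, h3P, ?_⟩
    · refine Nat.Coprime.mul_right h3 (Nat.Coprime.mul_right (by norm_num) ?_)
      have : 1 + p * (2 * (1 + q)) = 1 + 2 * (p * (1 + q)) := by ring
      rw [this]; simp
    · exact (Dvd.intro _ rfl : 3 ∣ 3 * (1 + p * (2 * (1 + q)))).mul_left q
    · refine Nat.Coprime.mul_right ?_ (Nat.Coprime.mul_right h3P.symm (hP _))
      exact Nat.Coprime.mul_left h6 (Nat.Coprime.mul_left h3 hq1)

theorem exists_step (n : ℕ) :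
    ∃ D : Dat (pq n).1 (pq n).2 (pq (n + 1)).1 (pq (n + 1)).2, D.IsStep :=
  step (pq_inv n).1 (pq_inv n).2.1 rfl rfl rfl rfl

/-- The connecting data. -/
noncomputable def DS (n : ℕ) : Dat (pq n).1 (pq n).2 (pq (n + 1)).1 (pq (n + 1)).2 :=
  (exists_step n).choose

/-- The sequence. -/
noncomputable def SS : Seq where
  p n := (pq n).1
  q n := (pq n).2
  Φ n := (DS n).hom

theorem exists_comp (n k : ℕ) : ∃ D : Dat (pq n).1 (pq n).2 (pq (n + k)).1 (pq (n + k)).2,
    D.hom = SS.comp n k ∧ D.Lip ((1 / 2) ^ k) := by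
  induction k with
  | zero => exact ⟨Dat.id _ _, Dat.id_hom, Dat.id_lip⟩
  | succ k ih =>
    obtain ⟨D, hD, hL⟩ := ih
    refine ⟨(DS (n + k)).comp D, ?_, ?_⟩
    · rw [Dat.comp_hom, hD]; rfl
    · rw [pow_succ]
      exact Dat.comp_lip (by positivity) (exists_step (n + k)).choose_spec.1 hL

theorem main : SeqExists := by
  refine ⟨SS, ?_⟩
  refine
    { p_pos := fun n => (pq_inv n).1
      q_pos := fun n => (pq_inv n).2.1
      coprime := fun n => (pq_inv n).2.2.2.2.2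
      inj := fun n => Dat.hom_injective _ (exists_step n).choose_spec.2.1
      maps := fun n => (exists_step n).choose_spec.2.2.1
      collapse := ?_
      left := fun n => (exists_step n).choose_spec.2.2.2.1
      right := fun n => (exists_step n).choose_spec.2.2.2.2 }
  choose D hD hL using exists_comp
  refine ⟨fun n k => ⟨fun s => (D n k).U s * star ((D n k).U 0),
    (D n k).U.continuous.mul continuous_const⟩, fun n k s => ?_, fun n k => ?_, ?_⟩
  · exact mul_mem ((D n k).hU s) (Unitary.star_mem ((D n k).hU 0))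
  · exact (Unitary.mem_iff.1 ((D n k).hU 0)).2
  · intro n f ε hε
    have hu := CompactSpace.uniformContinuous_of_continuous f.continuous
    rw [Metric.uniformContinuous_iff] at hu
    obtain ⟨δ, hδ, hf⟩ := hu ε hε
    obtain ⟨k₀, hk₀⟩ := exists_pow_lt_of_lt_one hδ (by norm_num : (1 / 2 : ℝ) < 1)
    refine ⟨k₀, fun k hk s => ?_⟩
    have h := (D n k).collapse (hL n k) (by positivity)
      (lt_of_le_of_lt (pow_le_pow_of_le_one (by norm_num) (by norm_num) hk) hk₀) hε.le f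
      (fun a b hab => by
        have := hf hab
        rw [dist_eq_norm] at this
        exact this.le) s
    rw [hD] at h
    exact h

end Vale.Agent.JS.PartC
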