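import Vale.Agent.P095JS.PartA
import Vale.Agent.P101.StmtZ

/-! Part G: the tensor square of the limit algebra. -/

open Filter Topology
open scoped Kronecker Matrix.Norms.L2Operator TensorProduct

namespace Vale.Agent.JS.PartG

open Vale.Agent.JS.PartA

universe u

section Mat

variable {n m : Type} [Fintype n] [DecidableEq n] [Fintype m] [DecidableEq m]

lemma norm_le_of_vec (X : Matrix n n ℂ) (C : ℝ) (hC : 0 ≤ C)
    (h : ∀ ξ η : EuclideanSpace ℂ n,
      ‖star η.ofLp ⬝ᵥ (X.mulVec ξ.ofLp)‖ ≤ C * ‖η‖ * ‖ξ‖) : ‖X‖ ≤ C := by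
  rw [Matrix.l2_opNorm_def]
  refine ContinuousLinearMap.opNorm_le_bound _ hC fun ξ => ?_
  set η : EuclideanSpace ℂ n := (Matrix.toEuclideanLin ≪≫ₗ LinearMap.toContinuousLinearMap) X ξ
    with hη
  have h1 : ‖star η.ofLp ⬝ᵥ (X.mulVec ξ.ofLp)‖ = ‖η‖ ^ 2 := by
    have h2 : X.mulVec ξ.ofLp = η.ofLp := rfl
    rw [h2]
    have h3 : star η.ofLp ⬝ᵥ η.ofLp = inner ℂ η η := by
      rw [EuclideanSpace.inner_eq_star_dotProduct, dotProduct_comm]
    rw [h3, inner_self_eq_norm_sq_to_K]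
    simp
  have h4 := h ξ η
  rw [h1] at h4
  rcases (norm_nonneg η).eq_or_lt with h0 | h0
  · rw [← h0]; positivity
  · have : ‖η‖ * ‖η‖ ≤ ‖η‖ * (C * ‖ξ‖) := by nlinarith
    exact le_of_mul_le_mul_left this h0

/-- The map `x ↦ ξ ⊗ x`. -/
def V (m : Type) [DecidableEq m] (ξ : n → ℂ) : Matrix (n × m) m ℂ :=
  Matrix.of fun i j => ξ i.1 * (1 : Matrix m m ℂ) i.2 j

lemma V_mul (ξ η : n → ℂ) (A : Matrix n n ℂ) (B : Matrix m m ℂ) :
    (V m η).conjTranspose * (A ⊗ₖ B) * V m ξ = (star η ⬝ᵥ A.mulVec ξ) • B := by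
  ext j j'
  simp only [Matrix.mul_apply, V, Matrix.conjTranspose_apply, Matrix.of_apply,
    Fintype.sum_prod_type, Matrix.kroneckerMap_apply, Matrix.one_apply, Matrix.smul_apply,
    smul_eq_mul, dotProduct, Matrix.mulVec, Pi.star_apply]
  simp only [mul_ite, mul_one, mul_zero, Finset.sum_ite_eq, Finset.mem_univ, if_true, star_mul',
    apply_ite star, star_one, star_zero, ite_mul, zero_mul, Finset.sum_ite_eq', Finset.sum_mul,
    Finset.mul_sum]
  rw [Finset.sum_comm]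
  refine Finset.sum_congr rfl fun i _ => Finset.sum_congr rfl fun k _ => ?_
  ring

lemma norm_V_le (ξ : EuclideanSpace ℂ n) : ‖V m ξ.ofLp‖ ≤ ‖ξ‖ := by
  have h1 : (V m ξ.ofLp).conjTranspose * V m ξ.ofLp = (star ξ.ofLp ⬝ᵥ ξ.ofLp) • (1 : Matrix m m ℂ) := by
    have := V_mul (m := m) ξ.ofLp ξ.ofLp 1 1
    rwa [Matrix.one_kronecker_one, Matrix.mul_one, Matrix.one_mulVec] at this
  have h2 := Matrix.l2_opNorm_conjTranspose_mul_self (V m ξ.ofLp)
  rw [h1] at h2
  have h3 : star ξ.ofLp ⬝ᵥ ξ.ofLp = inner ℂ ξ ξ := by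
    rw [EuclideanSpace.inner_eq_star_dotProduct, dotProduct_comm]
  have h4 : ‖(1 : Matrix m m ℂ)‖ ≤ 1 := by
    rcases subsingleton_or_nontrivial (Matrix m m ℂ) with hs | hs
    · rw [Subsingleton.elim (1 : Matrix m m ℂ) 0, norm_zero]; exact zero_le_one
    · exact CStarRing.norm_one.le
  have h5 : ‖V m ξ.ofLp‖ * ‖V m ξ.ofLp‖ ≤ ‖ξ‖ * ‖ξ‖ := by
    rw [← h2, norm_smul, h3, inner_self_eq_norm_sq_to_K]
    calc ‖((‖ξ‖ : ℂ)) ^ 2‖ * ‖(1 : Matrix m m ℂ)‖ ≤ ‖((‖ξ‖ : ℂ)) ^ 2‖ * 1 :=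
          mul_le_mul_of_nonneg_left h4 (norm_nonneg _)
      _ = ‖ξ‖ * ‖ξ‖ := by rw [norm_pow, Complex.norm_real, norm_norm, mul_one, _root_.sq]
  exact (mul_self_le_mul_self_iff (norm_nonneg _) (norm_nonneg _)).mpr h5

lemma norm_slice_le {κ : Type*} (s : Finset κ) (A : κ → Matrix n n ℂ) (B : κ → Matrix m m ℂ)
    (ξ η : EuclideanSpace ℂ n) :
    ‖∑ k ∈ s, (star η.ofLp ⬝ᵥ (A k).mulVec ξ.ofLp) • B k‖ ≤
      ‖η‖ * ‖∑ k ∈ s, A k ⊗ₖ B k‖ * ‖ξ‖ := by
  have h1 : ∑ k ∈ s, (star η.ofLp ⬝ᵥ (A k).mulVec ξ.ofLp) • B k =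
      (V m η.ofLp).conjTranspose * (∑ k ∈ s, A k ⊗ₖ B k) * V m ξ.ofLp := by
    rw [Matrix.mul_sum, Matrix.sum_mul]
    exact Finset.sum_congr rfl fun k _ => (V_mul _ _ _ _).symm
  rw [h1]
  refine (Matrix.l2_opNorm_mul _ _).trans ?_
  refine mul_le_mul ((Matrix.l2_opNorm_mul _ _).trans ?_) (norm_V_le ξ) (norm_nonneg _)
    (by positivity)
  refine mul_le_mul_of_nonneg_right ?_ (norm_nonneg _)
  rw [Matrix.l2_opNorm_conjTranspose]
  exact norm_V_le η

end Mat

section Level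

variable {p q : ℕ}

/-- The slice inequality at one level. -/
lemma slice {κ : Type*} (s : Finset κ) (a b : κ → DD p q) (τ : DD p q →ₗ[ℂ] ℂ) (C : ℝ)
    (hC : 0 ≤ C) (hτ : ∀ x : DD p q, ‖τ x‖ ≤ C * ‖(x : CM p q)‖) :
    ‖∑ k ∈ s, τ (b k) • (a k : CM p q)‖ ≤
      C * ‖∑ k ∈ s, lft (a k : CM p q) * rgt (b k : CM p q)‖ := by
  have h0 : 0 ≤ C * ‖∑ k ∈ s, lft (a k : CM p q) * rgt (b k : CM p q)‖ := by positivity
  rw [ContinuousMap.norm_le _ h0]
  intro t
  have e1 : (∑ k ∈ s, τ (b k) • (a k : CM p q)) t = ∑ k ∈ s, τ (b k) • (a k : CM p q) t := by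
    rw [ContinuousMap.sum_apply]; rfl
  rw [e1]
  refine norm_le_of_vec _ _ h0 fun ξ η => ?_
  have e2 : star η.ofLp ⬝ᵥ (∑ k ∈ s, τ (b k) • (a k : CM p q) t).mulVec ξ.ofLp =
      τ (∑ k ∈ s, (star η.ofLp ⬝ᵥ ((a k : CM p q) t).mulVec ξ.ofLp) • b k) := by
    rw [map_sum, Matrix.sum_mulVec, dotProduct_sum]
    refine Finset.sum_congr rfl fun k _ => ?_
    rw [map_smul, Matrix.smul_mulVec, dotProduct_smul, smul_eq_mul, smul_eq_mul, mul_comm]
  rw [e2]
  refine (hτ _).trans ?_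
  rw [mul_assoc, mul_assoc]
  refine mul_le_mul_of_nonneg_left ?_ hC
  have h1 : 0 ≤ ‖∑ k ∈ s, lft (a k : CM p q) * rgt (b k : CM p q)‖ * (‖η‖ * ‖ξ‖) := by positivity
  rw [ContinuousMap.norm_le _ h1]
  intro r
  have e3 : ((∑ k ∈ s, (star η.ofLp ⬝ᵥ ((a k : CM p q) t).mulVec ξ.ofLp) • b k : DD p q) :
      CM p q) r = ∑ k ∈ s, (star η.ofLp ⬝ᵥ ((a k : CM p q) t).mulVec ξ.ofLp) • (b k : CM p q) r := by
    rw [AddSubmonoidClass.coe_finset_sum, ContinuousMap.sum_apply]; rfl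
  rw [e3]
  refine (norm_slice_le s _ _ ξ η).trans ?_
  have h2 : ‖∑ k ∈ s, (a k : CM p q) t ⊗ₖ (b k : CM p q) r‖ ≤
      ‖∑ k ∈ s, lft (a k : CM p q) * rgt (b k : CM p q)‖ := by
    have := ContinuousMap.norm_coe_le_norm (∑ k ∈ s, lft (a k : CM p q) * rgt (b k : CM p q)) (t, r)
    refine le_trans (le_of_eq ?_) this
    congr 1
    rw [ContinuousMap.sum_apply]
    refine Finset.sum_congr rfl fun k _ => ?_
    rw [ContinuousMap.mul_apply, lft_apply, rgt_apply, L12, R34, ← Matrix.mul_kronecker_mul,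
      Matrix.mul_one, Matrix.one_mul]
  calc ‖η‖ * ‖∑ k ∈ s, (a k : CM p q) t ⊗ₖ (b k : CM p q) r‖ * ‖ξ‖
      ≤ ‖η‖ * ‖∑ k ∈ s, lft (a k : CM p q) * rgt (b k : CM p q)‖ * ‖ξ‖ :=
        mul_le_mul_of_nonneg_right (mul_le_mul_of_nonneg_left h2 (norm_nonneg _)) (norm_nonneg _)
    _ = _ := by ring

end Level

section Big

variable (S : Seq)

/-- Matrix functions on the square. -/
abbrev SqA (m : ℕ) : Type := C(unitInterval × unitInterval, M4 (S.p m) (S.q m))

/-- The bounded families. -/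
def BA : StarSubalgebra ℂ (∀ i : Idx.{u}, SqA S i.down) where
  carrier := {x | ∃ K : ℝ, ∀ i, ‖x i‖ ≤ K}
  mul_mem' := by
    rintro x y ⟨K, hK⟩ ⟨D, hD⟩
    exact ⟨K * D, fun i => (norm_mul_le _ _).trans
      (mul_le_mul (hK i) (hD i) (norm_nonneg _) ((norm_nonneg _).trans (hK i)))⟩
  add_mem' := by
    rintro x y ⟨K, hK⟩ ⟨D, hD⟩
    exact ⟨K + D, fun i => (norm_add_le (x i) (y i)).trans (add_le_add (hK i) (hD i))⟩
  algebraMap_mem' := by
    intro r
    refine ⟨‖r‖ * 1, fun i => ?_⟩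
    rw [Pi.algebraMap_apply, Algebra.algebraMap_eq_smul_one]
    refine (norm_smul_le r (1 : SqA S i.down)).trans (mul_le_mul_of_nonneg_left ?_ (norm_nonneg r))
    rcases subsingleton_or_nontrivial (SqA S i.down) with hs | hs
    · rw [Subsingleton.elim (1 : SqA S i.down) 0, norm_zero]; exact zero_le_one
    · exact CStarRing.norm_one.le
  star_mem' := by
    rintro x ⟨K, hK⟩
    exact ⟨K, fun i => by simpa using hK i⟩

lemma isSeqAlgB : IsSeqAlg fil.{u} (BA.{u} S) where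
  bdd := fun x hx => hx
  cut := by
    rintro x ⟨K, hK⟩ s hs
    have hK0 : 0 ≤ K := (norm_nonneg _).trans (hK ⟨0⟩)
    refine ⟨K, fun i => ?_⟩
    by_cases hi : i ∈ s
    · rw [cutf_mem x hi]; exact hK i
    · rw [cutf_not_mem x hi, norm_zero]; exact hK0
  lim := by
    intro x hx
    obtain ⟨y, ⟨K, hK⟩, hy⟩ := hx 1 one_pos
    refine ⟨1 + K, fun i => ?_⟩
    have := norm_add_le (x i - y i) (y i)
    rw [sub_add_cancel] at this
    linarith [hy i, hK i]

/-- The congruence. -/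
noncomputable def cgB : RingCon (BA.{u} S) := nullConG fil (BA S) (isSeqAlgB S)

lemma cgB_iff (x y : BA.{u} S) : cgB S x y ↔
    Tendsto (fun i => ‖(x : ∀ i : Idx.{u}, SqA S i.down) i -
      (y : ∀ i : Idx.{u}, SqA S i.down) i‖) fil (𝓝 0) := Iff.rfl

/-- The quotient. -/
def Q : Type u := (cgB.{u} S).Quotient

noncomputable instance : CStarAlgebra (Q.{u} S) :=
  cstar (isSeqAlgB S) (cgB S) (cgB_iff S) (starQ (cgB S) (cgB_iff S)) fun _ => rfl

/-- The class of a family. -/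
noncomputable def clsB (x : BA.{u} S) : Q.{u} S := ((x : (cgB S).Quotient))

lemma clsB_eq {x y : BA.{u} S} (h : ∀ ε : ℝ, 0 < ε → ∃ N : ℕ, ∀ i : Idx.{u}, N ≤ i.down →
    ‖(x : ∀ i : Idx.{u}, SqA S i.down) i - (y : ∀ i : Idx.{u}, SqA S i.down) i‖ ≤ ε) :
    clsB S x = clsB S y := by
  have : cgB S x y := by
    rw [cgB_iff, Metric.tendsto_nhds]
    intro ε hε
    obtain ⟨N, hN⟩ := h (ε / 2) (by positivity)
    have hm : {i : Idx.{u} | N ≤ i.down} ∈ fil := mem_fil.mpr ⟨N, fun i hi => hi⟩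
    filter_upwards [hm] with i hi
    rw [dist_zero_right, norm_norm]
    exact (hN i hi).trans_lt (by linarith)
  exact ((cgB S).eq).mpr this

lemma clsB_zero {x : BA.{u} S} (h : clsB S x = 0) (ε : ℝ) (hε : 0 < ε) :
    ∃ N : ℕ, ∀ i : Idx.{u}, N ≤ i.down → ‖(x : ∀ i : Idx.{u}, SqA S i.down) i‖ ≤ ε := by
  have h1 : cgB S x 0 := ((cgB S).eq).mp h
  rw [cgB_iff, Metric.tendsto_nhds] at h1
  obtain ⟨N, hN⟩ := mem_fil.mp (h1 ε hε)
  refine ⟨N, fun i hi => ?_⟩
  have h2 : dist _ (0 : ℝ) < ε := hN i hi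
  rw [dist_zero_right, norm_norm] at h2
  refine le_trans (le_of_eq ?_) h2.le
  congr 1
  exact (sub_zero _).symm

end Big

section Ext

lemma isClosed_DD (p q : ℕ) : IsClosed (DD p q : Set (CM p q)) := by
  have h1 : ∀ (t : unitInterval) (a : MM p q), IsClosed {f : CM p q | Commute (f t) a} := by
    intro t a
    have : {f : CM p q | Commute (f t) a} = {f : CM p q | f t * a = a * f t} := rfl
    rw [this]
    refine isClosed_eq ?_ ?_
    · exact (continuous_eval_const t).mul continuous_const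
    · exact continuous_const.mul (continuous_eval_const t)
  have h2 : (DD p q : Set (CM p q)) = (⋂ y : Matrix (Fin q) (Fin q) ℂ,
      {f : CM p q | Commute (f 0) (one2 p y)}) ∩ ⋂ x : Matrix (Fin p) (Fin p) ℂ,
      {f : CM p q | Commute (f 1) (one1 q x)} := by
    ext f
    rw [Set.mem_inter_iff, Set.mem_iInter, Set.mem_iInter]
    exact Iff.rfl
  rw [h2]
  exact (isClosed_iInter fun y => h1 _ _).inter (isClosed_iInter fun x => h1 _ _)

variable {S : Seq} {Z : Type u} [CStarAlgebra Z]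
  {ι : ∀ n, DD (S.p n) (S.q n) →⋆ₐ[ℂ] Z}

lemma norm_iota (hinj : ∀ n, Function.Injective (ι n)) (n : ℕ) (f : DD (S.p n) (S.q n)) :
    ‖ι n f‖ = ‖(f : CM (S.p n) (S.q n))‖ := by
  have := isClosed_DD (S.p n) (S.q n)
  exact NonUnitalStarAlgHom.norm_map (ι n) (hinj n) f

variable (ι) in
/-- The sequence `s` approximates `z`. -/
def App (z : Z) (s : ∀ m, DD (S.p m) (S.q m)) : Prop :=
  (∃ K : ℝ, ∀ m, ‖(s m : CM (S.p m) (S.q m))‖ ≤ K) ∧
    ∀ ε : ℝ, 0 < ε → ∃ N : ℕ, ∀ m, N ≤ m → ‖ι m (s m) - z‖ ≤ ε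

lemma range_mono (hS : S.Good) (hc : ∀ n (f : DD (S.p n) (S.q n)), ι (n + 1) ⟨S.Φ n f, hS.maps n f f.2⟩ = ι n f) :
    Monotone fun n => Set.range (ι n) := by
  refine monotone_nat_of_le_succ fun n => ?_
  rintro _ ⟨f, rfl⟩
  exact ⟨_, hc n f⟩

lemma exists_app (hS : S.Good) (hc : ∀ n (f : DD (S.p n) (S.q n)), ι (n + 1) ⟨S.Φ n f, hS.maps n f f.2⟩ = ι n f)
    (hinj : ∀ n, Function.Injective (ι n)) (hd : Dense (⋃ n, Set.range (ι n))) (z : Z) :
    ∃ s, App ι z s := by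
  have h1 : ∀ m : ℕ, ∃ f : DD (S.p m) (S.q m),
      ‖ι m f - z‖ < Metric.infDist z (Set.range (ι m)) + 1 / ((m : ℝ) + 1) := by
    intro m
    have h : Metric.infDist z (Set.range (ι m)) <
        Metric.infDist z (Set.range (ι m)) + 1 / ((m : ℝ) + 1) := by
      have : 0 < 1 / ((m : ℝ) + 1) := by positivity
      linarith
    obtain ⟨_, ⟨f, rfl⟩, hf⟩ := (Metric.infDist_lt_iff (Set.range_nonempty _)).mp h
    exact ⟨f, by rw [← dist_eq_norm, dist_comm]; exact hf⟩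
  choose s hs using h1
  refine ⟨s, ⟨2 * ‖z‖ + 1, fun m => ?_⟩, fun ε hε => ?_⟩
  · rw [← norm_iota hinj]
    have h2 : Metric.infDist z (Set.range (ι m)) ≤ ‖z‖ := by
      have := Metric.infDist_le_dist_of_mem (x := z) (s := Set.range (ι m)) ⟨0, map_zero _⟩
      rwa [dist_zero_right] at this
    have h3 : 1 / ((m : ℝ) + 1) ≤ 1 := by
      rw [div_le_one (by positivity)]
      have : (0 : ℝ) ≤ m := Nat.cast_nonneg m
      linarith
    have h4 := norm_add_le (ι m (s m) - z) z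
    rw [sub_add_cancel] at h4
    linarith [hs m]
  · obtain ⟨y, hy, hyz⟩ := (Metric.mem_closure_iff.mp (hd z)) (ε / 2) (by positivity)
    obtain ⟨N, hN⟩ := Set.mem_iUnion.mp hy
    obtain ⟨M, hM⟩ := exists_nat_one_div_lt (show (0 : ℝ) < ε / 2 by positivity)
    refine ⟨max N M, fun m hm => ?_⟩
    have h2 : Metric.infDist z (Set.range (ι m)) ≤ dist z y :=
      Metric.infDist_le_dist_of_mem (range_mono hS hc ((le_max_left _ _).trans hm) hN)
    have h3 : 1 / ((m : ℝ) + 1) ≤ 1 / ((M : ℝ) + 1) := by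
      have : (M : ℝ) ≤ m := by exact_mod_cast (le_max_right _ _).trans hm
      exact one_div_le_one_div_of_le (by positivity) (by linarith)
    linarith [hs m]

lemma App.add {z w : Z} {s t} (hs : App ι z s) (ht : App ι w t) :
    App ι (z + w) (fun m => s m + t m) := by
  obtain ⟨⟨K, hK⟩, hs⟩ := hs
  obtain ⟨⟨D, hD⟩, ht⟩ := ht
  refine ⟨⟨K + D, fun m => (norm_add_le _ _).trans (add_le_add (hK m) (hD m))⟩, fun ε hε => ?_⟩
  obtain ⟨N, hN⟩ := hs (ε / 2) (by positivity)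
  obtain ⟨M, hM⟩ := ht (ε / 2) (by positivity)
  refine ⟨max N M, fun m hm => ?_⟩
  have e : ι m (s m + t m) - (z + w) = (ι m (s m) - z) + (ι m (t m) - w) := by
    rw [map_add]; abel
  rw [e]
  refine (norm_add_le _ _).trans ?_
  linarith [hN m ((le_max_left _ _).trans hm), hM m ((le_max_right _ _).trans hm)]

lemma App.mul (hinj : ∀ n, Function.Injective (ι n)) {z w : Z} {s t} (hs : App ι z s)
    (ht : App ι w t) : App ι (z * w) (fun m => s m * t m) := by
  obtain ⟨⟨K, hK⟩, hs⟩ := hs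
  obtain ⟨⟨D, hD⟩, ht⟩ := ht
  have hK0 : 0 ≤ K := (norm_nonneg _).trans (hK 0)
  have hD0 : 0 ≤ D := (norm_nonneg _).trans (hD 0)
  refine ⟨⟨K * D, fun m => (norm_mul_le _ _).trans
    (mul_le_mul (hK m) (hD m) (norm_nonneg _) hK0)⟩, fun ε hε => ?_⟩
  obtain ⟨N, hN⟩ := hs (ε / (2 * (‖w‖ + 1))) (by positivity)
  obtain ⟨M, hM⟩ := ht (ε / (2 * (K + 1))) (by positivity)
  refine ⟨max N M, fun m hm => ?_⟩
  have e : ι m (s m * t m) - z * w = ι m (s m) * (ι m (t m) - w) + (ι m (s m) - z) * w := by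
    rw [map_mul]; noncomm_ring
  rw [e]
  have h1 := hN m ((le_max_left _ _).trans hm)
  have h2 := hM m ((le_max_right _ _).trans hm)
  have h3 : ‖ι m (s m)‖ ≤ K := by rw [norm_iota hinj]; exact hK m
  calc ‖ι m (s m) * (ι m (t m) - w) + (ι m (s m) - z) * w‖
      ≤ ‖ι m (s m)‖ * ‖ι m (t m) - w‖ + ‖ι m (s m) - z‖ * ‖w‖ :=
        (norm_add_le _ _).trans (add_le_add (norm_mul_le _ _) (norm_mul_le _ _))
    _ ≤ (K + 1) * (ε / (2 * (K + 1))) + ε / (2 * (‖w‖ + 1)) * (‖w‖ + 1) := by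
        refine add_le_add (mul_le_mul (by linarith) h2 (norm_nonneg _) (by positivity))
          (mul_le_mul h1 (by linarith [norm_nonneg w]) (norm_nonneg _) (by positivity))
    _ = ε := by field_simp; ring

lemma App.star {z : Z} {s} (hs : App ι z s) : App ι (star z) (fun m => star (s m)) := by
  obtain ⟨⟨K, hK⟩, hs⟩ := hs
  refine ⟨⟨K, fun m => ?_⟩, fun ε hε => ?_⟩
  · have : ((Star.star (s m) : DD (S.p m) (S.q m)) : CM (S.p m) (S.q m)) =
        Star.star (s m : CM (S.p m) (S.q m)) := rfl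
    rw [this]
    exact (norm_star (s m : CM (S.p m) (S.q m))).trans_le (hK m)
  · obtain ⟨N, hN⟩ := hs ε hε
    refine ⟨N, fun m hm => ?_⟩
    rw [map_star, ← star_sub, norm_star]
    exact hN m hm

lemma App.scalar (r : ℂ) : App ι (algebraMap ℂ Z r)
    (fun m => algebraMap ℂ (DD (S.p m) (S.q m)) r) := by
  refine ⟨⟨‖r‖ * 1, fun m => ?_⟩, fun ε hε => ⟨0, fun m _ => ?_⟩⟩
  · have : ((algebraMap ℂ (DD (S.p m) (S.q m)) r : DD (S.p m) (S.q m)) :
        CM (S.p m) (S.q m)) = r • 1 := by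
      rw [Algebra.algebraMap_eq_smul_one]; rfl
    rw [this]
    refine (norm_smul_le r (1 : CM (S.p m) (S.q m))).trans
      (mul_le_mul_of_nonneg_left ?_ (norm_nonneg r))
    rcases subsingleton_or_nontrivial (CM (S.p m) (S.q m)) with hs | hs
    · rw [Subsingleton.elim (1 : CM (S.p m) (S.q m)) 0, norm_zero]; exact zero_le_one
    · exact CStarRing.norm_one.le
  · rw [AlgHomClass.commutes, sub_self, norm_zero]
    exact hε.le

lemma App.unique (hinj : ∀ n, Function.Injective (ι n)) {z : Z} {s t} (hs : App ι z s)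
    (ht : App ι z t) (ε : ℝ) (hε : 0 < ε) :
    ∃ N : ℕ, ∀ m, N ≤ m → ‖(s m : CM (S.p m) (S.q m)) - (t m : CM (S.p m) (S.q m))‖ ≤ ε := by
  obtain ⟨N, hN⟩ := hs.2 (ε / 2) (by positivity)
  obtain ⟨M, hM⟩ := ht.2 (ε / 2) (by positivity)
  refine ⟨max N M, fun m hm => ?_⟩
  have e1 : (s m : CM (S.p m) (S.q m)) - (t m : CM (S.p m) (S.q m)) =
    ((s m - t m : DD (S.p m) (S.q m)) : CM (S.p m) (S.q m)) := rfl
  have e3 : ι m (s m - t m) = ι m (s m) - ι m (t m) := map_sub (ι m) (s m) (t m)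
  rw [e1, ← norm_iota hinj, e3]
  have e2 : ι m (s m) - ι m (t m) = (ι m (s m) - z) - (ι m (t m) - z) := by abel
  rw [e2]
  refine (norm_sub_le _ _).trans ?_
  linarith [hN m ((le_max_left _ _).trans hm), hM m ((le_max_right _ _).trans hm)]

end Ext

section Maps

variable {S : Seq} {Z : Type u} [CStarAlgebra Z] {ι : ∀ n, DD (S.p n) (S.q n) →⋆ₐ[ℂ] Z}
  (g : ∀ m, CM (S.p m) (S.q m) →⋆ₐ[ℂ] SqA S m)

/-- The family of images. -/
noncomputable def fam (s : ∀ m, DD (S.p m) (S.q m)) : ∀ i : Idx.{u}, SqA S i.down :=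
  fun i => g i.down (s i.down : CM (S.p i.down) (S.q i.down))

lemma fam_mem {s : ∀ m, DD (S.p m) (S.q m)}
    (hs : ∃ K : ℝ, ∀ m, ‖(s m : CM (S.p m) (S.q m))‖ ≤ K) : fam.{u} g s ∈ BA S := by
  obtain ⟨K, hK⟩ := hs
  exact ⟨K, fun i => (NonUnitalStarAlgHom.norm_apply_le (g i.down) _).trans (hK _)⟩

/-- The class of a family of images. -/
noncomputable def cl (s : ∀ m, DD (S.p m) (S.q m))
    (hs : ∃ K : ℝ, ∀ m, ‖(s m : CM (S.p m) (S.q m))‖ ≤ K) : Q.{u} S :=
  clsB S ⟨fam g s, fam_mem g hs⟩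

lemma cl_eq {s t : ∀ m, DD (S.p m) (S.q m)}
    (hs : ∃ K : ℝ, ∀ m, ‖(s m : CM (S.p m) (S.q m))‖ ≤ K)
    (ht : ∃ K : ℝ, ∀ m, ‖(t m : CM (S.p m) (S.q m))‖ ≤ K)
    (h : ∀ ε : ℝ, 0 < ε → ∃ N : ℕ, ∀ m, N ≤ m →
      ‖(s m : CM (S.p m) (S.q m)) - (t m : CM (S.p m) (S.q m))‖ ≤ ε) :
    cl.{u} g s hs = cl g t ht := by
  refine clsB_eq S fun ε hε => ?_
  obtain ⟨N, hN⟩ := h ε hε
  refine ⟨N, fun i hi => ?_⟩
  have e : fam.{u} g s i - fam g t i =
      g i.down ((s i.down : CM (S.p i.down) (S.q i.down)) - t i.down) := (map_sub _ _ _).symm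
  change ‖fam.{u} g s i - fam g t i‖ ≤ ε
  rw [e]
  exact (NonUnitalStarAlgHom.norm_apply_le (g i.down) _).trans (hN _ hi)

variable (hinj : ∀ n, Function.Injective (ι n)) (hex : ∀ z, ∃ s, App ι z s)

/-- The extension to `Z`. -/
noncomputable def extFun (z : Z) : Q.{u} S := cl g (hex z).choose (hex z).choose_spec.1

include hinj in
lemma extFun_eq {z : Z} {s : ∀ m, DD (S.p m) (S.q m)} (hs : App ι z s) :
    extFun g hex z = cl g s hs.1 :=
  cl_eq g _ _ fun ε hε => App.unique hinj (hex z).choose_spec hs ε hε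

/-- The extension to `Z` as a homomorphism. -/
noncomputable def ext : Z →⋆ₐ[ℂ] Q.{u} S where
  toFun := extFun g hex
  map_one' := by
    have h : App ι (1 : Z) (fun m => algebraMap ℂ (DD (S.p m) (S.q m)) 1) := by
      have := App.scalar (ι := ι) 1
      rwa [map_one] at this
    rw [extFun_eq g hinj hex h]
    refine congrArg (clsB S) (Subtype.ext (funext fun i => ?_))
    change g i.down ((algebraMap ℂ (DD (S.p i.down) (S.q i.down)) 1 :
      DD (S.p i.down) (S.q i.down)) : CM _ _) = 1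
    rw [map_one]
    exact map_one _
  map_mul' z w := by
    obtain ⟨s, hs⟩ := hex z
    obtain ⟨t, ht⟩ := hex w
    rw [extFun_eq g hinj hex hs, extFun_eq g hinj hex ht,
      extFun_eq g hinj hex (App.mul hinj hs ht)]
    refine congrArg (clsB S) (Subtype.ext (funext fun i => ?_))
    exact map_mul (g i.down) _ _
  map_zero' := by
    have h : App ι (0 : Z) (fun m => algebraMap ℂ (DD (S.p m) (S.q m)) 0) := by
      have := App.scalar (ι := ι) 0
      rwa [map_zero] at this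
    rw [extFun_eq g hinj hex h]
    refine congrArg (clsB S) (Subtype.ext (funext fun i => ?_))
    change g i.down ((algebraMap ℂ (DD (S.p i.down) (S.q i.down)) 0 :
      DD (S.p i.down) (S.q i.down)) : CM _ _) = 0
    rw [map_zero]
    exact map_zero _
  map_add' z w := by
    obtain ⟨s, hs⟩ := hex z
    obtain ⟨t, ht⟩ := hex w
    rw [extFun_eq g hinj hex hs, extFun_eq g hinj hex ht, extFun_eq g hinj hex (App.add hs ht)]
    refine congrArg (clsB S) (Subtype.ext (funext fun i => ?_))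
    exact map_add (g i.down) _ _
  commutes' r := by
    rw [extFun_eq g hinj hex (App.scalar r), Algebra.algebraMap_eq_smul_one (A := Q S)]
    refine congrArg (clsB S) (Subtype.ext (funext fun i => ?_))
    have : g i.down ((algebraMap ℂ (DD (S.p i.down) (S.q i.down)) r :
      DD (S.p i.down) (S.q i.down)) : CM _ _) = r • 1 := by
      rw [← Algebra.algebraMap_eq_smul_one]
      exact AlgHomClass.commutes (g i.down) r
    exact this
  map_star' z := by
    obtain ⟨s, hs⟩ := hex z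
    rw [extFun_eq g hinj hex hs, extFun_eq g hinj hex (App.star hs)]
    refine congrArg (clsB S) (Subtype.ext (funext fun i => ?_))
    exact map_star (g i.down) _

lemma ext_eq {z : Z} {s : ∀ m, DD (S.p m) (S.q m)} (hs : App ι z s) :
    ext g hinj hex z = cl g s hs.1 := extFun_eq g hinj hex hs

end Maps

section Final

variable {S : Seq} {Z : Type u} [CStarAlgebra Z] {ι : ∀ n, DD (S.p n) (S.q n) →⋆ₐ[ℂ] Z}
  (hinj : ∀ n, Function.Injective (ι n)) (hex : ∀ z, ∃ s, App ι z s)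

/-- The first embedding. -/
noncomputable def iL : Z →⋆ₐ[ℂ] Q.{u} S := ext (fun _ => lft) hinj hex

/-- The second embedding. -/
noncomputable def iR : Z →⋆ₐ[ℂ] Q.{u} S := ext (fun _ => rgt) hinj hex

lemma comm (z w : Z) : Commute (iL hinj hex z) (iR hinj hex w) := by
  obtain ⟨s, hs⟩ := hex z
  obtain ⟨t, ht⟩ := hex w
  rw [iL, iR, ext_eq _ hinj hex hs, ext_eq _ hinj hex ht]
  refine congrArg (clsB S) (Subtype.ext (funext fun i => ?_))
  refine ContinuousMap.ext fun x => ?_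
  change L12 _ * R34 _ = R34 _ * L12 _
  simp [L12, R34, ← Matrix.mul_kronecker_mul]

/-- The quotient map. -/
noncomputable def clsHom (S : Seq) : BA.{u} S →+* Q.{u} S where
  toFun := clsB S
  map_one' := rfl
  map_mul' _ _ := rfl
  map_zero' := rfl
  map_add' _ _ := rfl

lemma App.tendsto {z : Z} {s : ∀ m, DD (S.p m) (S.q m)} (hs : App ι z s) :
    Tendsto (fun m => ι m (s m)) atTop (𝓝 z) := by
  rw [Metric.tendsto_atTop]
  intro ε hε
  obtain ⟨N, hN⟩ := hs.2 (ε / 2) (by positivity)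
  refine ⟨N, fun m hm => ?_⟩
  rw [dist_eq_norm]
  exact (hN m hm).trans_lt (by linarith)

lemma slice_zero {κ : Type*} (F : Finset κ) (a b : κ → Z) (τ : Z →L[ℂ] ℂ)
    (h : ∑ k ∈ F, iL hinj hex (a k) * iR hinj hex (b k) = 0) :
    ∑ k ∈ F, τ (b k) • a k = 0 := by
  choose s hs using fun k => hex (a k)
  choose t ht using fun k => hex (b k)
  have h1 : Tendsto (fun m => ∑ k ∈ F, τ (ι m (t k m)) • ι m (s k m)) atTop
      (𝓝 (∑ k ∈ F, τ (b k) • a k)) :=
    tendsto_finset_sum _ fun k _ =>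
      ((τ.continuous.tendsto _).comp (ht k).tendsto).smul (hs k).tendsto
  have h2 : Tendsto (fun m => ∑ k ∈ F, τ (ι m (t k m)) • ι m (s k m)) atTop (𝓝 0) := by
    let x : κ → BA.{u} S := fun k => ⟨fam (fun _ => lft) (s k), fam_mem _ (hs k).1⟩
    let y : κ → BA.{u} S := fun k => ⟨fam (fun _ => rgt) (t k), fam_mem _ (ht k).1⟩
    have h3 : clsHom S (∑ k ∈ F, x k * y k) = 0 := by
      rw [map_sum, ← h]
      refine Finset.sum_congr rfl fun k _ => ?_
      rw [map_mul, iL, iR, ext_eq _ hinj hex (hs k), ext_eq _ hinj hex (ht k)]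
      rfl
    rw [Metric.tendsto_atTop]
    intro ε hε
    obtain ⟨N, hN⟩ := clsB_zero S (x := ∑ k ∈ F, x k * y k) h3 (ε / (2 * (‖τ‖ + 1)))
      (by positivity)
    refine ⟨N, fun m hm => ?_⟩
    have h4 := hN ⟨m⟩ hm
    have h5 : ((∑ k ∈ F, x k * y k : BA.{u} S) : ∀ i : Idx.{u}, SqA S i.down) ⟨m⟩ =
        ∑ k ∈ F, lft (s k m : CM (S.p m) (S.q m)) * rgt (t k m : CM (S.p m) (S.q m)) := by
      rw [AddSubmonoidClass.coe_finset_sum, Finset.sum_apply]
      rfl
    rw [h5] at h4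
    rw [dist_zero_right]
    let τm : DD (S.p m) (S.q m) →ₗ[ℂ] ℂ := τ.toLinearMap ∘ₗ (ι m).toAlgHom.toLinearMap
    have h6 := slice F (fun k => s k m) (fun k => t k m) τm ‖τ‖ (norm_nonneg _) (fun x => by
      refine (τ.le_opNorm (ι m x)).trans (le_of_eq ?_)
      rw [norm_iota hinj])
    have h7 : ‖∑ k ∈ F, τ (ι m (t k m)) • ι m (s k m)‖ =
        ‖∑ k ∈ F, τm (t k m) • (s k m : CM (S.p m) (S.q m))‖ := by
      have e1 : ∑ k ∈ F, τ (ι m (t k m)) • ι m (s k m) = ι m (∑ k ∈ F, τm (t k m) • s k m) := by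
        rw [map_sum]
        refine Finset.sum_congr rfl fun k _ => ?_
        rw [map_smul]
        rfl
      rw [e1, norm_iota hinj, AddSubmonoidClass.coe_finset_sum]
      rfl
    rw [h7]
    refine h6.trans_lt ?_
    have h8 : ‖τ‖ * (ε / (2 * (‖τ‖ + 1))) < ε := by
      have : ‖τ‖ * (ε / (2 * (‖τ‖ + 1))) ≤ (‖τ‖ + 1) * (ε / (2 * (‖τ‖ + 1))) :=
        mul_le_mul_of_nonneg_right (by linarith) (by positivity)
      have e : (‖τ‖ + 1) * (ε / (2 * (‖τ‖ + 1))) = ε / 2 := by field_simp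
      linarith
    exact (mul_le_mul_of_nonneg_left h4 (norm_nonneg _)).trans_lt h8
  exact tendsto_nhds_unique h1 h2

lemma lift_injective : Function.Injective (Algebra.TensorProduct.lift
    (iL hinj hex : Z →ₐ[ℂ] Q.{u} S) (iR hinj hex : Z →ₐ[ℂ] Q.{u} S) (comm hinj hex)) := by
  classical
  rw [injective_iff_map_eq_zero]
  intro t ht
  let B := Module.Basis.ofVectorSpace ℂ Z
  set c := TensorProduct.equivFinsuppOfBasisRight B t with hc
  have h1 : t = c.sum fun k m => m ⊗ₜ[ℂ] B k := by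
    rw [← TensorProduct.equivFinsuppOfBasisRight_symm_apply, hc, LinearEquiv.symm_apply_apply]
  suffices hc0 : c = 0 by
    rw [h1, hc0, Finsupp.sum_zero_index]
  have h2 : ∑ k ∈ c.support, iL hinj hex (c k) * iR hinj hex (B k) = 0 := by
    rw [← ht]
    conv_rhs => rw [h1]
    rw [Finsupp.sum, map_sum]
    refine Finset.sum_congr rfl fun k _ => ?_
    rw [Algebra.TensorProduct.lift_tmul]
    rfl
  let f : (c.support → ℂ) →ₗ[ℂ] Z := Fintype.linearCombination ℂ (fun k : c.support => B k)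
  have hf : Function.Injective f := by
    have := B.linearIndependent.comp (fun k : c.support => (k : _)) Subtype.val_injective
    exact linearIndependent_iff_injective_fintypeLinearCombination.mp this
  have hsur := (SeparatingDual.dualMap_surjective_iff (R := ℂ) (f := f)).mpr hf
  ext k0
  by_cases hk0 : k0 ∈ c.support
  · obtain ⟨τ, hτ⟩ := hsur (LinearMap.proj ⟨k0, hk0⟩)
    have h3 : ∀ k (hk : k ∈ c.support), τ (B k) = if k = k0 then 1 else 0 := by
      intro k hk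
      have h4 := LinearMap.congr_fun hτ (Pi.single ⟨k, hk⟩ 1)
      have h5 : f (Pi.single ⟨k, hk⟩ 1) = B k := by
        simp [f, Fintype.linearCombination_apply_single]
      have h6 : τ (B k) = (Pi.single (⟨k, hk⟩ : c.support) (1 : ℂ) : c.support → ℂ) ⟨k0, hk0⟩ := by
        rw [← h5]; exact h4
      rw [h6, Pi.single_apply]
      simp [eq_comm]
    have h7 := slice_zero hinj hex c.support c B τ h2
    rw [Finset.sum_eq_single_of_mem k0 hk0 (fun k hk hne => by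
      rw [h3 k hk, if_neg hne, zero_smul]), h3 k0 hk0, if_pos rfl, one_smul] at h7
    simpa using h7
  · simpa using hk0

end Final

section Completion

variable {Z B : Type u} [CStarAlgebra Z] [CStarAlgebra B] (i j : Z →⋆ₐ[ℂ] B)
  (comm : ∀ a z, Commute (i a) (j z))

/-- The star subalgebra of finite sums of products. -/
noncomputable def RR : StarSubalgebra ℂ B where
  toSubalgebra := (Algebra.TensorProduct.lift (i : Z →ₐ[ℂ] B) (j : Z →ₐ[ℂ] B) comm).range
  star_mem' := by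
    rintro _ ⟨t, rfl⟩
    induction t with
    | zero => rw [map_zero, star_zero]; exact Subalgebra.zero_mem _
    | add x y hx hy => rw [map_add, star_add]; exact Subalgebra.add_mem _ hx hy
    | tmul x y =>
      refine ⟨star x ⊗ₜ star y, ?_⟩
      rw [AlgHom.toRingHom_eq_coe, RingHom.coe_coe, Algebra.TensorProduct.lift_tmul,
        Algebra.TensorProduct.lift_tmul]
      change i (star x) * j (star y) = star (i x * j y)
      rw [star_mul, ← map_star, ← map_star]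
      exact (comm _ _).eq

lemma RR_le (x : Z ⊗[ℂ] Z) : Algebra.TensorProduct.lift
    (i : Z →ₐ[ℂ] B) (j : Z →ₐ[ℂ] B) comm x ∈ RR i j comm := ⟨x, rfl⟩

lemma i_mem (z : Z) : i z ∈ (RR i j comm).topologicalClosure := by
  refine StarSubalgebra.le_topologicalClosure _ ?_
  have := RR_le i j comm (z ⊗ₜ 1)
  rw [Algebra.TensorProduct.lift_tmul, map_one, mul_one] at this
  exact this

lemma j_mem (z : Z) : j z ∈ (RR i j comm).topologicalClosure := by
  refine StarSubalgebra.le_topologicalClosure _ ?_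
  have := RR_le i j comm (1 ⊗ₜ z)
  rw [Algebra.TensorProduct.lift_tmul, map_one, one_mul] at this
  exact this

/-- An injective map of the algebraic tensor product gives a completion. -/
theorem completion (hinj : Function.Injective
    (Algebra.TensorProduct.lift (i : Z →ₐ[ℂ] B) (j : Z →ₐ[ℂ] B) comm)) :
    ∃ (E : Type u) (_ : CStarAlgebra E) (i j : Z →⋆ₐ[ℂ] E),
      Vale.Agent.P101.IsTensorCompletion i j := by
  have hcl : IsClosed ((RR i j comm).topologicalClosure : Set B) :=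
    StarSubalgebra.isClosed_topologicalClosure _
  let i' : Z →⋆ₐ[ℂ] (RR i j comm).topologicalClosure :=
    i.codRestrict _ (i_mem i j comm)
  let j' : Z →⋆ₐ[ℂ] (RR i j comm).topologicalClosure :=
    j.codRestrict _ (j_mem i j comm)
  have hcomm : ∀ a z, Commute (i' a) (j' z) := fun a z => Subtype.ext (comm a z)
  have hval : ∀ x : Z ⊗[ℂ] Z, ((Algebra.TensorProduct.lift (i' : Z →ₐ[ℂ] _) (j' : Z →ₐ[ℂ] _)
      hcomm x : (RR i j comm).topologicalClosure) : B) =
      Algebra.TensorProduct.lift (i : Z →ₐ[ℂ] B) (j : Z →ₐ[ℂ] B) comm x := by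
    intro x
    induction x with
    | zero => rw [map_zero, map_zero]; rfl
    | add x y hx hy => rw [map_add, map_add, ← hx, ← hy]; rfl
    | tmul x y =>
      rw [Algebra.TensorProduct.lift_tmul, Algebra.TensorProduct.lift_tmul]
      rfl
  refine ⟨(RR i j comm).topologicalClosure,
    StarSubalgebra.cstarAlgebra (RR i j comm).topologicalClosure, i', j', hcomm, ?_, ?_⟩
  · intro x y hxy
    refine hinj ?_
    rw [← hval, ← hval, hxy]
  · intro z
    rw [Metric.mem_closure_iff]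
    intro ε hε
    obtain ⟨w, ⟨x, hx⟩, hw⟩ := Metric.mem_closure_iff.mp z.2 ε hε
    refine ⟨_, ⟨x, rfl⟩, ?_⟩
    rw [Subtype.dist_eq]
    refine lt_of_eq_of_lt ?_ hw
    congr 1
    rw [← hx]
    exact hval x

end Completion

/-- Existence of a C*-completion of the tensor square of the limit. -/
def TensorSquare : Prop :=
  ∀ (S : Seq) (hS : S.Good) (Z : Type u) [CStarAlgebra Z]
    (ι : ∀ n, DD (S.p n) (S.q n) →⋆ₐ[ℂ] Z),
    (∀ n (f : DD (S.p n) (S.q n)), ι (n + 1) ⟨S.Φ n f, hS.maps n f f.2⟩ = ι n f) →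
    (∀ n, Function.Injective (ι n)) → Dense (⋃ n, Set.range (ι n)) →
    ∃ (E : Type u) (_ : CStarAlgebra E) (i j : Z →⋆ₐ[ℂ] E),
      Vale.Agent.P101.IsTensorCompletion i j

theorem main : TensorSquare.{u} := by
  intro S hS Z _ ι hc hinj hd
  have hex : ∀ z, ∃ s, App ι z s := exists_app hS hc hinj hd
  exact completion (iL hinj hex) (iR hinj hex) (comm hinj hex) (lift_injective hinj hex)

end Vale.Agent.JS.PartG
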