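import Vale.Agent.P095JS.Iface
import Vale.Agent.P101.StmtZ

/-! Part T4: a Jiang-Su algebra has a tracial state. -/

open Filter Topology
open scoped Kronecker Matrix.Norms.L2Operator ComplexOrder

namespace Vale.Agent.JS.PartT4

universe u

section Lim

/-- A nonprincipal ultrafilter on the natural numbers. -/
noncomputable abbrev om : Ultrafilter ℕ := Filter.hyperfilter ℕ

lemma exists_lim {a : ℕ → ℂ} {K : ℝ} (h : ∀ n, ‖a n‖ ≤ K) :
    ∃ l, Tendsto a om (𝓝 l) := by
  have hc : IsCompact (Metric.closedBall (0 : ℂ) K) := isCompact_closedBall 0 K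
  have h1 : ((om.map a : Ultrafilter ℂ) : Filter ℂ) ≤ 𝓟 (Metric.closedBall (0 : ℂ) K) := by
    rw [Filter.le_principal_iff]
    exact Filter.mem_map.mpr (Filter.univ_mem' fun n => by
      simpa [dist_zero_right] using h n)
  obtain ⟨l, _, hl⟩ := hc.ultrafilter_le_nhds (om.map a) h1
  exact ⟨l, hl⟩

lemma tendsto_om {α : Type*} [TopologicalSpace α] {a : ℕ → α} {l : α}
    (h : Tendsto a atTop (𝓝 l)) : Tendsto a om (𝓝 l) :=
  h.mono_left Nat.hyperfilter_le_atTop

end Lim

section Tr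

variable {n : Type} [Fintype n] [DecidableEq n]

/-- The normalized trace. -/
noncomputable def nt (A : Matrix n n ℂ) : ℂ := (Fintype.card n : ℂ)⁻¹ * A.trace

lemma norm_entry_le (A : Matrix n n ℂ) (i : n) : ‖A i i‖ ≤ ‖A‖ := by
  have h1 := Matrix.l2_opNorm_mulVec A (EuclideanSpace.single i (1 : ℂ))
  rw [EuclideanSpace.norm_single, norm_one, mul_one] at h1
  refine le_trans ?_ h1
  have h2 := PiLp.norm_apply_le ((EuclideanSpace.equiv n ℂ).symm
    (A.mulVec (EuclideanSpace.single i (1 : ℂ)).ofLp)) i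
  refine le_trans (le_of_eq ?_) h2
  congr 1
  simp [Matrix.mulVec, dotProduct, Pi.single_apply]

lemma norm_nt_le (A : Matrix n n ℂ) : ‖nt A‖ ≤ ‖A‖ := by
  unfold nt
  rw [norm_mul, norm_inv, Complex.norm_natCast]
  rcases (Nat.eq_zero_or_pos (Fintype.card n)) with h0 | h0
  · rw [h0]; simp
  · rw [inv_mul_le_iff₀ (by exact_mod_cast h0)]
    refine (norm_sum_le _ _).trans ?_
    refine (Finset.sum_le_sum fun i _ => norm_entry_le A i).trans (le_of_eq ?_)
    rw [Finset.sum_const, nsmul_eq_mul, Finset.card_univ]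

lemma nt_nonneg (A : Matrix n n ℂ) : 0 ≤ nt (star A * A) := by
  unfold nt
  refine mul_nonneg (by positivity) ?_
  rw [Matrix.trace]
  refine Finset.sum_nonneg fun i _ => ?_
  rw [Matrix.diag_apply, Matrix.mul_apply]
  refine Finset.sum_nonneg fun j _ => ?_
  rw [Matrix.star_apply]
  exact star_mul_self_nonneg _

lemma nt_mul_comm (A B : Matrix n n ℂ) : nt (A * B) = nt (B * A) := by
  unfold nt; rw [Matrix.trace_mul_comm]

lemma nt_one [Nonempty n] : nt (1 : Matrix n n ℂ) = 1 := by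
  unfold nt
  rw [Matrix.trace_one]
  exact inv_mul_cancel₀ (by exact_mod_cast Fintype.card_ne_zero)

end Tr

section One

variable {Z : Type u} [CStarAlgebra Z]

lemma isClosed_S {p q : ℕ}
    {S : StarSubalgebra ℂ C(unitInterval, Matrix (Fin p × Fin q) (Fin p × Fin q) ℂ)}
    (hS : ∀ f, f ∈ S ↔
      (∃ x : Matrix (Fin p) (Fin p) ℂ, f 0 = x ⊗ₖ (1 : Matrix (Fin q) (Fin q) ℂ)) ∧
      (∃ y : Matrix (Fin q) (Fin q) ℂ, f 1 = (1 : Matrix (Fin p) (Fin p) ℂ) ⊗ₖ y)) :
    IsClosed (S : Set C(unitInterval, Matrix (Fin p × Fin q) (Fin p × Fin q) ℂ)) := by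
  let l0 : Matrix (Fin p) (Fin p) ℂ →ₗ[ℂ] Matrix (Fin p × Fin q) (Fin p × Fin q) ℂ :=
    { toFun := fun x => x ⊗ₖ (1 : Matrix (Fin q) (Fin q) ℂ)
      map_add' := fun x y => Matrix.add_kronecker _ _ _
      map_smul' := fun c x => Matrix.smul_kronecker _ _ _ }
  let l1 : Matrix (Fin q) (Fin q) ℂ →ₗ[ℂ] Matrix (Fin p × Fin q) (Fin p × Fin q) ℂ :=
    { toFun := fun y => (1 : Matrix (Fin p) (Fin p) ℂ) ⊗ₖ y
      map_add' := fun x y => Matrix.kronecker_add _ _ _
      map_smul' := fun c x => Matrix.kronecker_smul _ _ _ }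
  have h0 : IsClosed (LinearMap.range l0 : Set (Matrix (Fin p × Fin q) (Fin p × Fin q) ℂ)) :=
    Submodule.closed_of_finiteDimensional _
  have h1 : IsClosed (LinearMap.range l1 : Set (Matrix (Fin p × Fin q) (Fin p × Fin q) ℂ)) :=
    Submodule.closed_of_finiteDimensional _
  have e : (S : Set C(unitInterval, Matrix (Fin p × Fin q) (Fin p × Fin q) ℂ)) =
      (fun f => f 0) ⁻¹' (LinearMap.range l0 : Set _) ∩
        (fun f => f 1) ⁻¹' (LinearMap.range l1 : Set _) := by
    ext f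
    rw [SetLike.mem_coe, hS f]
    constructor
    · rintro ⟨⟨x, hx⟩, ⟨y, hy⟩⟩
      exact ⟨⟨x, hx.symm⟩, ⟨y, hy.symm⟩⟩
    · rintro ⟨⟨x, hx⟩, ⟨y, hy⟩⟩
      exact ⟨⟨x, hx.symm⟩, ⟨y, hy.symm⟩⟩
  rw [e]
  exact (h0.preimage (continuous_eval_const 0)).inter (h1.preimage (continuous_eval_const 1))

/-- The trace of one building block. -/
lemma exists_tr {p q : ℕ} (hp : 0 < p) (hq : 0 < q) {R : StarSubalgebra ℂ Z}
    (h : Vale.Agent.P101.IsDimDrop p q R) :
    ∃ τ : R →ₗ[ℂ] ℂ, (∀ x : R, ‖τ x‖ ≤ ‖(x : Z)‖) ∧ (∀ x, 0 ≤ τ (star x * x)) ∧ τ 1 = 1 ∧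
      ∀ x y, τ (x * y) = τ (y * x) := by
  obtain ⟨S, hS, ⟨e⟩⟩ := h.iso
  have hcl := isClosed_S hS
  have : Nonempty (Fin p × Fin q) := ⟨(⟨0, hp⟩, ⟨0, hq⟩)⟩
  let ev : R → Matrix (Fin p × Fin q) (Fin p × Fin q) ℂ := fun x =>
    (e.symm x : C(unitInterval, Matrix (Fin p × Fin q) (Fin p × Fin q) ℂ)) 0
  have hmul : ∀ x y, ev (x * y) = ev x * ev y := fun x y => by
    simp only [ev, map_mul]; rfl
  have hstar : ∀ x, ev (star x) = star (ev x) := fun x => by
    simp only [ev, map_star]; rfl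
  refine ⟨{ toFun := fun x => nt (ev x), map_add' := ?_, map_smul' := ?_ }, ?_, ?_, ?_, ?_⟩
  · intro x y
    have : ev (x + y) = ev x + ev y := by simp only [ev, map_add]; rfl
    rw [this]
    unfold nt
    rw [Matrix.trace_add, mul_add]
  · intro c x
    have : ev (c • x) = c • ev x := by simp only [ev, map_smul]; rfl
    rw [this]
    unfold nt
    rw [Matrix.trace_smul, smul_eq_mul, smul_eq_mul, RingHom.id_apply]
    ring
  · intro x
    change ‖nt (ev x)‖ ≤ _
    refine (norm_nt_le _).trans ?_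
    let j : S →⋆ₐ[ℂ] Z := R.subtype.comp (e : S →⋆ₐ[ℂ] R)
    have hj : Function.Injective j := Subtype.val_injective.comp e.injective
    have h1 : ‖j (e.symm x)‖ = ‖e.symm x‖ := NonUnitalStarAlgHom.norm_map j hj _
    have h2 : j (e.symm x) = x := by
      change ((e (e.symm x) : R) : Z) = x
      rw [StarAlgEquiv.apply_symm_apply]
    rw [← h2, h1]
    exact ContinuousMap.norm_coe_le_norm _ _
  · intro x
    change 0 ≤ nt (ev (star x * x))
    rw [hmul, hstar]
    exact nt_nonneg _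
  · change nt (ev 1) = 1
    have : ev 1 = 1 := by simp only [ev, map_one]; rfl
    rw [this, nt_one]
  · intro x y
    change nt (ev (x * y)) = nt (ev (y * x))
    rw [hmul, hmul, nt_mul_comm]

end One

section Main

variable {Z : Type u} [CStarAlgebra Z] {R : ℕ → StarSubalgebra ℂ Z}

lemma exists_app (hR : Monotone R) (hd : Dense (⋃ n, (R n : Set Z))) (z : Z) :
    ∃ s : ∀ n, R n, Tendsto (fun n => (s n : Z)) atTop (𝓝 z) := by
  have h1 : ∀ m : ℕ, ∃ f : R m,
      dist z (f : Z) < Metric.infDist z (R m : Set Z) + 1 / ((m : ℝ) + 1) := by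
    intro m
    have h : Metric.infDist z (R m : Set Z) <
        Metric.infDist z (R m : Set Z) + 1 / ((m : ℝ) + 1) := by
      have : 0 < 1 / ((m : ℝ) + 1) := by positivity
      linarith
    obtain ⟨y, hy, hf⟩ := (Metric.infDist_lt_iff ⟨(0 : Z), (R m).zero_mem⟩).mp h
    exact ⟨⟨y, hy⟩, hf⟩
  choose s hs using h1
  refine ⟨s, ?_⟩
  rw [Metric.tendsto_atTop]
  intro ε hε
  obtain ⟨y, hy, hyz⟩ := (Metric.mem_closure_iff.mp (hd z)) (ε / 2) (by positivity)
  obtain ⟨N, hN⟩ := Set.mem_iUnion.mp hy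
  obtain ⟨M, hM⟩ := exists_nat_one_div_lt (show (0 : ℝ) < ε / 2 by positivity)
  refine ⟨max N M, fun m hm => ?_⟩
  have h2 : Metric.infDist z (R m : Set Z) ≤ dist z y :=
    Metric.infDist_le_dist_of_mem (hR ((le_max_left _ _).trans hm) hN)
  have h3 : 1 / ((m : ℝ) + 1) ≤ 1 / ((M : ℝ) + 1) := by
    have : (M : ℝ) ≤ m := by exact_mod_cast (le_max_right _ _).trans hm
    exact one_div_le_one_div_of_le (by positivity) (by linarith)
  rw [dist_comm]
  linarith [hs m]

/-- A Jiang-Su algebra has a tracial state. -/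
theorem exists_trace {Z : Type u} [CStarAlgebra Z] (hZ : Vale.Agent.P101.IsJiangSuAlgebra Z) :
    ∃ τ : Z →ₗ[ℂ] ℂ, (∀ x, 0 ≤ τ (star x * x)) ∧ τ 1 = 1 ∧ ∀ x y, τ (x * y) = τ (y * x) := by
  obtain ⟨p, q, R, hR, hpq, hd⟩ := hZ.limit
  choose t ht1 ht2 ht3 ht4 using fun n => exists_tr (hpq n).1 (hpq n).2.1 (hpq n).2.2.2
  have happ := exists_app hR hd
  -- the limit does not depend on the approximating sequence
  have hlim : ∀ (z : Z) (s : ∀ n, R n), Tendsto (fun n => (s n : Z)) atTop (𝓝 z) →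
      ∃ l, Tendsto (fun n => t n (s n)) om (𝓝 l) := by
    intro z s hs
    obtain ⟨K, hK⟩ := (Metric.isBounded_range_of_tendsto _ hs).exists_norm_le
    exact exists_lim (K := K) fun n => (ht1 n _).trans (hK _ ⟨n, rfl⟩)
  have huniq : ∀ (z : Z) (s s' : ∀ n, R n), Tendsto (fun n => (s n : Z)) atTop (𝓝 z) →
      Tendsto (fun n => (s' n : Z)) atTop (𝓝 z) → ∀ l, Tendsto (fun n => t n (s n)) om (𝓝 l) →
      Tendsto (fun n => t n (s' n)) om (𝓝 l) := by
    intro z s s' hs hs' l hl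
    have h1 : Tendsto (fun n => t n (s' n) - t n (s n)) atTop (𝓝 0) := by
      have h2 : Tendsto (fun n => ‖(s' n : Z) - (s n : Z)‖) atTop (𝓝 0) := by
        have := (hs'.sub hs).norm
        rwa [sub_self, norm_zero] at this
      rw [tendsto_zero_iff_norm_tendsto_zero]
      refine squeeze_zero (fun n => norm_nonneg _) (fun n => ?_) h2
      rw [← map_sub]
      exact ht1 n _
    have h3 := (tendsto_om h1).add hl
    simpa using h3
  choose S hS using happ
  choose T hT using fun z => hlim z (S z) (hS z)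
  have key : ∀ (z : Z) (s : ∀ n, R n), Tendsto (fun n => (s n : Z)) atTop (𝓝 z) →
      Tendsto (fun n => t n (s n)) om (𝓝 (T z)) := fun z s hs =>
    huniq z (S z) s (hS z) hs _ (hT z)
  refine ⟨{ toFun := T, map_add' := ?_, map_smul' := ?_ }, ?_, ?_, ?_⟩
  · intro x y
    have h1 := key (x + y) (fun n => S x n + S y n) ((hS x).add (hS y))
    have h2 := (hT x).add (hT y)
    refine tendsto_nhds_unique h1 (h2.congr fun n => ?_)
    exact (map_add (t n) _ _).symm
  · intro c x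
    have h1 := key (c • x) (fun n => c • S x n) ((hS x).const_smul c)
    have h2 := (hT x).const_smul c
    refine tendsto_nhds_unique h1 (h2.congr fun n => ?_)
    exact (map_smul (t n) _ _).symm
  · intro x
    have h1 := key (star x * x) (fun n => star (S x n) * S x n) ((hS x).star.mul (hS x))
    exact ge_of_tendsto' h1 fun n => ht2 n _
  · have h1 := key 1 (fun n => 1) tendsto_const_nhds
    refine tendsto_nhds_unique h1 (tendsto_const_nhds.congr fun n => (ht3 n).symm)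
  · intro x y
    have h1 := key (x * y) (fun n => S x n * S y n) ((hS x).mul (hS y))
    have h2 := key (y * x) (fun n => S y n * S x n) ((hS y).mul (hS x))
    exact tendsto_nhds_unique h1 (h2.congr fun n => ht4 n _ _)

end Main

end Vale.Agent.JS.PartT4
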