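import Vale.Agent.P095JS.PartT3
import Vale.Agent.P095R.NStmt

/-! Part T5: an algebra with approximately inner half-flip is nuclear. -/

open Matrix
open scoped ComplexOrder TensorProduct ComplexStarModule

namespace Vale.Agent.JS.PartT5

open Vale.Agent.P095R

universe u

section CP

theorem exists_root_of_nonneg {E : Type*} [NonUnitalCStarAlgebra E] [PartialOrder E]
    [StarOrderedRing E] {a : E} (h : 0 ≤ a) : ∃ y : E, a = star y * y :=
  CStarAlgebra.nonneg_iff_eq_star_mul_self.1 h

/-- a Gram matrix with finitely many rows is the Gram matrix of a square matrix -/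
theorem exists_square {B : Type*} [NonUnitalCStarAlgebra B] {N : ℕ} {ι : Type*} (s : Finset ι)
    (Z : ι → Fin N → B) : ∃ Y : Matrix (Fin N) (Fin N) B,
      ∀ i j, ∑ r ∈ s, star (Z r i) * Z r j = (Y.conjTranspose * Y) i j := by
  let _ := CStarAlgebra.spectralOrder B
  have := CStarAlgebra.spectralOrderedRing B
  rcases N with _ | N
  · exact ⟨0, fun i => i.elim0⟩
  let R : ι → CStarMatrix (Fin (N+1)) (Fin (N+1)) B := fun r =>
    CStarMatrix.ofMatrix (Matrix.of fun i j => if i = 0 then Z r j else 0)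
  have h0 : 0 ≤ ∑ r ∈ s, star (R r) * R r :=
    Finset.sum_nonneg fun r _ => star_mul_self_nonneg _
  obtain ⟨Y, hY⟩ := exists_root_of_nonneg h0
  refine ⟨CStarMatrix.ofMatrix.symm Y, fun i j => ?_⟩
  have h1 : (∑ r ∈ s, star (R r) * R r) i j = (star Y * Y) i j := by rw [hY]
  have h2 : (∑ r ∈ s, star (R r) * R r) i j = ∑ r ∈ s, star (Z r i) * Z r j := by
    have h3 : ∀ t : Finset ι, (∑ r ∈ t, star (R r) * R r) i j =
        ∑ r ∈ t, (star (R r) * R r) i j := by
      intro t
      exact Matrix.sum_apply i j t fun r => (star (R r) * R r : Matrix _ _ B)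
    rw [h3]
    refine Finset.sum_congr rfl fun r _ => ?_
    have h4 : (star (R r) * R r) i j = ∑ k, star (R r k i) * R r k j := by
      rw [CStarMatrix.mul_apply]; rfl
    rw [h4, Finset.sum_eq_single 0]
    · rfl
    · intro k _ hk
      have : R r k j = 0 := if_neg hk
      rw [this, mul_zero]
    · intro h; exact absurd (Finset.mem_univ _) h
  rw [← h2, h1]
  rfl

/-- row criterion for complete positivity -/
theorem isCPMap_of_rows {A B : Type*} [NonUnitalRing A] [StarRing A] [Module ℂ A]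
    [NonUnitalCStarAlgebra B] (f : A →ₗ[ℂ] B)
    (h : ∀ (N : ℕ) (x : Fin N → A), ∃ (ι : Type) (_ : Fintype ι) (Z : ι → Fin N → B),
      ∀ i j, f (star (x i) * x j) = ∑ r, star (Z r i) * Z r j) : IsCPMap f := by
  intro N X
  choose k hk Z hZ using fun r : Fin N => h N (fun i => X r i)
  obtain ⟨Y, hY⟩ := exists_square (B := B) (N := N) (Finset.univ : Finset (Σ r, k r))
    (fun p i => Z p.1 p.2 i)
  refine ⟨Y, fun i j => ?_⟩
  rw [← hY, Fintype.sum_sigma, Matrix.mul_apply, map_sum]
  refine Finset.sum_congr rfl fun r _ => ?_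
  rw [Matrix.conjTranspose_apply, hZ]

end CP

section Slice

variable {A : Type u} [CStarAlgebra A] {m : ℕ}

/-- the slice map -/
noncomputable def Phi (g : A →ₗ[ℂ] ℂ) (b : Fin m → A) : A →ₗ[ℂ] Matrix (Fin m) (Fin m) ℂ where
  toFun d := Matrix.of fun k l => g (b k * d * star (b l))
  map_add' x y := by
    ext k l
    simp only [Matrix.of_apply, Matrix.add_apply, mul_add, add_mul, map_add]
  map_smul' c x := by
    ext k l
    simp only [Matrix.of_apply, Matrix.smul_apply, mul_smul_comm, smul_mul_assoc, map_smul,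
      RingHom.id_apply]

/-- the other map -/
noncomputable def Psi (a : Fin m → A) : Matrix (Fin m) (Fin m) ℂ →ₗ[ℂ] A where
  toFun X := ∑ k, ∑ l, X k l • (a k * star (a l))
  map_add' x y := by
    simp only [Matrix.add_apply, add_smul, Finset.sum_add_distrib]
  map_smul' c x := by
    simp only [Matrix.smul_apply, smul_assoc, Finset.smul_sum, RingHom.id_apply]

open scoped MatrixOrder in
theorem gram_psd (g : A →ₗ[ℂ] ℂ) (hg : ∀ a, 0 ≤ g (star a * a)) {κ : Type*} [Fintype κ]
    (v : κ → A) : ∃ Y : Matrix κ κ ℂ, ∀ p q, g (star (v p) * v q) = ∑ r, star (Y r p) * Y r q := by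
  classical
  have hh : ∀ a, g (star a) = star (g a) := by
    intro a
    have key : ∀ x y : A, g (star x * y) + g (star y * x) = star (g (star x * y) + g (star y * x)) := by
      intro x y
      have h1 : g (star x * y) + g (star y * x) =
          g (star (x + y) * (x + y)) - g (star x * x) - g (star y * y) := by
        rw [star_add, add_mul, mul_add, mul_add, map_add, map_add, map_add]
        ring
      rw [h1]
      have h2 := (IsSelfAdjoint.of_nonneg (hg (x + y))).star_eq
      have h3 := (IsSelfAdjoint.of_nonneg (hg x)).star_eq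
      have h4 := (IsSelfAdjoint.of_nonneg (hg y)).star_eq
      rw [star_sub, star_sub, h2, h3, h4]
    have h1 := key 1 a
    have h2 := key 1 (Complex.I • a)
    rw [star_one, one_mul, mul_one] at h1 h2
    rw [star_smul, map_smul, map_smul] at h2
    have h3 : star Complex.I = -Complex.I := Complex.conj_I
    simp only [star_add, smul_eq_mul, star_mul', h3, star_neg] at h1 h2
    have h5 : Complex.I * (g a - g (star a)) = Complex.I * (star (g (star a)) - star (g a)) := by
      linear_combination h2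
    have h6 := mul_left_cancel₀ Complex.I_ne_zero h5
    linear_combination (1/2 : ℂ) * h1 - (1/2 : ℂ) * h6
  have hps : (Matrix.of fun p q => g (star (v p) * v q) : Matrix κ κ ℂ).PosSemidef := by
    refine Matrix.PosSemidef.of_dotProduct_mulVec_nonneg ?_ fun x => ?_
    · ext p q
      rw [Matrix.conjTranspose_apply, Matrix.of_apply, Matrix.of_apply, ← hh, star_mul, star_star]
    · have h1 := hg (∑ p, x p • v p)
      have h2 : star x ⬝ᵥ (Matrix.of fun p q => g (star (v p) * v q)).mulVec x =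
          g (star (∑ p, x p • v p) * ∑ p, x p • v p) := by
        rw [star_sum, Finset.sum_mul, map_sum]
        refine Finset.sum_congr rfl fun p _ => ?_
        rw [Finset.mul_sum, map_sum, Matrix.mulVec, dotProduct, Finset.mul_sum]
        refine Finset.sum_congr rfl fun q _ => ?_
        rw [star_smul, smul_mul_smul_comm, map_smul, Matrix.of_apply, Pi.star_apply, smul_eq_mul]
        ring
      rw [h2]; exact h1
  obtain ⟨Y, hY⟩ := CStarAlgebra.nonneg_iff_eq_star_mul_self.mp hps.nonneg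
  refine ⟨Y, fun p q => ?_⟩
  have := congrFun (congrFun hY p) q
  rw [Matrix.of_apply, Matrix.mul_apply] at this
  exact this

open scoped Matrix.Norms.L2Operator in
theorem isCPMap_Phi (g : A →ₗ[ℂ] ℂ) (hg : ∀ a, 0 ≤ g (star a * a)) (b : Fin m → A) :
    IsCPMap (Phi g b) := by
  refine isCPMap_of_rows _ fun N x => ?_
  obtain ⟨Y, hY⟩ := gram_psd g hg (fun p : (Fin N × Fin m) => x p.1 * star (b p.2))
  refine ⟨Fin N, inferInstance, fun t i => Matrix.of fun s k => Y (t, s) (i, k), fun i j => ?_⟩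
  ext k l
  have h1 := hY (i, k) (j, l)
  rw [Fintype.sum_prod_type] at h1
  rw [Matrix.sum_apply]
  refine Eq.trans ?_ (h1.trans ?_)
  · change g (b k * (star (x i) * x j) * star (b l)) = _
    congr 1
    simp only [star_mul, star_star, mul_assoc]
  · refine Finset.sum_congr rfl fun t _ => ?_
    rw [Matrix.mul_apply]
    rfl

theorem isCPMap_Psi (a : Fin m → A) : IsCPMap (Psi a) := by
  refine isCPMap_of_rows _ fun N x => ?_
  refine ⟨Fin m, inferInstance, fun s i => ∑ k, x i s k • star (a k), fun i j => ?_⟩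
  have h1 : ∀ s, star (∑ k, x i s k • star (a k)) * (∑ k, x j s k • star (a k)) =
      ∑ k, ∑ l, (star (x i s k) * x j s l) • (a k * star (a l)) := by
    intro s
    rw [star_sum, Finset.sum_mul]
    refine Finset.sum_congr rfl fun k _ => ?_
    rw [Finset.mul_sum]
    refine Finset.sum_congr rfl fun l _ => ?_
    rw [star_smul, star_star, smul_mul_smul_comm]
  simp_rw [h1]
  symm
  change _ = ∑ k, ∑ l, (star (x i) * x j) k l • (a k * star (a l))
  rw [Finset.sum_comm]
  refine Finset.sum_congr rfl fun k _ => ?_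
  rw [Finset.sum_comm]
  refine Finset.sum_congr rfl fun l _ => ?_
  rw [Matrix.mul_apply, Finset.sum_smul]
  rfl

end Slice

section States

theorem norm_le_of_states {A : Type u} [CStarAlgebra A] {x : A} {c : ℝ} (hc : 0 ≤ c)
    (h : ∀ f : A →ₗ[ℂ] ℂ, (∀ a, 0 ≤ f (star a * a)) → f 1 = 1 → ‖f x‖ ≤ c) : ‖x‖ ≤ 6 * c := by
  let _ := CStarAlgebra.spectralOrder A
  have _ := CStarAlgebra.spectralOrderedRing A
  have key0 : ∀ y : A, IsSelfAdjoint y →
      (∀ f : A →ₗ[ℂ] ℂ, (∀ a, 0 ≤ f (star a * a)) → f 1 = 1 → ‖f y‖ ≤ c) →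
      0 ≤ algebraMap ℝ A c - y := by
    intro y hy hb
    by_contra hn
    obtain ⟨g, hg, hgy⟩ := PartT1.exists_of_not_nonneg hn
    obtain ⟨f, hf⟩ := PartT1.exists_ext g hg
    have h1 : g (algebraMap ℝ A c) = c * g 1 := by
      rw [Algebra.algebraMap_eq_smul_one, map_smul, smul_eq_mul]
    have h2 : 0 ≤ g 1 := hg 1 zero_le_one
    rw [map_sub, h1] at hgy
    rcases h2.eq_or_lt with h3 | h3
    · have h4 : 0 ≤ g (algebraMap ℝ A ‖y‖ - y) := hg _ (sub_nonneg.2 hy.le_algebraMap_norm_self)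
      rw [map_sub, Algebra.algebraMap_eq_smul_one, map_smul, smul_eq_mul, ← h3] at h4
      rw [← h3] at hgy
      linarith
    · let f' : A →ₗ[ℂ] ℂ := ((g 1 : ℝ) : ℂ)⁻¹ • (f : A →ₗ[ℂ] ℂ)
      have hf' : ∀ a, f' a = ((g 1 : ℝ) : ℂ)⁻¹ * f a := fun a => rfl
      have h5 : ∀ a, 0 ≤ f' (star a * a) := by
        intro a
        rw [hf', hf _ (IsSelfAdjoint.star_mul_self a)]
        have := hg _ (star_mul_self_nonneg a)
        have h6 : 0 ≤ (g 1)⁻¹ * g (star a * a) := mul_nonneg (inv_nonneg.2 h2) this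
        exact_mod_cast h6
      have h6 : f' 1 = 1 := by
        rw [hf', hf _ (IsSelfAdjoint.one A)]
        exact inv_mul_cancel₀ (by exact_mod_cast h3.ne')
      have h7 := hb f' h5 h6
      rw [hf', hf _ hy, ← Complex.ofReal_inv, ← Complex.ofReal_mul, Complex.norm_real] at h7
      have h8 := (le_abs_self _).trans h7
      rw [inv_mul_le_iff₀ h3] at h8
      nlinarith
  have key : ∀ y : A, IsSelfAdjoint y →
      (∀ f : A →ₗ[ℂ] ℂ, (∀ a, 0 ≤ f (star a * a)) → f 1 = 1 → ‖f y‖ ≤ c) → ‖y‖ ≤ 3 * c := by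
    intro y hy hb
    have h1 := key0 y hy hb
    have h2 := key0 (-y) hy.neg (fun f hf hf1 => by rw [map_neg, norm_neg]; exact hb f hf hf1)
    have hcn : ‖algebraMap ℝ A c‖ ≤ c := by
      rcases subsingleton_or_nontrivial A with hs | hs
      · rw [Subsingleton.elim (algebraMap ℝ A c) 0, norm_zero]; exact hc
      · rw [norm_algebraMap', Real.norm_of_nonneg hc]
    have h3 : ‖algebraMap ℝ A c - y‖ ≤ ‖algebraMap ℝ A c + algebraMap ℝ A c‖ :=
      CStarAlgebra.norm_le_norm_of_nonneg_of_le h1 (by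
        rw [sub_neg_eq_add] at h2
        have : algebraMap ℝ A c + algebraMap ℝ A c - (algebraMap ℝ A c - y) =
          algebraMap ℝ A c + y := by abel
        exact sub_nonneg.1 (this ▸ h2))
    calc ‖y‖ = ‖algebraMap ℝ A c - (algebraMap ℝ A c - y)‖ := by rw [sub_sub_cancel]
      _ ≤ ‖algebraMap ℝ A c‖ + ‖algebraMap ℝ A c - y‖ := norm_sub_le _ _
      _ ≤ c + (c + c) := by
        refine add_le_add hcn (h3.trans ((norm_add_le _ _).trans (add_le_add hcn hcn)))
      _ = 3 * c := by ring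
  have hre : ∀ f : A →ₗ[ℂ] ℂ, (∀ a, 0 ≤ f (star a * a)) →
      f (realPart x : A) = ((f x).re : ℂ) ∧ f (imaginaryPart x : A) = ((f x).im : ℂ) := by
    intro f hf
    have hreal : ∀ y : selfAdjoint A, ∃ r : ℝ, f (y : A) = r := by
      intro y
      have hpos : ∀ a : A, 0 ≤ a → 0 ≤ f a := by
        intro a ha
        obtain ⟨z, rfl⟩ := CStarAlgebra.nonneg_iff_eq_star_mul_self.1 ha
        exact hf z
      have h1 : 0 ≤ f (algebraMap ℝ A ‖(y : A)‖ - y) :=
        hpos _ (sub_nonneg.2 y.2.le_algebraMap_norm_self)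
      have h2 : 0 ≤ f (algebraMap ℝ A ‖(y : A)‖) := hpos _ (by
        rw [Algebra.algebraMap_eq_smul_one]
        exact smul_nonneg (norm_nonneg _) zero_le_one)
      rw [map_sub] at h1
      have h3 := (IsSelfAdjoint.of_nonneg h1).star_eq
      have h4 := (IsSelfAdjoint.of_nonneg h2).star_eq
      rw [star_sub, h4] at h3
      have h5 : star (f (y : A)) = f (y : A) := by linear_combination -h3
      exact ⟨(f (y : A)).re, (Complex.conj_eq_iff_re.1 h5).symm⟩
    obtain ⟨r, hr⟩ := hreal (realPart x)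
    obtain ⟨s, hs⟩ := hreal (imaginaryPart x)
    have h1 : f x = r + Complex.I * s := by
      conv_lhs => rw [← realPart_add_I_smul_imaginaryPart x]
      rw [map_add, map_smul, hr, hs, smul_eq_mul]
    rw [hr, hs, h1]
    simp
  have h1 : ‖(realPart x : A)‖ ≤ 3 * c := key _ (realPart x).2 fun f hf hf1 => by
    rw [(hre f hf).1, Complex.norm_real]
    exact (Complex.abs_re_le_norm _).trans (h f hf hf1)
  have h2 : ‖(imaginaryPart x : A)‖ ≤ 3 * c := key _ (imaginaryPart x).2 fun f hf hf1 => by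
    rw [(hre f hf).2, Complex.norm_real]
    exact (Complex.abs_im_le_norm _).trans (h f hf hf1)
  calc ‖x‖ = ‖(realPart x : A) + Complex.I • (imaginaryPart x : A)‖ := by
        rw [realPart_add_I_smul_imaginaryPart]
    _ ≤ ‖(realPart x : A)‖ + ‖Complex.I • (imaginaryPart x : A)‖ := norm_add_le _ _
    _ ≤ 3 * c + 3 * c := by
        refine add_le_add h1 ?_
        rw [norm_smul, Complex.norm_I, one_mul]
        exact h2
    _ = 6 * c := by ring

theorem exists_state (A : Type u) [CStarAlgebra A] [Nontrivial A] :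
    ∃ f : A →ₗ[ℂ] ℂ, (∀ a, 0 ≤ f (star a * a)) ∧ f 1 = 1 := by
  by_contra hcon
  push Not at hcon
  have := norm_le_of_states (x := (1 : A)) (c := 0) le_rfl
    (fun f hf hf1 => absurd hf1 (hcon f hf))
  rw [mul_zero, norm_le_zero_iff] at this
  exact one_ne_zero this

end States

section Main

theorem exists_fin {A B : Type u} [CStarAlgebra A] [CStarAlgebra B] (x : A ⊗[ℂ] B) :
    ∃ (m : ℕ) (a : Fin m → A) (b : Fin m → B), x = ∑ k, a k ⊗ₜ[ℂ] b k := by
  induction x with
  | zero => exact ⟨0, fun i => i.elim0, fun i => i.elim0, by simp⟩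
  | tmul a b => exact ⟨1, fun _ => a, fun _ => b, by simp⟩
  | add x y hx hy =>
    obtain ⟨m, a, b, rfl⟩ := hx
    obtain ⟨n, a', b', rfl⟩ := hy
    refine ⟨m + n, Fin.append a a', Fin.append b b', ?_⟩
    rw [Fin.sum_univ_add]
    simp only [Fin.append_left, Fin.append_right]

theorem nuclear {Z : Type u} [CStarAlgebra Z] (hZ : P101.IsJiangSuAlgebra Z) :
    P095R.IsNuclearAlg Z := by
  intro F ε hε
  rcases subsingleton_or_nontrivial Z with hs | hn
  · refine ⟨0, 0, 0, fun n X => ⟨0, fun i j => ?_⟩, fun n X => ⟨0, fun i j => ?_⟩, fun a _ => ?_⟩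
    · simp
    · simp
    · rw [Subsingleton.elim ((0 : Matrix (Fin 0) (Fin 0) ℂ →ₗ[ℂ] Z) _ - a) 0, norm_zero]
      exact hε
  obtain ⟨E, _, i, j, hE, hΩ⟩ := PartT3.exists_completion Z Z
  obtain ⟨g, hg, hg1⟩ := exists_state Z
  have hntE : Nontrivial E := by
    obtain ⟨Ω, h1, -⟩ := hΩ g g hg hg hg1 hg1
    refine ⟨⟨1, 0, fun h => ?_⟩⟩
    have h2 := h1 1 1
    rw [map_one, map_one, mul_one, h, map_zero, hg1, mul_one] at h2
    exact zero_ne_one h2
  obtain ⟨C, hC0, hC⟩ : ∃ C : ℝ, 0 < C ∧ ∀ d ∈ F, ‖d‖ ≤ C := by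
    refine ⟨1 + ∑ d ∈ F, ‖d‖, by positivity, fun d hd => ?_⟩
    have := Finset.single_le_sum (f := fun d : Z => ‖d‖) (fun _ _ => norm_nonneg _) hd
    have h2 : ‖d‖ ≤ ∑ d ∈ F, ‖d‖ := this
    linarith
  set δ : ℝ := min 1 (ε / (7 * (3 * C + 1))) with hδ
  have hδ0 : 0 < δ := lt_min one_pos (by positivity)
  have hδ1 : δ ≤ 1 := min_le_left _ _
  have hδ2 : δ * (3 * C + 1) ≤ ε / 7 := by
    calc δ * (3 * C + 1) ≤ ε / (7 * (3 * C + 1)) * (3 * C + 1) := by
          gcongr
          exact min_le_right _ _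
      _ = ε / 7 := by field_simp
  obtain ⟨v, hv, hvF⟩ := (hZ.half_flip E).flip j i (fun x y => (hE.comm y x).symm) F δ hδ0
  obtain ⟨_, ⟨w, rfl⟩, hw⟩ := Metric.mem_closure_iff.mp (hE.dense v) δ hδ0
  obtain ⟨m, a, b, hab⟩ := exists_fin w
  set W : E := Algebra.TensorProduct.lift (i : Z →ₐ[ℂ] E) (j : Z →ₐ[ℂ] E) hE.comm w with hW
  have hWsum : W = ∑ k, i (a k) * j (b k) := by
    rw [hW, hab, map_sum]
    refine Finset.sum_congr rfl fun k _ => ?_
    rw [Algebra.TensorProduct.lift_tmul]
    rfl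
  rw [dist_eq_norm] at hw
  have hv1 : ‖v‖ = 1 := CStarRing.norm_of_mem_unitary hv
  have hW2 : ‖W‖ ≤ 2 := by
    calc ‖W‖ = ‖v - (v - W)‖ := by rw [sub_sub_cancel]
      _ ≤ ‖v‖ + ‖v - W‖ := norm_sub_le _ _
      _ ≤ 2 := by rw [hv1]; linarith
  have hmain : ∀ d ∈ F, ‖W * j d * star W - i d‖ ≤ ε / 7 := by
    intro d hd
    have hj : ‖j d‖ ≤ C := (NonUnitalStarAlgHom.norm_apply_le (j : Z →⋆ₙₐ[ℂ] E) d).trans (hC d hd)
    have h1 : W * j d * star W - i d = (v * j d * star v - i d) -
        (v - W) * j d * star W - v * j d * star (v - W) := by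
      rw [star_sub]; noncomm_ring
    have h2 : ‖(v - W) * j d * star W‖ ≤ δ * C * 2 := by
      calc _ ≤ ‖v - W‖ * ‖j d‖ * ‖star W‖ :=
            (norm_mul_le _ _).trans (by gcongr; exact norm_mul_le _ _)
        _ ≤ δ * C * 2 := by rw [norm_star]; gcongr
    have h3 : ‖v * j d * star (v - W)‖ ≤ 1 * C * δ := by
      calc _ ≤ ‖v‖ * ‖j d‖ * ‖star (v - W)‖ :=
            (norm_mul_le _ _).trans (by gcongr; exact norm_mul_le _ _)
        _ ≤ 1 * C * δ := by rw [norm_star, hv1]; gcongr
    rw [h1]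
    calc _ ≤ ‖v * j d * star v - i d‖ + ‖(v - W) * j d * star W‖ + ‖v * j d * star (v - W)‖ :=
          (norm_sub_le _ _).trans (by gcongr; exact norm_sub_le _ _)
      _ ≤ δ + δ * C * 2 + 1 * C * δ := by
          gcongr
          exact (hvF d hd).le
      _ = δ * (3 * C + 1) := by ring
      _ ≤ ε / 7 := hδ2
  have hexp : ∀ d, W * j d * star W = ∑ k, ∑ l, i (a k * star (a l)) * j (b k * d * star (b l)) := by
    intro d
    rw [hWsum, Finset.sum_mul, Finset.sum_mul]
    refine Finset.sum_congr rfl fun k _ => ?_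
    rw [star_sum, Finset.mul_sum]
    refine Finset.sum_congr rfl fun l _ => ?_
    rw [star_mul, ← map_star, ← map_star, map_mul, map_mul, map_mul]
    have h1 := (hE.comm (star (a l)) (star (b l))).eq
    have h2 := (hE.comm (star (a l)) (b k * d)).eq
    rw [map_mul] at h2
    calc i (a k) * j (b k) * j d * (j (star (b l)) * i (star (a l)))
        = i (a k) * ((j (b k) * j d) * i (star (a l))) * j (star (b l)) := by
          rw [← h1]; simp only [mul_assoc]
      _ = i (a k) * i (star (a l)) * (j (b k) * j d * j (star (b l))) := by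
          rw [← h2]; simp only [mul_assoc]
  refine ⟨m, Phi g b, Psi a, isCPMap_Phi g hg b, isCPMap_Psi a, fun d hd => ?_⟩
  have h1 : ‖Psi a (Phi g b d) - d‖ ≤ 6 * (ε / 7) := by
    refine norm_le_of_states (by positivity) fun f hf hf1 => ?_
    obtain ⟨Ω, hΩ1, hΩ2⟩ := hΩ f g hf hg hf1 hg1
    have h2 : f (Psi a (Phi g b d) - d) = Ω (W * j d * star W - i d) := by
      rw [map_sub, map_sub, hexp, map_sum]
      have h3 : Ω (i d) = f d := by
        have := hΩ1 d 1
        rwa [map_one, mul_one, hg1, mul_one] at this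
      rw [h3]
      congr 1
      change f (∑ k, ∑ l, g (b k * d * star (b l)) • (a k * star (a l))) = _
      rw [map_sum]
      refine Finset.sum_congr rfl fun k _ => ?_
      rw [map_sum, map_sum]
      refine Finset.sum_congr rfl fun l _ => ?_
      rw [map_smul, hΩ1, smul_eq_mul, mul_comm]
    rw [h2]
    calc _ ≤ ‖Ω‖ * ‖W * j d * star W - i d‖ := Ω.le_opNorm _
      _ ≤ 1 * (ε / 7) := by
          gcongr
          exact hmain d hd
      _ = ε / 7 := one_mul _
  linarith

end Main

end Vale.Agent.JS.PartT5
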