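import Vale.Agent.P095JS.PartV
import Vale.Agent.P095JS.PartT4
import Vale.Agent.P095JS.PartT5

/-! Part W: Jiang-Su algebras are simple and have exactly one tracial state. -/

open Filter Topology
open scoped ComplexOrder Kronecker TensorProduct Matrix.Norms.L2Operator

namespace Vale.Agent.JS.PartW

open PartB PartD PartE PartU PartV

universe u

/-! ### Functionals on tensor products -/

section tensor

variable {A B E : Type u} [CStarAlgebra A] [CStarAlgebra B] [CStarAlgebra E]
  {i : A →⋆ₐ[ℂ] E} {j : B →⋆ₐ[ℂ] E}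

/-- Induction on elements of a completion. -/
theorem tensor_induction (hE : P101.IsTensorCompletion i j) {P : E → Prop}
    (hcl : IsClosed {e | P e}) (h0 : P 0) (hadd : ∀ x y, P x → P y → P (x + y))
    (ht : ∀ a b, P (i a * j b)) (e : E) : P e := by
  have h1 : closure (Set.range (Algebra.TensorProduct.lift (i : A →ₐ[ℂ] E) (j : B →ₐ[ℂ] E)
      hE.comm)) ⊆ {e | P e} := by
    refine closure_minimal ?_ hcl
    rintro _ ⟨x, rfl⟩
    change P _
    induction x with
    | zero => rw [map_zero]; exact h0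
    | add x y hx hy => rw [map_add]; exact hadd _ _ hx hy
    | tmul a b =>
      rw [Algebra.TensorProduct.lift_tmul]
      exact ht a b
  exact h1 (hE.dense e)

theorem trace_comm (hE : P101.IsTensorCompletion i j) {f : A →ₗ[ℂ] ℂ} {g : B →ₗ[ℂ] ℂ}
    {Ω : E →L[ℂ] ℂ} (hΩ : ∀ a b, Ω (i a * j b) = f a * g b) (hf : ∀ x y, f (x * y) = f (y * x))
    (hg : ∀ x y, g (x * y) = g (y * x)) (x y : E) : Ω (x * y) = Ω (y * x) := by
  have hmul : ∀ a b a' b', (i a * j b) * (i a' * j b') = i (a * a') * j (b * b') := by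
    intro a b a' b'
    rw [map_mul, map_mul]
    calc (i a * j b) * (i a' * j b') = i a * (j b * i a') * j b' := by simp only [mul_assoc]
      _ = i a * (i a' * j b) * j b' := by rw [(hE.comm a' b).eq]
      _ = _ := by simp only [mul_assoc]
  refine tensor_induction hE (P := fun x => Ω (x * y) = Ω (y * x)) ?_ ?_ ?_ ?_ x
  · exact isClosed_eq (Ω.continuous.comp (continuous_id.mul continuous_const))
      (Ω.continuous.comp (continuous_const.mul continuous_id))
  · simp
  · intro x x' hx hx'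
    rw [add_mul, mul_add, map_add, map_add, hx, hx']
  · intro a b
    refine tensor_induction hE (P := fun y => Ω ((i a * j b) * y) = Ω (y * (i a * j b))) ?_ ?_ ?_ ?_ y
    · exact isClosed_eq (Ω.continuous.comp (continuous_const.mul continuous_id))
        (Ω.continuous.comp (continuous_id.mul continuous_const))
    · simp
    · intro x x' hx hx'
      rw [add_mul, mul_add, map_add, map_add, hx, hx']
    · intro a' b'
      rw [hmul, hmul, hΩ, hΩ, hf a a', hg b b']

end tensor

/-- The tracial state of a Jiang-Su algebra is unique. -/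
theorem trace_unique {Z : Type u} [CStarAlgebra Z] (hZ : P101.IsJiangSuAlgebra Z)
    {τ τ' : Z →ₗ[ℂ] ℂ} (h1 : ∀ x, 0 ≤ τ (star x * x)) (h2 : τ 1 = 1)
    (h3 : ∀ x y, τ (x * y) = τ (y * x)) (h1' : ∀ x, 0 ≤ τ' (star x * x)) (h2' : τ' 1 = 1)
    (h3' : ∀ x y, τ' (x * y) = τ' (y * x)) : τ = τ' := by
  obtain ⟨E, _, i, j, hE, hfun⟩ := PartT3.exists_completion Z Z
  obtain ⟨Ω, hΩ, hΩ1⟩ := hfun τ τ' h1 h1' h2 h2'
  have htr := trace_comm hE hΩ h3 h3'
  ext x
  have h4 : Ω (i x) = τ x := by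
    have := hΩ x 1
    rwa [map_one, mul_one, h2', mul_one] at this
  have h5 : Ω (j x) = τ' x := by
    have := hΩ 1 x
    rwa [map_one, one_mul, h2, one_mul] at this
  rw [← sub_eq_zero, ← norm_le_zero_iff]
  refine le_of_forall_pos_lt_add fun ε hε => ?_
  rw [zero_add]
  obtain ⟨v, hv, hvx⟩ := ((hZ.half_flip E).flip i j hE.comm) {x} ε hε
  have h6 := hvx x (Finset.mem_singleton_self x)
  have h7 : Ω (v * i x * star v) = τ x := by
    rw [htr (v * i x) (star v), ← mul_assoc, (Unitary.mem_iff.1 hv).1, one_mul, h4]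
  rw [← h7, ← h5, ← map_sub]
  calc ‖Ω (v * i x * star v - j x)‖ ≤ ‖Ω‖ * ‖v * i x * star v - j x‖ := Ω.le_opNorm _
    _ ≤ 1 * ‖v * i x * star v - j x‖ := by gcongr
    _ < ε := by rwa [one_mul]

/-! ### Simplicity -/

/-- A state that vanishes on a proper closed ideal. -/
theorem exists_state_vanishing {A : Type u} [CStarAlgebra A] (J : Submodule ℂ A)
    (hJ : ∀ x ∈ J, ∀ a : A, a * x ∈ J ∧ x * a ∈ J) (h1 : (1 : A) ∉ J) :
    ∃ f : A →ₗ[ℂ] ℂ, (∀ a, 0 ≤ f (star a * a)) ∧ f 1 = 1 ∧ ∀ x ∈ J, f x = 0 := by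
  let _ := CStarAlgebra.spectralOrder A
  have _ := CStarAlgebra.spectralOrderedRing A
  let K : Set A := {h | ∃ p : A, 0 ≤ p ∧ ∃ y ∈ J, IsSelfAdjoint y ∧ h = p + y}
  have hsm : ∀ (s : ℝ) (y : A), y ∈ J → s • y ∈ J := fun s y hy => by
    have e1 : s • y = (s : ℂ) • y := (Complex.coe_smul s y).symm
    rw [e1]
    exact J.smul_mem _ hy
  have hKconv : Convex ℝ K := by
    rintro _ ⟨p, hp, y, hy, hys, rfl⟩ _ ⟨p', hp', y', hy', hys', rfl⟩ s t hs ht _
    refine ⟨s • p + t • p', add_nonneg (smul_nonneg hs hp) (smul_nonneg ht hp'),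
      s • y + t • y', J.add_mem (hsm s y hy) (hsm t y' hy'), ?_, ?_⟩
    · exact ((IsSelfAdjoint.all s).smul hys).add ((IsSelfAdjoint.all t).smul hys')
    · rw [smul_add, smul_add]; abel
  have hne : (-1 : A) ∉ closure K := by
    intro hcl
    obtain ⟨k, ⟨p, hp, y, hy, hys, rfl⟩, hd⟩ := Metric.mem_closure_iff.1 hcl 1 one_pos
    rw [dist_eq_norm] at hd
    set s : A := -1 - (p + y) with hs
    have hsa : IsSelfAdjoint s := ((IsSelfAdjoint.one A).neg).sub (hp.isSelfAdjoint.add hys)
    have h2 : -(algebraMap ℝ A ‖s‖) ≤ s := hsa.neg_algebraMap_norm_le_self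
    have h3 : algebraMap ℝ A (1 - ‖s‖) ≤ -y := by
      have h4 : -y = 1 + p + s := by rw [hs]; abel
      rw [h4, map_sub, map_one]
      calc (1 : A) - algebraMap ℝ A ‖s‖ = 1 + 0 + -(algebraMap ℝ A ‖s‖) := by abel
        _ ≤ 1 + p + s := by gcongr
    have h5 : IsStrictlyPositive (algebraMap ℝ A (1 - ‖s‖)) := by
      rcases subsingleton_or_nontrivial A with hA | hA
      · exact (h1 (by rw [Subsingleton.elim (1 : A) 0]; exact J.zero_mem)).elim
      · exact isStrictlyPositive_algebraMap (by linarith)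
    have h6 : IsUnit (-y) := CStarAlgebra.isUnit_of_le _ h3 h5
    obtain ⟨w, hw⟩ := h6
    apply h1
    have h7 := (hJ (-y) (J.neg_mem hy) (w⁻¹ : Aˣ)).1
    rwa [← hw, Units.inv_mul] at h7
  obtain ⟨g, u, hgu, hg⟩ := geometric_hahn_banach_point_closed (E := A) hKconv.closure
    isClosed_closure hne
  have hgK : ∀ k ∈ K, u < g k := fun k hk => hg k (subset_closure hk)
  have h0K : (0 : A) ∈ K := ⟨0, le_rfl, 0, J.zero_mem, IsSelfAdjoint.zero A, (add_zero 0).symm⟩
  have hu : u < 0 := by simpa using hgK 0 h0K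
  have hKsm : ∀ (s : ℝ), 0 ≤ s → ∀ k ∈ K, s • k ∈ K := by
    rintro s hs _ ⟨p, hp, y, hy, hys, rfl⟩
    exact ⟨s • p, smul_nonneg hs hp, s • y, hsm s y hy, (IsSelfAdjoint.all s).smul hys,
      smul_add s p y⟩
  have hgpos : ∀ k ∈ K, 0 ≤ g k := by
    intro k hk
    by_contra hneg
    push Not at hneg
    have h2 := hgK _ (hKsm (u / g k) (div_nonneg_of_nonpos hu.le hneg.le) k hk)
    rw [map_smul, smul_eq_mul, div_mul_cancel₀ _ hneg.ne] at h2
    exact lt_irrefl _ h2
  have hgp : ∀ a : A, 0 ≤ a → 0 ≤ g a := fun a ha =>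
    hgpos a ⟨a, ha, 0, J.zero_mem, IsSelfAdjoint.zero A, (add_zero a).symm⟩
  have hgJ : ∀ y ∈ J, IsSelfAdjoint y → g y = 0 := fun y hy hys => by
    have h2 := hgpos y ⟨0, le_rfl, y, hy, hys, (zero_add y).symm⟩
    have h3 := hgpos (-y) ⟨0, le_rfl, -y, J.neg_mem hy, hys.neg, (zero_add (-y)).symm⟩
    rw [map_neg] at h3
    linarith
  have hg1 : 0 < g 1 := by
    rw [map_neg] at hgu
    linarith
  obtain ⟨f, hf⟩ := PartT1.exists_ext g hgp
  have hfJ : ∀ y ∈ J, f y = 0 := by
    intro y hy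
    have h2 : f (star y * y) = 0 := by
      rw [hf _ (IsSelfAdjoint.star_mul_self y), hgJ _ (hJ y hy (star y)).1
        (IsSelfAdjoint.star_mul_self y)]
      simp
    have h3 : ‖f.toPreGNS y‖ = 0 := by
      rw [PositiveLinearMap.preGNS_norm_def, PositiveLinearMap.ofPreGNS_toPreGNS, h2]
      simp
    have h4 := norm_inner_le_norm (𝕜 := ℂ) (f.toPreGNS 1) (f.toPreGNS y)
    rw [h3, mul_zero, PositiveLinearMap.preGNS_inner_def, PositiveLinearMap.ofPreGNS_toPreGNS,
      PositiveLinearMap.ofPreGNS_toPreGNS, star_one, one_mul] at h4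
    exact norm_le_zero_iff.1 h4
  have hf1 : f 1 = g 1 := hf 1 (IsSelfAdjoint.one A)
  refine ⟨((g 1)⁻¹ : ℂ) • (f : A →ₗ[ℂ] ℂ), fun a => ?_, ?_, fun x hx => ?_⟩
  · change 0 ≤ ((g 1)⁻¹ : ℂ) * f (star a * a)
    have h2 : 0 ≤ f (star a * a) := f.map_nonneg (star_mul_self_nonneg a)
    have h3 : (0 : ℂ) ≤ ((g 1)⁻¹ : ℂ) := by
      have : (0 : ℝ) ≤ (g 1)⁻¹ := inv_nonneg.2 hg1.le
      exact_mod_cast this
    exact mul_nonneg h3 h2
  · change ((g 1)⁻¹ : ℂ) * f 1 = 1
    rw [hf1]
    have : (g 1 : ℂ) ≠ 0 := by exact_mod_cast hg1.ne'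
    exact inv_mul_cancel₀ this
  · change ((g 1)⁻¹ : ℂ) * f x = 0
    rw [hfJ x hx, mul_zero]

/-- States separate points. -/
theorem eq_zero_of_states {A : Type u} [CStarAlgebra A] {x : A}
    (h : ∀ f : A →ₗ[ℂ] ℂ, (∀ a, 0 ≤ f (star a * a)) → f 1 = 1 → f x = 0) : x = 0 := by
  have h1 := PartT5.norm_le_of_states (x := x) le_rfl fun f hf hf1 => by
    rw [h f hf hf1, norm_zero]
  rw [mul_zero] at h1
  exact norm_le_zero_iff.1 h1

/-- Jiang-Su algebras are simple. -/
theorem simple {Z : Type u} [CStarAlgebra Z] (hZ : P101.IsJiangSuAlgebra Z) :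
    P095R.IsSimpleAlg Z := by
  refine ⟨?_, fun J hJcl hJ => ?_⟩
  · obtain ⟨z, hz⟩ := exists_not_scalar hZ
    exact ⟨z, fun h => hz 0 (by rw [h, zero_smul])⟩
  · by_cases h1 : (1 : Z) ∈ J
    · right
      rw [eq_top_iff]
      intro x _
      have := (hJ 1 h1 x).1
      rwa [mul_one] at this
    · left
      obtain ⟨f, hf, hf1, hfJ⟩ := exists_state_vanishing J hJ h1
      rw [eq_bot_iff]
      intro x hx
      change x = 0
      refine eq_zero_of_states fun g hg hg1 => ?_
      obtain ⟨E, _, i, j, hE, hfun⟩ := PartT3.exists_completion Z Z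
      obtain ⟨Ω, hΩ, hΩ1⟩ := hfun f g hf hg hf1 hg1
      have hmul : ∀ a b a' b', (i a * j b) * i x * (i a' * j b') = i (a * x * a') * j (b * b') := by
        intro a b a' b'
        rw [map_mul, map_mul, map_mul]
        calc (i a * j b) * i x * (i a' * j b') = i a * (j b * i x) * i a' * j b' := by
              simp only [mul_assoc]
          _ = i a * i x * (j b * i a') * j b' := by rw [← (hE.comm x b).eq]; simp only [mul_assoc]
          _ = _ := by rw [← (hE.comm a' b).eq]; simp only [mul_assoc]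
      have hvan : ∀ e e' : E, Ω (e * i x * e') = 0 := by
        intro e e'
        refine tensor_induction hE (P := fun e => Ω (e * i x * e') = 0) ?_ ?_ ?_ ?_ e
        · exact isClosed_eq (Ω.continuous.comp ((continuous_id.mul continuous_const).mul
            continuous_const)) continuous_const
        · simp
        · intro y y' hy hy'
          rw [add_mul, add_mul, map_add, hy, hy', add_zero]
        · intro a b
          refine tensor_induction hE (P := fun e' => Ω ((i a * j b) * i x * e') = 0) ?_ ?_ ?_ ?_ e'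
          · exact isClosed_eq (Ω.continuous.comp (continuous_const.mul continuous_id))
              continuous_const
          · simp
          · intro y y' hy hy'
            rw [mul_add, map_add, hy, hy', add_zero]
          · intro a' b'
            rw [hmul, hΩ, hfJ _ ((hJ _ (hJ x hx a).1 a').2), zero_mul]
      have h5 : Ω (j x) = g x := by
        have := hΩ 1 x
        rwa [map_one, one_mul, hf1, one_mul] at this
      rw [← norm_le_zero_iff]
      refine le_of_forall_pos_lt_add fun ε hε => ?_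
      rw [zero_add]
      obtain ⟨v, hv, hvx⟩ := ((hZ.half_flip E).flip i j hE.comm) {x} ε hε
      have h6 := hvx x (Finset.mem_singleton_self x)
      have h7 : g x = -Ω (v * i x * star v - j x) := by
        rw [map_sub, hvan, h5]; ring
      rw [h7, norm_neg]
      calc ‖Ω (v * i x * star v - j x)‖ ≤ ‖Ω‖ * ‖v * i x * star v - j x‖ := Ω.le_opNorm _
        _ ≤ 1 * ‖v * i x * star v - j x‖ := by gcongr
        _ < ε := by rwa [one_mul]

end Vale.Agent.JS.PartW
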