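import Vale.Agent.P095J.StmtAbs
import Vale.Agent.P095R.NStmt

/-! The Jiang-Su algebra, for the final statements. -/

open scoped ComplexOrder

namespace Vale.Agent.JS

universe u

/-- `τ` is a tracial state. -/
structure IsTracialState {Z : Type u} [CStarAlgebra Z] (τ : Z →ₗ[ℂ] ℂ) : Prop where
  nonneg : ∀ x, 0 ≤ τ (star x * x)
  one : τ 1 = 1
  tracial : ∀ x y, τ (x * y) = τ (y * x)

/-- `Z` is the closure of an increasing sequence of prime dimension drop algebras, it is separable,
simple, nuclear and strongly self-absorbing, it has approximately inner half-flip, and it has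
exactly one tracial state. -/
structure IsJiangSuZ (Z : Type u) [CStarAlgebra Z] : Prop where
  limit : P101.IsJiangSuAlgebra Z
  separable : TopologicalSpace.SeparableSpace Z
  simple : P095R.IsSimpleAlg Z
  nuclear : P095R.IsNuclearAlg Z
  absorbing : P095.IsStronglySelfAbsorbing Z
  trace : ∃! τ : Z →ₗ[ℂ] ℂ, IsTracialState τ

end Vale.Agent.JS
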