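import Vale.Agent.P095JS.PartA
import Vale.Agent.P095JS.PartC
import Vale.Agent.P095JS.PartG
import Vale.Agent.P095JS.PartW
import Vale.Agent.P095JS.Stmt

/-! The Jiang-Su algebra exists, and its properties. -/

open Filter Topology
open scoped ComplexOrder TensorProduct Kronecker Matrix.Norms.L2Operator

namespace Vale.Agent.JS

open PartE PartU PartV PartW

universe u

theorem isJiangSuZ_of {Z : Type u} [CStarAlgebra Z] (h : P101.IsJiangSuAlgebra Z)
    (h' : P095.IsStronglySelfAbsorbing Z) : IsJiangSuZ Z where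
  limit := h
  separable := separable_of_isJiangSu h
  simple := simple h
  nuclear := PartT5.nuclear h
  absorbing := h'
  trace := by
    obtain ⟨τ, h1, h2, h3⟩ := PartT4.exists_trace h
    exact ⟨τ, ⟨h1, h2, h3⟩, fun τ' hτ' => trace_unique h hτ'.nonneg hτ'.one hτ'.tracial h1 h2 h3⟩

/-- There is a Jiang-Su algebra. -/
theorem exists_jiangSu (habs : Absorption.{u}) : ∃ (Z : Type u) (_ : CStarAlgebra Z),
    IsJiangSuZ Z ∧ HasNil (Fin 2 ⊕ Fin 3) Z := by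
  obtain ⟨S, hS⟩ := PartC.main
  let φ : ∀ n, DD (S.p n) (S.q n) →⋆ₐ[ℂ] DD (S.p (n + 1)) (S.q (n + 1)) := fun n =>
    ((S.Φ n).comp (DD (S.p n) (S.q n)).subtype).codRestrict (DD (S.p (n + 1)) (S.q (n + 1)))
      (fun x => hS.maps n _ x.2)
  have hφ : ∀ n, Function.Injective (φ n) := fun n x y h =>
    Subtype.ext (hS.inj n (congrArg Subtype.val h))
  obtain ⟨Z, _, ι, h1, h2, h3⟩ :=
    PartA.main.{u, 0} (fun n => DD (S.p n) (S.q n)) φ hφ
  have hsys : PartE.Sys S hS Z ι := ⟨fun n f => h1 n f, h2, h3⟩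
  obtain ⟨E, _, i, j, hE⟩ := PartG.main S hS Z ι (fun n f => h1 n f) h2 h3
  exact ⟨Z, inferInstance, isJiangSuZ_of hsys.isJiangSuAlgebra (hsys.ssa habs hE), hsys.hasNil⟩

/-- The Jiang-Su algebra is unique. -/
theorem IsJiangSuZ.unique (habs : Absorption.{u}) {Z Z' : Type u} [CStarAlgebra Z]
    [CStarAlgebra Z'] (h : IsJiangSuZ Z) (h' : IsJiangSuZ Z') : Nonempty (Z ≃⋆ₐ[ℂ] Z') :=
  PartV.unique habs h.limit h.absorbing h'.limit h'.absorbing

/-- Absence of characters and absorption. -/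
theorem iff_of_hasNil (habs : Absorption.{u}) {A Z B : Type u} [CStarAlgebra A] [CStarAlgebra Z]
    [CStarAlgebra B] [TopologicalSpace.SeparableSpace A] (hZ : P101.IsJiangSuAlgebra Z)
    (hnil : HasNil (Fin 2 ⊕ Fin 3) Z) {i : A →⋆ₐ[ℂ] B} {j : Z →⋆ₐ[ℂ] B}
    (hB : P101.IsTensorCompletion i j) (ω : Ultrafilter ℕ)
    (hω : (ω : Filter ℕ) ≤ Filter.cofinite) :
    (¬ ∃ χ : (ℕ → A) → ℂ, P101.IsCharacter (ω : Filter ℕ) χ) ↔ Nonempty (A ≃⋆ₐ[ℂ] B) := by
  constructor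
  · intro h
    obtain ⟨θ, -⟩ := habs A Z B hZ ⟨ω, hω, h⟩ i j hB
    exact ⟨θ⟩
  · rintro ⟨e⟩
    exact (PartU.HasNil.of_equiv (PartU.HasNil.of_tensor hnil hB) e.symm).no_char ω hω

end Vale.Agent.JS
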