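import Vale.Agent.P095JS.Iface

/-! Hat functions and interpolation on the unit interval. -/

namespace Vale.Agent.JS.Hat

/-- Hat function with peak at `k`. -/
noncomputable def hat (k : ℕ) (v : ℝ) : ℝ := max 0 (1 - |v - k|)

/-- Clamp to `[0,1]`. -/
noncomputable def clamp (t : ℝ) : ℝ := max 0 (min 1 t)

theorem continuous_hat (k : ℕ) : Continuous (hat k) := by
  unfold hat; fun_prop

theorem hat_nonneg (k : ℕ) (v : ℝ) : 0 ≤ hat k v := le_max_left _ _

theorem hat_le_one (k : ℕ) (v : ℝ) : hat k v ≤ 1 := by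
  unfold hat
  apply max_le zero_le_one
  linarith [abs_nonneg (v - k)]

theorem hat_succ (K : ℕ) (v : ℝ) : hat (K + 1) v = clamp (v - K) - clamp (v - (K + 1)) := by
  unfold hat clamp
  push_cast
  rcases le_total (v - (K + 1)) 0 with h | h
  · rw [abs_of_nonpos h, min_eq_right (by linarith : v - K ≤ 1),
      min_eq_right (by linarith : v - ((K : ℝ) + 1) ≤ 1), max_eq_left h]
    rw [sub_zero]
    congr 1
    ring
  · rw [abs_of_nonneg h, min_eq_left (by linarith : 1 ≤ v - K), max_eq_right (zero_le_one)]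
    rcases le_total (v - ((K : ℝ) + 1)) 1 with h' | h'
    · rw [min_eq_right h', max_eq_right h, max_eq_right (by linarith)]
    · rw [min_eq_left h', max_eq_right (zero_le_one), max_eq_left (by linarith)]
      ring

theorem sum_hat (K : ℕ) (v : ℝ) (h0 : 0 ≤ v) :
    ∑ k ∈ Finset.range (K + 1), hat k v = 1 - clamp (v - K) := by
  induction K with
  | zero =>
    simp only [zero_add, Finset.range_one, Finset.sum_singleton]
    unfold hat clamp
    simp only [Nat.cast_zero, sub_zero]
    rw [abs_of_nonneg h0]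
    rcases le_total v 1 with h | h
    · rw [max_eq_right (by linarith), min_eq_right h, max_eq_right h0]
    · rw [max_eq_left (by linarith), min_eq_left h, max_eq_right zero_le_one]
      ring
  | succ K ih =>
    rw [Finset.sum_range_succ, ih, hat_succ]
    push_cast
    ring

theorem clamp_of_nonpos {t : ℝ} (h : t ≤ 0) : clamp t = 0 := by
  unfold clamp
  rw [min_eq_right (by linarith), max_eq_left h]

theorem sum_hat_eq_one (K : ℕ) (v : ℝ) (h0 : 0 ≤ v) (h1 : v ≤ K) :
    ∑ k : Fin (K + 1), hat k v = 1 := by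
  rw [Fin.sum_univ_eq_sum_range (fun k => hat k v), sum_hat K v h0,
    clamp_of_nonpos (by linarith)]
  ring

theorem hat_eq_zero {k : ℕ} {v : ℝ} (h : 1 ≤ |v - k|) : hat k v = 0 := by
  unfold hat; exact max_eq_left (by linarith)

/-- The nodes `k / m`. -/
noncomputable def node (m : ℕ) (k : Fin (m + 1)) : unitInterval :=
  ⟨(k : ℕ) / (m : ℝ), by
    rcases Nat.eq_zero_or_pos m with h | h
    · subst h; simp
    · refine ⟨by positivity, ?_⟩
      rw [div_le_one (by exact_mod_cast h)]
      exact_mod_cast Nat.lt_succ_iff.1 k.2⟩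

/-- The hat functions on the unit interval. -/
noncomputable def hh (m : ℕ) (k : Fin (m + 1)) (t : unitInterval) : ℝ := hat k (m * (t : ℝ))

theorem continuous_hh (m : ℕ) (k : Fin (m + 1)) : Continuous (hh m k) :=
  (continuous_hat k).comp (by fun_prop)

theorem hh_nonneg (m : ℕ) (k : Fin (m + 1)) (t : unitInterval) : 0 ≤ hh m k t := hat_nonneg _ _
theorem hh_le_one (m : ℕ) (k : Fin (m + 1)) (t : unitInterval) : hh m k t ≤ 1 := hat_le_one _ _

theorem sum_hh (m : ℕ) (t : unitInterval) : ∑ k, hh m k t = 1 :=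
  sum_hat_eq_one m _ (mul_nonneg (Nat.cast_nonneg _) t.2.1)
    (mul_le_of_le_one_right (Nat.cast_nonneg _) t.2.2)

theorem hh_zero {m : ℕ} {k : Fin (m + 1)} (hk : k ≠ 0) : hh m k 0 = 0 := by
  apply hat_eq_zero
  have : 1 ≤ (k : ℕ) := Nat.one_le_iff_ne_zero.2 fun h => hk (Fin.ext h)
  have h2 : (1 : ℝ) ≤ (k : ℕ) := by exact_mod_cast this
  simp only [Set.Icc.coe_zero, mul_zero, zero_sub, abs_neg, Nat.abs_cast]
  exact h2

theorem hh_one {m : ℕ} {k : Fin (m + 1)} (hk : k ≠ Fin.last m) : hh m k 1 = 0 := by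
  apply hat_eq_zero
  have : (k : ℕ) + 1 ≤ m := by
    have h1 := Nat.lt_succ_iff.1 k.2
    rcases Nat.lt_or_ge (k : ℕ) m with h | h
    · exact h
    · exact absurd (Fin.ext (le_antisymm h1 h)) hk
  have h2 : ((k : ℕ) : ℝ) + 1 ≤ m := by exact_mod_cast this
  simp only [Set.Icc.coe_one, mul_one]
  rw [abs_of_nonneg (by linarith)]
  linarith

theorem node_zero (m : ℕ) : node m 0 = 0 := by
  apply Subtype.ext; simp [node]

theorem node_last {m : ℕ} (hm : 0 < m) : node m (Fin.last m) = 1 := by
  apply Subtype.ext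
  simp only [node, Fin.val_last, Set.Icc.coe_one]
  exact div_self (by positivity)

/-- Interpolation. -/
theorem approx {E : Type*} [NormedAddCommGroup E] [NormedSpace ℝ E] (F : C(unitInterval, E))
    {ε : ℝ} (hε : 0 < ε) : ∃ n : ℕ, ∀ m, n ≤ m → 0 < m → ∀ t,
      ‖F t - ∑ k : Fin (m + 1), hh m k t • F (node m k)‖ ≤ ε := by
  have hu : UniformContinuous F := CompactSpace.uniformContinuous_of_continuous F.continuous
  obtain ⟨δ, hδ, h⟩ := Metric.uniformContinuous_iff.1 hu ε hε
  obtain ⟨n, hn⟩ := exists_nat_gt (1 / δ)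
  refine ⟨n, fun m hm hm0 t => ?_⟩
  have hm0' : (0 : ℝ) < m := by exact_mod_cast hm0
  have hmδ : 1 / δ < m := hn.trans_le (by exact_mod_cast hm)
  have e : F t - ∑ k : Fin (m + 1), hh m k t • F (node m k) =
      ∑ k : Fin (m + 1), hh m k t • (F t - F (node m k)) := by
    simp only [smul_sub, Finset.sum_sub_distrib]
    rw [← Finset.sum_smul, sum_hh, one_smul]
  rw [e]
  calc ‖∑ k : Fin (m + 1), hh m k t • (F t - F (node m k))‖
      ≤ ∑ k : Fin (m + 1), ‖hh m k t • (F t - F (node m k))‖ := norm_sum_le _ _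
    _ ≤ ∑ k : Fin (m + 1), hh m k t * ε := by
        refine Finset.sum_le_sum fun k _ => ?_
        rw [norm_smul, Real.norm_of_nonneg (hh_nonneg _ _ _)]
        by_cases hk : 1 ≤ |m * (t : ℝ) - (k : ℕ)|
        · have : hh m k t = 0 := hat_eq_zero hk
          rw [this, zero_mul, zero_mul]
        · refine mul_le_mul_of_nonneg_left ?_ (hh_nonneg _ _ _)
          rw [← dist_eq_norm]
          refine (h ?_).le
          rw [Subtype.dist_eq, Real.dist_eq]
          have e2 : (t : ℝ) - (node m k : ℝ) = (m * (t : ℝ) - (k : ℕ)) / m := by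
            simp only [node]; field_simp
          rw [e2, abs_div, abs_of_pos hm0', div_lt_iff₀ hm0']
          push Not at hk
          have : 1 < δ * m := by
            rw [div_lt_iff₀ hδ] at hmδ; linarith
          linarith
    _ = ε := by rw [← Finset.sum_mul, sum_hh, one_mul]

end Vale.Agent.JS.Hat
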