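import Mathlib

/-! Construction of the Jiang-Su algebra: the objects and the statements of the parts. -/

open scoped Kronecker Matrix.Norms.L2Operator

namespace Vale.Agent.JS

universe u v

/-- Matrices over `M_p ⊗ M_q`. -/
abbrev MM (p q : ℕ) := Matrix (Fin p × Fin q) (Fin p × Fin q) ℂ

/-- Matrices over `M_p ⊗ M_q ⊗ M_p ⊗ M_q`. -/
abbrev M4 (p q : ℕ) :=
  Matrix ((Fin p × Fin q) × (Fin p × Fin q)) ((Fin p × Fin q) × (Fin p × Fin q)) ℂ

/-- Paths in `M_p ⊗ M_q`. -/
abbrev CM (p q : ℕ) := C(unitInterval, MM p q)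

/-- `x` acting on the first factor, the second factor. -/
def one1 {p : ℕ} (q : ℕ) (x : Matrix (Fin p) (Fin p) ℂ) : MM p q := x ⊗ₖ (1 : Matrix (Fin q) (Fin q) ℂ)
def one2 (p : ℕ) {q : ℕ} (y : Matrix (Fin q) (Fin q) ℂ) : MM p q := (1 : Matrix (Fin p) (Fin p) ℂ) ⊗ₖ y

/-- `x` acting on factors 1, 2, and on factors 3, 4. -/
def L12 {p q : ℕ} (x : MM p q) : M4 p q := x ⊗ₖ (1 : MM p q)
def R34 {p q : ℕ} (x : MM p q) : M4 p q := (1 : MM p q) ⊗ₖ x

theorem star_one1 {p : ℕ} (q : ℕ) (x : Matrix (Fin p) (Fin p) ℂ) :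
    star (one1 q x) = one1 q (star x) := by
  simp [one1, Matrix.star_eq_conjTranspose, Matrix.conjTranspose_kronecker]

theorem star_one2 (p : ℕ) {q : ℕ} (x : Matrix (Fin q) (Fin q) ℂ) :
    star (one2 p x) = one2 p (star x) := by
  simp [one2, Matrix.star_eq_conjTranspose, Matrix.conjTranspose_kronecker]

theorem star_L12 {p q : ℕ} (x : MM p q) : star (L12 x) = L12 (star x) := by
  simp [L12, Matrix.star_eq_conjTranspose, Matrix.conjTranspose_kronecker]

theorem star_R34 {p q : ℕ} (x : MM p q) : star (R34 x) = R34 (star x) := by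
  simp [R34, Matrix.star_eq_conjTranspose, Matrix.conjTranspose_kronecker]

/-- The dimension drop algebra `I(p, q)`. -/
def DD (p q : ℕ) : StarSubalgebra ℂ (CM p q) where
  carrier := {f | (∀ y : Matrix (Fin q) (Fin q) ℂ, Commute (f 0) (one2 p y)) ∧
    ∀ x : Matrix (Fin p) (Fin p) ℂ, Commute (f 1) (one1 q x)}
  mul_mem' := fun {f g} hf hg => ⟨fun y => (hf.1 y).mul_left (hg.1 y),
    fun x => (hf.2 x).mul_left (hg.2 x)⟩
  add_mem' := fun {f g} hf hg => ⟨fun y => (hf.1 y).add_left (hg.1 y),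
    fun x => (hf.2 x).add_left (hg.2 x)⟩
  algebraMap_mem' := fun r => ⟨fun y => Algebra.commutes r _, fun x => Algebra.commutes r _⟩
  star_mem' := fun {f} hf => ⟨fun y => by
      have := (hf.1 (star y)).star_star
      rwa [star_one2, star_star] at this, fun x => by
      have := (hf.2 (star x)).star_star
      rwa [star_one1, star_star] at this⟩

/-- `I(p, q) ⊗ I(p, q)`, as an algebra of functions on the square. -/
def EE (p q : ℕ) : StarSubalgebra ℂ C(unitInterval × unitInterval, M4 p q) where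
  carrier := {F | (∀ t (y : Matrix (Fin q) (Fin q) ℂ), Commute (F (0, t)) (L12 (one2 p y))) ∧
    (∀ t (x : Matrix (Fin p) (Fin p) ℂ), Commute (F (1, t)) (L12 (one1 q x))) ∧
    (∀ s (y : Matrix (Fin q) (Fin q) ℂ), Commute (F (s, 0)) (R34 (one2 p y))) ∧
    ∀ s (x : Matrix (Fin p) (Fin p) ℂ), Commute (F (s, 1)) (R34 (one1 q x))}
  mul_mem' := fun {f g} hf hg => ⟨fun t y => (hf.1 t y).mul_left (hg.1 t y),
    fun t y => (hf.2.1 t y).mul_left (hg.2.1 t y), fun t y => (hf.2.2.1 t y).mul_left (hg.2.2.1 t y),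
    fun t y => (hf.2.2.2 t y).mul_left (hg.2.2.2 t y)⟩
  add_mem' := fun {f g} hf hg => ⟨fun t y => (hf.1 t y).add_left (hg.1 t y),
    fun t y => (hf.2.1 t y).add_left (hg.2.1 t y), fun t y => (hf.2.2.1 t y).add_left (hg.2.2.1 t y),
    fun t y => (hf.2.2.2 t y).add_left (hg.2.2.2 t y)⟩
  algebraMap_mem' := fun r => ⟨fun t y => Algebra.commutes r _, fun t y => Algebra.commutes r _,
    fun t y => Algebra.commutes r _, fun t y => Algebra.commutes r _⟩
  star_mem' := fun {f} hf => ⟨fun t y => by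
      have := (hf.1 t (star y)).star_star
      rwa [star_L12, star_one2, star_star] at this, fun t x => by
      have := (hf.2.1 t (star x)).star_star
      rwa [star_L12, star_one1, star_star] at this, fun t y => by
      have := (hf.2.2.1 t (star y)).star_star
      rwa [star_R34, star_one2, star_star] at this, fun t x => by
      have := (hf.2.2.2 t (star x)).star_star
      rwa [star_R34, star_one1, star_star] at this⟩

theorem continuous_L12 {p q : ℕ} : Continuous (L12 (p := p) (q := q)) := by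
  refine continuous_matrix fun i j => ?_
  simp only [L12, Matrix.kroneckerMap_apply]
  exact (continuous_id.matrix_elem _ _).mul continuous_const

theorem continuous_R34 {p q : ℕ} : Continuous (R34 (p := p) (q := q)) := by
  refine continuous_matrix fun i j => ?_
  simp only [R34, Matrix.kroneckerMap_apply]
  exact continuous_const.mul (continuous_id.matrix_elem _ _)

/-- `f ⊗ 1` as a function on the square. -/
noncomputable def lft {p q : ℕ} : CM p q →⋆ₐ[ℂ] C(unitInterval × unitInterval, M4 p q) where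
  toFun f := ⟨fun z => L12 (f z.1), continuous_L12.comp (f.continuous.comp continuous_fst)⟩
  map_one' := by ext z : 1; simp [L12]
  map_mul' f g := by ext z : 1; simp [L12, ← Matrix.mul_kronecker_mul]
  map_zero' := by ext z : 1; simp [L12]
  map_add' f g := by ext z : 1; simp [L12, Matrix.add_kronecker]
  commutes' r := by
    ext z : 1
    simp only [Algebra.algebraMap_eq_smul_one, ContinuousMap.coe_mk, ContinuousMap.smul_apply,
      ContinuousMap.one_apply, L12, Matrix.smul_kronecker, Matrix.one_kronecker_one]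
  map_star' f := by ext z : 1; exact (star_L12 _).symm

/-- `1 ⊗ f` as a function on the square. -/
noncomputable def rgt {p q : ℕ} : CM p q →⋆ₐ[ℂ] C(unitInterval × unitInterval, M4 p q) where
  toFun f := ⟨fun z => R34 (f z.2), continuous_R34.comp (f.continuous.comp continuous_snd)⟩
  map_one' := by ext z : 1; simp [R34]
  map_mul' f g := by ext z : 1; simp [R34, ← Matrix.mul_kronecker_mul]
  map_zero' := by ext z : 1; simp [R34]
  map_add' f g := by ext z : 1; simp [R34, Matrix.kronecker_add]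
  commutes' r := by
    ext z : 1
    simp only [Algebra.algebraMap_eq_smul_one, ContinuousMap.coe_mk, ContinuousMap.smul_apply,
      ContinuousMap.one_apply, R34, Matrix.kronecker_smul, Matrix.one_kronecker_one]
  map_star' f := by ext z : 1; exact (star_R34 _).symm

@[simp] theorem lft_apply {p q : ℕ} (f : CM p q) (z) : lft f z = L12 (f z.1) := rfl
@[simp] theorem rgt_apply {p q : ℕ} (f : CM p q) (z) : rgt f z = R34 (f z.2) := rfl

theorem lft_mem {p q : ℕ} {f : CM p q} (hf : f ∈ DD p q) : lft f ∈ EE p q := by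
  have hc : ∀ a b : MM p q, Commute (L12 a) (R34 b) := fun a b => by
    simp [Commute, SemiconjBy, L12, R34, ← Matrix.mul_kronecker_mul]
  have hl : ∀ a b : MM p q, Commute a b → Commute (L12 a) (L12 b) := fun a b h => by
    simp only [Commute, SemiconjBy, L12, ← Matrix.mul_kronecker_mul, one_mul]
    rw [h.eq]
  exact ⟨fun t y => hl _ _ (hf.1 y), fun t x => hl _ _ (hf.2 x), fun s y => hc _ _,
    fun s x => hc _ _⟩

theorem rgt_mem {p q : ℕ} {f : CM p q} (hf : f ∈ DD p q) : rgt f ∈ EE p q := by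
  have hc : ∀ a b : MM p q, Commute (R34 a) (L12 b) := fun a b => by
    simp [Commute, SemiconjBy, L12, R34, ← Matrix.mul_kronecker_mul]
  have hl : ∀ a b : MM p q, Commute a b → Commute (R34 a) (R34 b) := fun a b h => by
    simp only [Commute, SemiconjBy, R34, ← Matrix.mul_kronecker_mul, one_mul]
    rw [h.eq]
  exact ⟨fun s y => hc _ _, fun s x => hc _ _, fun t y => hl _ _ (hf.1 y),
    fun t x => hl _ _ (hf.2 x)⟩

/-! ### Part A: inductive limits -/

/-- Existence of inductive limits of sequences of C*-algebras with injective maps. -/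
def LimitExists : Prop :=
  ∀ (A : ℕ → Type v) [∀ n, CStarAlgebra (A n)] (φ : ∀ n, A n →⋆ₐ[ℂ] A (n + 1)),
    (∀ n, Function.Injective (φ n)) →
    ∃ (Z : Type (max u v)) (_ : CStarAlgebra Z) (ι : ∀ n, A n →⋆ₐ[ℂ] Z),
      (∀ n x, ι (n + 1) (φ n x) = ι n x) ∧ (∀ n, Function.Injective (ι n)) ∧
      Dense (⋃ n, Set.range (ι n))

/-! ### Part B: homs of commuting pairs of dimension drop algebras -/

/-- Two unital star-homs of `I(p,q)` with commuting ranges give a hom of the algebra of functions on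
the square. -/
def ExtExists : Prop :=
  ∀ (p q : ℕ), 0 < p → 0 < q → ∀ (B : Type u) [CStarAlgebra B] (φ ψ : DD p q →⋆ₐ[ℂ] B),
    (∀ x y, Commute (φ x) (ψ y)) →
    ∃ Θ : EE p q →⋆ₐ[ℂ] B, (∀ f : DD p q, Θ ⟨lft f, lft_mem f.2⟩ = φ f) ∧
      (∀ f : DD p q, Θ ⟨rgt f, rgt_mem f.2⟩ = ψ f) ∧
      ∀ F : EE p q, ‖Θ F‖ ≤ ‖(F : C(unitInterval × unitInterval, M4 p q))‖

/-! ### Part C: the connecting maps -/

/-- The data of the sequence of dimension drop algebras. The maps are defined on all matrix valued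
functions. -/
structure Seq where
  p : ℕ → ℕ
  q : ℕ → ℕ
  Φ : ∀ n, CM (p n) (q n) →⋆ₐ[ℂ] CM (p (n + 1)) (q (n + 1))

/-- The composition of `k` connecting maps. -/
noncomputable def Seq.comp (S : Seq) (n : ℕ) :
    ∀ k, CM (S.p n) (S.q n) →⋆ₐ[ℂ] CM (S.p (n + k)) (S.q (n + k))
  | 0 => StarAlgHom.id ℂ _
  | k + 1 => (S.Φ (n + k)).comp (Seq.comp S n k)

/-- The properties of the sequence. -/
structure Seq.Good (S : Seq) : Prop where
  p_pos : ∀ n, 0 < S.p n
  q_pos : ∀ n, 0 < S.q n
  coprime : ∀ n, Nat.Coprime (S.p n) (S.q n)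
  inj : ∀ n, Function.Injective (S.Φ n)
  maps : ∀ n, ∀ f ∈ DD (S.p n) (S.q n), S.Φ n f ∈ DD (S.p (n + 1)) (S.q (n + 1))
  /-- After sufficiently many steps every function becomes constant, up to a small error and
  a path of unitaries that does not depend on the function. -/
  collapse : ∃ u : ∀ n k, CM (S.p (n + k)) (S.q (n + k)),
    (∀ n k s, u n k s ∈ unitary (MM (S.p (n + k)) (S.q (n + k)))) ∧ (∀ n k, u n k 0 = 1) ∧
    ∀ n (f : CM (S.p n) (S.q n)) (ε : ℝ), 0 < ε → ∃ k₀, ∀ k, k₀ ≤ k → ∀ s,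
      ‖S.comp n k f s - u n k s * S.comp n k f 0 * star (u n k s)‖ ≤ ε
  /-- Multiplicities at the left end. -/
  left : ∀ n, ∃ x : Fin 2 → Matrix (Fin (S.p (n + 1))) (Fin (S.p (n + 1))) ℂ,
    (∀ i, x i * x i = 0) ∧ ∑ i, star (x i) * x i = 1 ∧
    ∀ f ∈ DD (S.p n) (S.q n), ∀ i, Commute (S.Φ n f 0) (one1 _ (x i))
  /-- Multiplicities at the right end. -/
  right : ∀ n, ∃ y : Fin 3 → Matrix (Fin (S.q (n + 1))) (Fin (S.q (n + 1))) ℂ,
    (∀ i, y i * y i = 0) ∧ ∑ i, star (y i) * y i = 1 ∧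
    ∀ f ∈ DD (S.p n) (S.q n), ∀ i, Commute (S.Φ n f 1) (one2 _ (y i))

/-- The sequence exists. -/
def SeqExists : Prop := ∃ S : Seq, S.Good

/-! ### Part D: the unitary on the square -/

/-- If the functions `f` in `F` are constant up to a path of unitaries and up to `ε`, then the two
embeddings of `F` are conjugate up to `4 * ε`. -/
def FlipUnitary : Prop :=
  ∀ (p q : ℕ), 0 < p → 0 < q → ∀ (u : CM p q), (∀ s, u s ∈ unitary (MM p q)) → u 0 = 1 →
    ∃ W : C(unitInterval × unitInterval, M4 p q), W ∈ EE p q ∧ (∀ z, W z ∈ unitary (M4 p q)) ∧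
      ∀ f ∈ DD p q, ∀ ε : ℝ, 0 ≤ ε → (∀ s, ‖f s - u s * f 0 * star (u s)‖ ≤ ε) →
        ‖W * lft f * star W - rgt f‖ ≤ 4 * ε

end Vale.Agent.JS
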