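import Vale.Agent.P095JS.Iface

/-! Part A: inductive limits of sequences of C*-algebras with injective maps. -/

open Filter Topology

namespace Vale.Agent.JS.PartA

universe u v w

section SeqQuot

variable {ι : Type v} {B : ι → Type u} [∀ i, CStarAlgebra (B i)]

/-- Essential supremum of the norm along `μ`. -/
noncomputable def nrm (μ : Filter ι) (x : ∀ i, B i) : ℝ :=
  sInf {r : ℝ | 0 ≤ r ∧ ∀ᶠ i in μ, ‖x i‖ ≤ r}

lemma nrm_nonneg (μ : Filter ι) (x : ∀ i, B i) : 0 ≤ nrm μ x :=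
  Real.sInf_nonneg fun _ hr => hr.1

lemma nrm_le {μ : Filter ι} {x : ∀ i, B i} {r : ℝ} (h0 : 0 ≤ r) (h : ∀ᶠ i in μ, ‖x i‖ ≤ r) :
    nrm μ x ≤ r :=
  csInf_le ⟨0, fun _ hs => hs.1⟩ ⟨h0, h⟩

lemma eventually_lt {μ : Filter ι} {x : ∀ i, B i} (hb : ∃ K : ℝ, ∀ i, ‖x i‖ ≤ K) {c : ℝ}
    (h : nrm μ x < c) : ∀ᶠ i in μ, ‖x i‖ < c := by
  obtain ⟨K, hK⟩ := hb
  obtain ⟨r, ⟨_, hr⟩, hrc⟩ := exists_lt_of_csInf_lt
    (s := {r : ℝ | 0 ≤ r ∧ ∀ᶠ i in μ, ‖x i‖ ≤ r})
    ⟨max K 0, le_max_right _ _, Eventually.of_forall fun i => (hK i).trans (le_max_left _ _)⟩ h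
  exact hr.mono fun i hi => hi.trans_lt hrc

lemma nrm_add_le {μ : Filter ι} {x y : ∀ i, B i} (hx : ∃ K : ℝ, ∀ i, ‖x i‖ ≤ K)
    (hy : ∃ K : ℝ, ∀ i, ‖y i‖ ≤ K) : nrm μ (x + y) ≤ nrm μ x + nrm μ y := by
  refine le_of_forall_pos_le_add fun ε hε => ?_
  have h1 := eventually_lt hx (μ := μ) (c := nrm μ x + ε / 2) (by linarith)
  have h2 := eventually_lt hy (μ := μ) (c := nrm μ y + ε / 2) (by linarith)
  refine nrm_le (by linarith [nrm_nonneg μ x, nrm_nonneg μ y]) ?_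
  filter_upwards [h1, h2] with i hi1 hi2
  exact (norm_add_le _ _).trans (by linarith)

lemma nrm_neg {μ : Filter ι} (x : ∀ i, B i) : nrm μ (-x) = nrm μ x := by
  unfold nrm; simp

lemma nrm_mul_le {μ : Filter ι} {x y : ∀ i, B i} (hx : ∃ K : ℝ, ∀ i, ‖x i‖ ≤ K)
    (hy : ∃ K : ℝ, ∀ i, ‖y i‖ ≤ K) : nrm μ (x * y) ≤ nrm μ x * nrm μ y := by
  have key : ∀ ε > 0, nrm μ (x * y) ≤ (nrm μ x + ε) * (nrm μ y + ε) := by
    intro ε hε
    have h1 := eventually_lt hx (μ := μ) (c := nrm μ x + ε) (by linarith)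
    have h2 := eventually_lt hy (μ := μ) (c := nrm μ y + ε) (by linarith)
    have h3 := nrm_nonneg μ x
    have h4 := nrm_nonneg μ y
    refine nrm_le (by positivity) ?_
    filter_upwards [h1, h2] with i hi1 hi2
    exact (norm_mul_le _ _).trans (mul_le_mul hi1.le hi2.le (norm_nonneg _) (by positivity))
  have hlim : Tendsto (fun ε : ℝ => (nrm μ x + ε) * (nrm μ y + ε)) (𝓝[>] 0)
      (𝓝 ((nrm μ x + 0) * (nrm μ y + 0))) := by
    apply Tendsto.mono_left _ nhdsWithin_le_nhds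
    have : Continuous (fun ε : ℝ => (nrm μ x + ε) * (nrm μ y + ε)) := by fun_prop
    exact this.tendsto 0
  rw [add_zero, add_zero] at hlim
  refine ge_of_tendsto hlim ?_
  filter_upwards [self_mem_nhdsWithin] with ε hε
  exact key ε hε

lemma nrm_smul {μ : Filter ι} (c : ℂ) {x : ∀ i, B i} (hx : ∃ K : ℝ, ∀ i, ‖x i‖ ≤ K) :
    nrm μ (c • x) ≤ ‖c‖ * nrm μ x := by
  have key : ∀ ε > 0, nrm μ (c • x) ≤ ‖c‖ * (nrm μ x + ε) := by
    intro ε hε
    have h1 := eventually_lt hx (μ := μ) (c := nrm μ x + ε) (by linarith)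
    have h3 := nrm_nonneg μ x
    refine nrm_le (by positivity) ?_
    filter_upwards [h1] with i hi1
    rw [Pi.smul_apply, norm_smul]
    exact mul_le_mul_of_nonneg_left hi1.le (norm_nonneg _)
  have hlim : Tendsto (fun ε : ℝ => ‖c‖ * (nrm μ x + ε)) (𝓝[>] 0)
      (𝓝 (‖c‖ * (nrm μ x + 0))) := by
    apply Tendsto.mono_left _ nhdsWithin_le_nhds
    have : Continuous (fun ε : ℝ => ‖c‖ * (nrm μ x + ε)) := by fun_prop
    exact this.tendsto 0
  rw [add_zero] at hlim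
  refine ge_of_tendsto hlim ?_
  filter_upwards [self_mem_nhdsWithin] with ε hε
  exact key ε hε

lemma nrm_sq_le {μ : Filter ι} {x : ∀ i, B i} (hx : ∃ K : ℝ, ∀ i, ‖x i‖ ≤ K) :
    nrm μ x * nrm μ x ≤ nrm μ (star x * x) := by
  have hb : ∃ K : ℝ, ∀ i, ‖(star x * x) i‖ ≤ K := by
    obtain ⟨K, hK⟩ := hx
    refine ⟨K * K, fun i => ?_⟩
    rw [Pi.mul_apply, Pi.star_apply, CStarRing.norm_star_mul_self]
    exact mul_le_mul (hK i) (hK i) (norm_nonneg _) ((norm_nonneg _).trans (hK i))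
  refine le_of_forall_pos_le_add fun ε hε => ?_
  have h1 := eventually_lt hb (μ := μ) (c := nrm μ (star x * x) + ε) (by linarith)
  have h0 := nrm_nonneg μ (star x * x)
  have h2 : nrm μ x ≤ Real.sqrt (nrm μ (star x * x) + ε) := by
    refine nrm_le (Real.sqrt_nonneg _) ?_
    filter_upwards [h1] with i hi
    rw [Pi.mul_apply, Pi.star_apply, CStarRing.norm_star_mul_self] at hi
    exact Real.le_sqrt_of_sq_le (by rw [sq]; exact hi.le)
  calc nrm μ x * nrm μ x ≤ Real.sqrt (nrm μ (star x * x) + ε) *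
        Real.sqrt (nrm μ (star x * x) + ε) :=
        mul_le_mul h2 h2 (nrm_nonneg _ _) (Real.sqrt_nonneg _)
    _ = nrm μ (star x * x) + ε := Real.mul_self_sqrt (by linarith)

lemma nrm_eq_zero_iff {μ : Filter ι} {x : ∀ i, B i} (hx : ∃ K : ℝ, ∀ i, ‖x i‖ ≤ K) :
    nrm μ x = 0 ↔ Tendsto (fun i => ‖x i‖) μ (𝓝 0) := by
  constructor
  · intro h
    rw [Metric.tendsto_nhds]
    intro ε hε
    have := eventually_lt hx (μ := μ) (c := ε) (by rw [h]; exact hε)
    filter_upwards [this] with i hi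
    rwa [dist_zero_right, norm_norm]
  · intro h
    refine le_antisymm ?_ (nrm_nonneg _ _)
    refine le_of_forall_pos_le_add fun ε hε => ?_
    rw [zero_add]
    refine nrm_le hε.le ?_
    have := (Metric.tendsto_nhds.mp h) ε hε
    filter_upwards [this] with i hi
    rw [dist_zero_right, norm_norm] at hi
    exact hi.le

open Classical in
/-- Cutting a family to a set of indices. -/
noncomputable def cutf (s : Set ι) (x : ∀ i, B i) : ∀ i, B i := fun i => if i ∈ s then x i else 0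

lemma cutf_mem {s : Set ι} (x : ∀ i, B i) {i : ι} (h : i ∈ s) : cutf s x i = x i := if_pos h
lemma cutf_not_mem {s : Set ι} (x : ∀ i, B i) {i : ι} (h : i ∉ s) : cutf s x i = 0 := if_neg h

/-- Conditions on an algebra of functions making its quotient by null functions a C*-algebra. -/
structure IsSeqAlg (μ : Filter ι) (C : StarSubalgebra ℂ (∀ i, B i)) : Prop where
  bdd : ∀ x ∈ C, ∃ K : ℝ, ∀ i, ‖x i‖ ≤ K
  cut : ∀ x ∈ C, ∀ s ∈ μ, cutf s x ∈ C
  lim : ∀ x : ∀ i, B i, (∀ ε : ℝ, 0 < ε → ∃ y ∈ C, ∀ i, ‖x i - y i‖ ≤ ε) → x ∈ C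

/-- The congruence of equality up to null functions. -/
def nullConG (μ : Filter ι) (C : StarSubalgebra ℂ (∀ i, B i)) (hC : IsSeqAlg μ C) :
    RingCon C where
  r x y := Tendsto (fun i => ‖(x : ∀ i, B i) i - (y : ∀ i, B i) i‖) μ (𝓝 0)
  iseqv :=
    { refl := fun x => by
        simp only [sub_self, norm_zero]; exact tendsto_const_nhds
      symm := fun {x y} h => by
        refine h.congr (fun i => ?_)
        rw [norm_sub_rev]
      trans := fun {x y z} h₁ h₂ => by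
        have h : Tendsto (fun i => ‖(x : ∀ i, B i) i - (y : ∀ i, B i) i‖
            + ‖(y : ∀ i, B i) i - (z : ∀ i, B i) i‖) μ (𝓝 0) := by simpa using h₁.add h₂
        exact squeeze_zero (fun i => norm_nonneg _)
          (fun i => norm_sub_le_norm_sub_add_norm_sub _ _ _) h }
  add' := fun {w x y z} h₁ h₂ => by
    have h : Tendsto (fun i => ‖(w : ∀ i, B i) i - (x : ∀ i, B i) i‖
        + ‖(y : ∀ i, B i) i - (z : ∀ i, B i) i‖) μ (𝓝 0) := by simpa using h₁.add h₂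
    refine squeeze_zero (fun i => norm_nonneg _) (fun i => ?_) h
    have e : ((w + y : C) : ∀ i, B i) i - ((x + z : C) : ∀ i, B i) i
        = ((w : ∀ i, B i) i - (x : ∀ i, B i) i) + ((y : ∀ i, B i) i - (z : ∀ i, B i) i) := by
      simp only [AddMemClass.coe_add, Pi.add_apply]; abel
    rw [e]
    exact norm_add_le _ _
  mul' := fun {w x y z} h₁ h₂ => by
    obtain ⟨K, hK⟩ := hC.bdd x x.2
    obtain ⟨D, hD⟩ := hC.bdd y y.2
    have h : Tendsto (fun i => ‖(w : ∀ i, B i) i - (x : ∀ i, B i) i‖ * D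
        + K * ‖(y : ∀ i, B i) i - (z : ∀ i, B i) i‖) μ (𝓝 0) := by
      simpa using (h₁.mul_const D).add (h₂.const_mul K)
    refine squeeze_zero (fun i => norm_nonneg _) (fun i => ?_) h
    have e : ((w * y : C) : ∀ i, B i) i - ((x * z : C) : ∀ i, B i) i
        = ((w : ∀ i, B i) i - (x : ∀ i, B i) i) * (y : ∀ i, B i) i
          + (x : ∀ i, B i) i * ((y : ∀ i, B i) i - (z : ∀ i, B i) i) := by
      simp only [MulMemClass.coe_mul, Pi.mul_apply]; noncomm_ring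
    rw [e]
    refine (norm_add_le _ _).trans (add_le_add ?_ ?_)
    · exact (norm_mul_le _ _).trans (mul_le_mul_of_nonneg_left (hD i) (norm_nonneg _))
    · exact (norm_mul_le _ _).trans (mul_le_mul_of_nonneg_right (hK i) (norm_nonneg _))

section Con

variable {μ : Filter ι} {C : StarSubalgebra ℂ (∀ i, B i)} (hC : IsSeqAlg μ C) (c : RingCon C)
  (hc : ∀ x y : C, c x y ↔ Tendsto (fun i => ‖(x : ∀ i, B i) i - (y : ∀ i, B i) i‖) μ (𝓝 0))

include hC in
lemma nrm_congr (x y : C)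
    (h : Tendsto (fun i => ‖(x : ∀ i, B i) i - (y : ∀ i, B i) i‖) μ (𝓝 0)) :
    nrm μ (x : ∀ i, B i) = nrm μ (y : ∀ i, B i) := by
  have key : ∀ x y : C, Tendsto (fun i => ‖(x : ∀ i, B i) i - (y : ∀ i, B i) i‖) μ (𝓝 0) →
      nrm μ (x : ∀ i, B i) ≤ nrm μ (y : ∀ i, B i) := by
    intro x y h
    have e : (x : ∀ i, B i) = ((x - y : C) : ∀ i, B i) + (y : ∀ i, B i) := by
      simp
    have h0 : nrm μ ((x - y : C) : ∀ i, B i) = 0 := by
      rw [nrm_eq_zero_iff (hC.bdd _ (x - y).2)]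
      exact h.congr fun i => by simp
    rw [e]
    refine (nrm_add_le (hC.bdd _ (x - y).2) (hC.bdd _ y.2)).trans ?_
    rw [h0, zero_add]
  refine le_antisymm (key x y h) (key y x (h.congr fun i => norm_sub_rev _ _))

/-- The quotient norm. -/
noncomputable def qnrm (q : c.Quotient) : ℝ := nrm μ ((Quotient.out q : C) : ∀ i, B i)

include hC hc in
lemma qnrm_mk (x : C) : qnrm (μ := μ) c (x : c.Quotient) = nrm μ (x : ∀ i, B i) := by
  unfold qnrm
  apply nrm_congr hC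
  rw [← hc]
  exact (c.eq).mp (Quotient.out_eq _)

/-- The norm on the quotient as a ring norm. -/
noncomputable def ringNorm : RingNorm c.Quotient where
  toFun := qnrm (μ := μ) c
  map_zero' := by
    change qnrm (μ := μ) c ((0 : C) : c.Quotient) = 0
    rw [qnrm_mk hC c hc, nrm_eq_zero_iff (hC.bdd _ (0 : C).2)]
    simp only [ZeroMemClass.coe_zero, Pi.zero_apply, norm_zero]
    exact tendsto_const_nhds
  add_le' := by
    rintro ⟨x⟩ ⟨y⟩
    change qnrm (μ := μ) c ((x + y : C) : c.Quotient) ≤ qnrm (μ := μ) c (x : c.Quotient) +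
      qnrm (μ := μ) c (y : c.Quotient)
    rw [qnrm_mk hC c hc, qnrm_mk hC c hc, qnrm_mk hC c hc]
    exact nrm_add_le (hC.bdd _ x.2) (hC.bdd _ y.2)
  neg' := by
    rintro ⟨x⟩
    change qnrm (μ := μ) c ((-x : C) : c.Quotient) = qnrm (μ := μ) c (x : c.Quotient)
    rw [qnrm_mk hC c hc, qnrm_mk hC c hc]
    exact nrm_neg _
  mul_le' := by
    rintro ⟨x⟩ ⟨y⟩
    change qnrm (μ := μ) c ((x * y : C) : c.Quotient) ≤ qnrm (μ := μ) c (x : c.Quotient) *
      qnrm (μ := μ) c (y : c.Quotient)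
    rw [qnrm_mk hC c hc, qnrm_mk hC c hc, qnrm_mk hC c hc]
    exact nrm_mul_le (hC.bdd _ x.2) (hC.bdd _ y.2)
  eq_zero_of_map_eq_zero' := by
    rintro ⟨x⟩ h
    change qnrm (μ := μ) c (x : c.Quotient) = 0 at h
    rw [qnrm_mk hC c hc, nrm_eq_zero_iff (hC.bdd _ x.2)] at h
    change (x : c.Quotient) = ((0 : C) : c.Quotient)
    rw [c.eq, hc]
    exact h.congr fun i => by simp

include hC hc in
/-- Completeness of the quotient. -/
lemma complete_aux : @CompleteSpace c.Quotient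
    (ringNorm hC c hc).toNormedRing.toPseudoMetricSpace.toUniformSpace := by
  let _ := (ringNorm hC c hc).toNormedRing
  have hnorm : ∀ x : C, ‖(x : c.Quotient)‖ = nrm μ (x : ∀ i, B i) := fun x => qnrm_mk hC c hc x
  refine Metric.complete_of_convergent_controlled_sequences (fun n => (1 / 2) / 2 ^ n)
    (fun n => by positivity) ?_
  intro u hu
  choose x hx using fun n => (Quotient.mk_surjective (s := c.toSetoid) (u n))
  have hx' : ∀ n, ((x n : C) : c.Quotient) = u n := hx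
  have hd : ∀ n, nrm μ ((x (n + 1) - x n : C) : ∀ i, B i) < (1 / 2) / 2 ^ n := by
    intro n
    have := hu n (n + 1) n (by omega) le_rfl
    rw [← hx', ← hx', dist_eq_norm] at this
    rw [← hnorm]
    exact this
  have hU : ∀ n, {i | ‖((x (n + 1) - x n : C) : ∀ i, B i) i‖ < (1 / 2) / 2 ^ n} ∈ μ := fun n =>
    eventually_lt (hC.bdd _ (x (n + 1) - x n).2) (hd n)
  let e : ℕ → C := fun n => ⟨cutf
    {i | ‖((x (n + 1) - x n : C) : ∀ i, B i) i‖ < (1 / 2) / 2 ^ n}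
    ((x (n + 1) - x n : C) : ∀ i, B i), hC.cut _ (x (n + 1) - x n).2 _ (hU n)⟩
  have he_bound : ∀ n i, ‖(e n : ∀ i, B i) i‖ ≤ (1 / 2) / 2 ^ n := by
    intro n i
    simp only [e]
    by_cases hi : i ∈ {i | ‖((x (n + 1) - x n : C) : ∀ i, B i) i‖ < (1 / 2) / 2 ^ n}
    · rw [cutf_mem _ hi]
      exact le_of_lt hi
    · rw [cutf_not_mem _ hi, norm_zero]
      positivity
  have he_class : ∀ n, ((e n : C) : c.Quotient) = ((x (n + 1) - x n : C) : c.Quotient) := by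
    intro n
    rw [c.eq, hc]
    refine tendsto_const_nhds.congr' ?_
    filter_upwards [hU n] with i hi
    have hi' : i ∈ {i | ‖((x (n + 1) - x n : C) : ∀ i, B i) i‖ < (1 / 2) / 2 ^ n} := hi
    simp only [e]
    rw [cutf_mem _ hi', sub_self, norm_zero]
  let y : ℕ → C := fun n => x 0 + ∑ m ∈ Finset.range n, e m
  have hy_class : ∀ n, ((y n : C) : c.Quotient) = u n := by
    intro n
    rw [← hx']
    induction n with
    | zero => simp [y]
    | succ n ih =>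
      have : y (n + 1) = y n + e n := by
        simp only [y]; rw [Finset.sum_range_succ, add_assoc]
      rw [this, RingCon.coe_add, ih, he_class, ← RingCon.coe_add]
      congr 1
      abel
  have hstep : ∀ i n, dist ((y n : ∀ i, B i) i) ((y (n + 1) : ∀ i, B i) i) ≤ 1 / 2 / 2 ^ n := by
    intro i n
    have : y (n + 1) = y n + e n := by
      simp only [y]; rw [Finset.sum_range_succ, add_assoc]
    rw [this, dist_comm, dist_eq_norm]
    simpa using he_bound n i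
  choose z hz using fun i => cauchySeq_tendsto_of_complete
    (cauchySeq_of_le_geometric_two (hstep i))
  have hzy : ∀ n i, ‖z i - (y n : ∀ i, B i) i‖ ≤ 1 / 2 ^ n := by
    intro n i
    rw [← dist_eq_norm, dist_comm]
    exact dist_le_of_le_geometric_two_of_tendsto (hstep i) (hz i) n
  have hzC : z ∈ C := by
    refine hC.lim z fun ε hε => ?_
    obtain ⟨n, hn⟩ := exists_pow_lt_of_lt_one hε (by norm_num : (1 / 2 : ℝ) < 1)
    refine ⟨y n, (y n).2, fun i => (hzy n i).trans ?_⟩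
    rw [one_div_pow] at hn
    exact hn.le
  refine ⟨((⟨z, hzC⟩ : C) : c.Quotient), ?_⟩
  rw [tendsto_iff_norm_sub_tendsto_zero]
  have hb : ∀ n, ‖u n - ((⟨z, hzC⟩ : C) : c.Quotient)‖ ≤ (1 / 2) ^ n := by
    intro n
    rw [← hy_class n, ← RingCon.coe_sub, hnorm]
    refine nrm_le (by positivity) (Eventually.of_forall fun i => ?_)
    rw [one_div_pow]
    refine le_trans (le_of_eq ?_) (hzy n i)
    rw [norm_sub_rev]; rfl
  exact squeeze_zero (fun n => norm_nonneg _) hb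
    (tendsto_pow_atTop_nhds_zero_of_lt_one (by norm_num) (by norm_num))

/-- The C*-algebra structure on the quotient. -/
@[reducible]
noncomputable def cstar (hs : StarRing c.Quotient)
    (hstar : ∀ x : C, star (x : c.Quotient) = ((star x : C) : c.Quotient)) :
    CStarAlgebra c.Quotient :=
  let N : NormedRing c.Quotient := (ringNorm hC c hc).toNormedRing
  have hnorm : ∀ x : C, ‖(x : c.Quotient)‖ = nrm μ (x : ∀ i, B i) := fun x => qnrm_mk hC c hc x
  { N, hs, (inferInstance : Algebra ℂ c.Quotient) with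
    complete := (complete_aux hC c hc).complete
    norm_mul_self_le := by
      rintro ⟨x⟩
      change ‖(x : c.Quotient)‖ * ‖(x : c.Quotient)‖ ≤ ‖star (x : c.Quotient) * (x : c.Quotient)‖
      rw [hstar, ← RingCon.coe_mul, hnorm, hnorm]
      exact nrm_sq_le (hC.bdd _ x.2)
    norm_smul_le := by
      rintro r ⟨x⟩
      change ‖((r • x : C) : c.Quotient)‖ ≤ ‖r‖ * ‖(x : c.Quotient)‖
      rw [hnorm, hnorm]
      exact nrm_smul r (hC.bdd _ x.2)
    star_smul := by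
      rintro r ⟨x⟩
      change star ((r • x : C) : c.Quotient) = star r • star (x : c.Quotient)
      rw [hstar, hstar, star_smul]
      rfl }

/-- Pointwise involution on the quotient. -/
@[reducible]
noncomputable def starQ
    (hc : ∀ x y : C, c x y ↔ Tendsto (fun i => ‖(x : ∀ i, B i) i - (y : ∀ i, B i) i‖) μ (𝓝 0)) :
    StarRing c.Quotient where
  star := Quotient.map' star (fun x y h => by
    change c (star x) (star y)
    rw [hc]
    refine Tendsto.congr (fun i => ?_) ((hc x y).mp h)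
    rw [show ((star x : C) : ∀ i, B i) i - ((star y : C) : ∀ i, B i) i
      = star ((x : ∀ i, B i) i - (y : ∀ i, B i) i) by simp, norm_star])
  star_involutive := by
    rintro ⟨x⟩
    exact congrArg (Quotient.mk'' (s₁ := c.toSetoid)) (star_star x)
  star_mul := by
    rintro ⟨x⟩ ⟨y⟩
    exact congrArg (Quotient.mk'' (s₁ := c.toSetoid)) (star_mul x y)
  star_add := by
    rintro ⟨x⟩ ⟨y⟩
    exact congrArg (Quotient.mk'' (s₁ := c.toSetoid)) (star_add x y)

end Con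

end SeqQuot

section Lim

variable (A : ℕ → Type v) [∀ n, CStarAlgebra (A n)] (φ : ∀ n, A n →⋆ₐ[ℂ] A (n + 1))

/-- The transition maps. -/
noncomputable def tr (n : ℕ) {m : ℕ} (h : n ≤ m) : A n →⋆ₐ[ℂ] A m :=
  Nat.leRecOn (C := fun m => A n →⋆ₐ[ℂ] A m) h (fun {k} f => (φ k).comp f) (StarAlgHom.id ℂ (A n))

lemma tr_self (n : ℕ) (x : A n) : tr A φ n le_rfl x = x := by
  unfold tr
  rw [Nat.leRecOn_self]
  rfl

lemma tr_succ (n : ℕ) {m : ℕ} (h : n ≤ m) (x : A n) :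
    tr A φ n (h.trans (Nat.le_succ m)) x = φ m (tr A φ n h x) := by
  unfold tr
  rw [Nat.leRecOn_succ h]
  rfl

lemma tr_tr (n : ℕ) {m k : ℕ} (h : n ≤ m) (h' : m ≤ k) (x : A n) :
    tr A φ m h' (tr A φ n h x) = tr A φ n (h.trans h') x := by
  induction k, h' using Nat.le_induction with
  | base => exact tr_self A φ m _
  | succ k hk ih =>
    rw [tr_succ A φ m hk, ih, tr_succ A φ n (h.trans hk)]

lemma norm_tr_le (n : ℕ) {m : ℕ} (h : n ≤ m) (x : A n) : ‖tr A φ n h x‖ ≤ ‖x‖ :=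
  NonUnitalStarAlgHom.norm_apply_le _ x

lemma norm_tr (hφ : ∀ n, Function.Injective (φ n)) (n : ℕ) {m : ℕ} (h : n ≤ m) (x : A n) :
    ‖tr A φ n h x‖ = ‖x‖ := by
  induction m, h using Nat.le_induction with
  | base => rw [tr_self]
  | succ k hk ih =>
    rw [tr_succ A φ n hk, NonUnitalStarAlgHom.norm_map (φ k) (hφ k), ih]

/-- The index set. -/
abbrev Idx := ULift.{u} ℕ

/-- The filter at infinity. -/
def fil : Filter Idx.{u} := Filter.comap ULift.down Filter.atTop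

lemma mem_fil {s : Set Idx.{u}} : s ∈ fil ↔ ∃ N : ℕ, ∀ i : Idx.{u}, N ≤ i.down → i ∈ s := by
  unfold fil
  rw [Filter.mem_comap]
  constructor
  · rintro ⟨t, ht, hts⟩
    obtain ⟨N, hN⟩ := Filter.mem_atTop_sets.mp ht
    exact ⟨N, fun i hi => hts (hN _ hi)⟩
  · rintro ⟨N, hN⟩
    exact ⟨Set.Ici N, Filter.mem_atTop N, fun i hi => hN i hi⟩

instance : (fil.{u}).NeBot := by
  refine Filter.neBot_iff.mpr fun h => ?_
  have : (∅ : Set Idx.{u}) ∈ fil := by rw [h]; exact Filter.mem_bot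
  obtain ⟨N, hN⟩ := mem_fil.mp this
  exact hN ⟨N⟩ le_rfl

/-- Bounded sequences that are eventually almost transported by the transition maps. -/
def SA : StarSubalgebra ℂ (∀ i : Idx.{u}, A i.down) where
  carrier := {x | (∃ K : ℝ, ∀ i, ‖x i‖ ≤ K) ∧ ∀ ε : ℝ, 0 < ε → ∃ N : ℕ, ∀ (n m : ℕ) (h : n ≤ m),
    N ≤ n → ‖tr A φ n h (x ⟨n⟩) - x ⟨m⟩‖ ≤ ε}
  mul_mem' := by
    rintro x y ⟨⟨K, hK⟩, hx⟩ ⟨⟨D, hD⟩, hy⟩
    have hK0 : 0 ≤ K := (norm_nonneg _).trans (hK ⟨0⟩)
    have hD0 : 0 ≤ D := (norm_nonneg _).trans (hD ⟨0⟩)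
    refine ⟨⟨K * D, fun i => (norm_mul_le _ _).trans
      (mul_le_mul (hK i) (hD i) (norm_nonneg _) hK0)⟩, fun ε hε => ?_⟩
    obtain ⟨N, hN⟩ := hx (ε / (2 * (D + 1))) (by positivity)
    obtain ⟨M, hM⟩ := hy (ε / (2 * (K + 1))) (by positivity)
    refine ⟨max N M, fun n m h hn => ?_⟩
    have h1 := hN n m h ((le_max_left _ _).trans hn)
    have h2 := hM n m h ((le_max_right _ _).trans hn)
    have e : tr A φ n h ((x * y) ⟨n⟩) - (x * y) ⟨m⟩ =
        (tr A φ n h (x ⟨n⟩) - x ⟨m⟩) * tr A φ n h (y ⟨n⟩) +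
          x ⟨m⟩ * (tr A φ n h (y ⟨n⟩) - y ⟨m⟩) := by
      simp only [Pi.mul_apply, map_mul]; noncomm_ring
    rw [e]
    have h3 : ‖tr A φ n h (y ⟨n⟩)‖ ≤ D := (norm_tr_le A φ n h _).trans (hD _)
    calc ‖(tr A φ n h (x ⟨n⟩) - x ⟨m⟩) * tr A φ n h (y ⟨n⟩) +
          x ⟨m⟩ * (tr A φ n h (y ⟨n⟩) - y ⟨m⟩)‖
        ≤ ‖tr A φ n h (x ⟨n⟩) - x ⟨m⟩‖ * ‖tr A φ n h (y ⟨n⟩)‖ +
          ‖x ⟨m⟩‖ * ‖tr A φ n h (y ⟨n⟩) - y ⟨m⟩‖ :=
          (norm_add_le _ _).trans (add_le_add (norm_mul_le _ _) (norm_mul_le _ _))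
      _ ≤ ε / (2 * (D + 1)) * (D + 1) + (K + 1) * (ε / (2 * (K + 1))) := by
          refine add_le_add (mul_le_mul h1 (by linarith) (norm_nonneg _) (by positivity))
            (mul_le_mul (by linarith [hK ⟨m⟩]) h2 (norm_nonneg _) (by positivity))
      _ = ε := by field_simp; ring
  add_mem' := by
    rintro x y ⟨⟨K, hK⟩, hx⟩ ⟨⟨D, hD⟩, hy⟩
    refine ⟨⟨K + D, fun i => (norm_add_le _ _).trans (add_le_add (hK i) (hD i))⟩, fun ε hε => ?_⟩
    obtain ⟨N, hN⟩ := hx (ε / 2) (by positivity)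
    obtain ⟨M, hM⟩ := hy (ε / 2) (by positivity)
    refine ⟨max N M, fun n m h hn => ?_⟩
    have h1 := hN n m h ((le_max_left _ _).trans hn)
    have h2 := hM n m h ((le_max_right _ _).trans hn)
    have e : tr A φ n h ((x + y) ⟨n⟩) - (x + y) ⟨m⟩ =
        (tr A φ n h (x ⟨n⟩) - x ⟨m⟩) + (tr A φ n h (y ⟨n⟩) - y ⟨m⟩) := by
      simp only [Pi.add_apply, map_add]; abel
    rw [e]
    exact (norm_add_le _ _).trans (by linarith)
  algebraMap_mem' := by
    intro r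
    refine ⟨⟨‖r‖ * 1, fun i => ?_⟩, fun ε hε => ⟨0, fun n m h _ => ?_⟩⟩
    · rw [Pi.algebraMap_apply, Algebra.algebraMap_eq_smul_one]
      refine (norm_smul_le _ _).trans (mul_le_mul_of_nonneg_left ?_ (norm_nonneg _))
      rcases subsingleton_or_nontrivial (A i.down) with hs | hs
      · rw [Subsingleton.elim (1 : A i.down) 0, norm_zero]; exact zero_le_one
      · exact CStarRing.norm_one.le
    · have : tr A φ n h ((algebraMap ℂ (∀ i : Idx.{u}, A i.down) r) ⟨n⟩) -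
          (algebraMap ℂ (∀ i : Idx.{u}, A i.down) r) ⟨m⟩ = 0 := by
        rw [Pi.algebraMap_apply, Pi.algebraMap_apply, AlgHomClass.commutes, sub_self]
      rw [this, norm_zero]
      exact hε.le
  star_mem' := by
    rintro x ⟨⟨K, hK⟩, hx⟩
    refine ⟨⟨K, fun i => by simpa using hK i⟩, fun ε hε => ?_⟩
    obtain ⟨N, hN⟩ := hx ε hε
    refine ⟨N, fun n m h hn => ?_⟩
    have e : tr A φ n h ((star x) ⟨n⟩) - (star x) ⟨m⟩ = star (tr A φ n h (x ⟨n⟩) - x ⟨m⟩) := by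
      simp only [Pi.star_apply, star_sub, map_star]
    rw [e, norm_star]
    exact hN n m h hn

lemma mem_SA {x : ∀ i : Idx.{u}, A i.down} : x ∈ SA.{u} A φ ↔ (∃ K : ℝ, ∀ i, ‖x i‖ ≤ K) ∧
    ∀ ε : ℝ, 0 < ε → ∃ N : ℕ, ∀ (n m : ℕ) (h : n ≤ m),
      N ≤ n → ‖tr A φ n h (x ⟨n⟩) - x ⟨m⟩‖ ≤ ε := Iff.rfl

lemma isSeqAlg : IsSeqAlg fil.{u} (SA.{u} A φ) where
  bdd := fun x hx => hx.1
  cut := by
    intro x hx s hs
    obtain ⟨N, hN⟩ := mem_fil.mp hs
    obtain ⟨⟨K, hK⟩, hx⟩ := (mem_SA A φ).mp hx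
    have hK0 : 0 ≤ K := (norm_nonneg _).trans (hK ⟨0⟩)
    refine ⟨⟨K, fun i => ?_⟩, fun ε hε => ?_⟩
    · by_cases hi : i ∈ s
      · rw [cutf_mem x hi]; exact hK i
      · rw [cutf_not_mem x hi, norm_zero]; exact hK0
    · obtain ⟨M, hM⟩ := hx ε hε
      refine ⟨max N M, fun n m h hn => ?_⟩
      rw [cutf_mem x (hN ⟨n⟩ ((le_max_left _ _).trans hn)),
        cutf_mem x (hN ⟨m⟩ (((le_max_left _ _).trans hn).trans h))]
      exact hM n m h ((le_max_right _ _).trans hn)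
  lim := by
    intro x hx
    refine ⟨?_, fun ε hε => ?_⟩
    · obtain ⟨y, ⟨⟨K, hK⟩, _⟩, hy⟩ := hx 1 one_pos
      refine ⟨1 + K, fun i => ?_⟩
      have := norm_add_le (x i - y i) (y i)
      rw [sub_add_cancel] at this
      linarith [hy i, hK i]
    · obtain ⟨y, ⟨_, hy2⟩, hy⟩ := hx (ε / 3) (by positivity)
      obtain ⟨N, hN⟩ := hy2 (ε / 3) (by positivity)
      refine ⟨N, fun n m h hn => ?_⟩
      have e : tr A φ n h (x ⟨n⟩) - x ⟨m⟩ = tr A φ n h (x ⟨n⟩ - y ⟨n⟩) +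
          (tr A φ n h (y ⟨n⟩) - y ⟨m⟩) - (x ⟨m⟩ - y ⟨m⟩) := by
        rw [map_sub]; abel
      rw [e]
      have h1 := hN n m h hn
      have h2 : ‖tr A φ n h (x ⟨n⟩ - y ⟨n⟩)‖ ≤ ε / 3 := (norm_tr_le A φ n h _).trans (hy ⟨n⟩)
      have h3 := hy ⟨m⟩
      refine (norm_sub_le _ _).trans ?_
      refine (add_le_add (norm_add_le _ _) le_rfl).trans ?_
      linarith

/-- The congruence. -/
noncomputable def cg : RingCon (SA.{u} A φ) := nullConG fil (SA A φ) (isSeqAlg A φ)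

lemma cg_iff (x y : SA.{u} A φ) : cg A φ x y ↔
    Tendsto (fun i => ‖(x : ∀ i : Idx.{u}, A i.down) i - (y : ∀ i : Idx.{u}, A i.down) i‖) fil
      (𝓝 0) := Iff.rfl

/-- The limit algebra. -/
def Z : Type (max u v) := (cg.{u} A φ).Quotient

noncomputable instance : CStarAlgebra (Z.{u} A φ) :=
  cstar (isSeqAlg A φ) (cg A φ) (cg_iff A φ) (starQ (cg A φ) (cg_iff A φ)) fun _ => rfl

/-- The class of a sequence. -/
noncomputable def cls (x : SA.{u} A φ) : Z.{u} A φ := ((x : (cg A φ).Quotient))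

lemma norm_cls (x : SA.{u} A φ) : ‖cls A φ x‖ = nrm fil (x : ∀ i : Idx.{u}, A i.down) :=
  qnrm_mk (isSeqAlg A φ) (cg A φ) (cg_iff A φ) x

lemma cls_eq {x y : SA.{u} A φ} (N : ℕ) (h : ∀ i : Idx.{u}, N ≤ i.down →
    (x : ∀ i : Idx.{u}, A i.down) i = (y : ∀ i : Idx.{u}, A i.down) i) :
    cls A φ x = cls A φ y := by
  have : cg A φ x y := by
    rw [cg_iff]
    refine tendsto_const_nhds.congr' ?_
    have hm : {i : Idx.{u} | N ≤ i.down} ∈ fil := mem_fil.mpr ⟨N, fun i hi => hi⟩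
    filter_upwards [hm] with i hi
    rw [h i hi, sub_self, norm_zero]
  exact ((cg A φ).eq).mpr this

/-- The sequence of an element of `A n`. -/
noncomputable def sq (n : ℕ) (x : A n) : ∀ i : Idx.{u}, A i.down :=
  fun i => if h : n ≤ i.down then tr A φ n h x else 0

lemma sq_of_le (n : ℕ) (x : A n) {i : Idx.{u}} (h : n ≤ i.down) :
    sq A φ n x i = tr A φ n h x := dif_pos h

lemma sq_of_not_le (n : ℕ) (x : A n) {i : Idx.{u}} (h : ¬ n ≤ i.down) :
    sq A φ n x i = 0 := dif_neg h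

lemma sq_mem (n : ℕ) (x : A n) : sq.{u} A φ n x ∈ SA A φ := by
  refine ⟨⟨‖x‖, fun i => ?_⟩, fun ε hε => ⟨n, fun k m h hk => ?_⟩⟩
  · by_cases hi : n ≤ i.down
    · rw [sq_of_le A φ n x hi]; exact norm_tr_le A φ n hi x
    · rw [sq_of_not_le A φ n x hi, norm_zero]; exact norm_nonneg _
  · rw [sq_of_le A φ n x (i := ⟨k⟩) hk, sq_of_le A φ n x (i := ⟨m⟩) (hk.trans h),
      tr_tr, sub_self, norm_zero]
    exact hε.le

/-- The canonical maps. -/
noncomputable def emb (n : ℕ) : A n →⋆ₐ[ℂ] Z.{u} A φ where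
  toFun x := cls A φ ⟨sq A φ n x, sq_mem A φ n x⟩
  map_one' := by
    change cls A φ _ = cls A φ 1
    refine cls_eq A φ n fun i hi => ?_
    change sq A φ n 1 i = 1
    rw [sq_of_le A φ n _ hi, map_one]
  map_mul' x y := by
    change cls A φ _ = cls A φ (⟨sq A φ n x, sq_mem A φ n x⟩ * ⟨sq A φ n y, sq_mem A φ n y⟩)
    refine cls_eq A φ n fun i hi => ?_
    change sq A φ n (x * y) i = sq A φ n x i * sq A φ n y i
    rw [sq_of_le A φ n _ hi, sq_of_le A φ n _ hi, sq_of_le A φ n _ hi, map_mul]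
  map_zero' := by
    change cls A φ _ = cls A φ 0
    refine cls_eq A φ n fun i hi => ?_
    change sq A φ n 0 i = 0
    rw [sq_of_le A φ n _ hi, map_zero]
  map_add' x y := by
    change cls A φ _ = cls A φ (⟨sq A φ n x, sq_mem A φ n x⟩ + ⟨sq A φ n y, sq_mem A φ n y⟩)
    refine cls_eq A φ n fun i hi => ?_
    change sq A φ n (x + y) i = sq A φ n x i + sq A φ n y i
    rw [sq_of_le A φ n _ hi, sq_of_le A φ n _ hi, sq_of_le A φ n _ hi, map_add]
  commutes' r := by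
    rw [Algebra.algebraMap_eq_smul_one (A := Z A φ)]
    change cls A φ _ = cls A φ (r • 1)
    refine cls_eq A φ n fun i hi => ?_
    change sq A φ n (algebraMap ℂ (A n) r) i = r • 1
    rw [sq_of_le A φ n _ hi, AlgHomClass.commutes, Algebra.algebraMap_eq_smul_one]
  map_star' x := by
    change cls A φ _ = cls A φ (star ⟨sq A φ n x, sq_mem A φ n x⟩)
    refine cls_eq A φ n fun i hi => ?_
    change sq A φ n (star x) i = star (sq A φ n x i)
    rw [sq_of_le A φ n _ hi, sq_of_le A φ n _ hi, map_star]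

lemma emb_apply (n : ℕ) (x : A n) : emb A φ n x = cls A φ ⟨sq A φ n x, sq_mem A φ n x⟩ := rfl

lemma emb_succ (n : ℕ) (x : A n) : emb.{u} A φ (n + 1) (φ n x) = emb A φ n x := by
  rw [emb_apply, emb_apply]
  refine cls_eq A φ (n + 1) fun i hi => ?_
  change sq A φ (n + 1) (φ n x) i = sq A φ n x i
  have hn : n ≤ i.down := (Nat.le_succ n).trans hi
  rw [sq_of_le A φ _ _ hi, sq_of_le A φ _ _ hn, ← tr_tr A φ n (Nat.le_succ n) hi]
  congr 1
  have := tr_succ A φ n (le_refl n) x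
  rw [tr_self] at this
  exact this.symm

lemma emb_injective (hφ : ∀ n, Function.Injective (φ n)) (n : ℕ) :
    Function.Injective (emb.{u} A φ n) := by
  rw [injective_iff_map_eq_zero]
  intro x hx
  have h1 : nrm fil (sq.{u} A φ n x) = 0 := by
    rw [← norm_cls A φ ⟨sq A φ n x, sq_mem A φ n x⟩, ← emb_apply, hx, norm_zero]
  rw [nrm_eq_zero_iff (sq_mem A φ n x).1] at h1
  have h2 : Tendsto (fun _ : Idx.{u} => ‖x‖) fil (𝓝 0) := by
    refine h1.congr' ?_
    have hm : {i : Idx.{u} | n ≤ i.down} ∈ fil := mem_fil.mpr ⟨n, fun i hi => hi⟩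
    filter_upwards [hm] with i hi
    rw [sq_of_le A φ n x hi, norm_tr A φ hφ]
  exact norm_eq_zero.mp (tendsto_nhds_unique tendsto_const_nhds h2)

lemma emb_dense : Dense (⋃ n, Set.range (emb.{u} A φ n)) := by
  intro z
  obtain ⟨x, rfl⟩ : ∃ x, cls A φ x = z := Quotient.mk_surjective z
  rw [Metric.mem_closure_iff]
  intro ε hε
  obtain ⟨N, hN⟩ := ((mem_SA A φ).mp x.2).2 (ε / 2) (by positivity)
  refine ⟨emb A φ N ((x : ∀ i : Idx.{u}, A i.down) ⟨N⟩), Set.mem_iUnion.mpr ⟨N, _, rfl⟩, ?_⟩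
  rw [dist_comm, dist_eq_norm]
  have e : emb A φ N ((x : ∀ i : Idx.{u}, A i.down) ⟨N⟩) - cls A φ x =
      cls A φ (⟨sq A φ N _, sq_mem A φ N ((x : ∀ i : Idx.{u}, A i.down) ⟨N⟩)⟩ - x) := rfl
  rw [e, norm_cls]
  refine lt_of_le_of_lt (nrm_le (by positivity : 0 ≤ ε / 2) ?_) (by linarith)
  have hm : {i : Idx.{u} | N ≤ i.down} ∈ fil := mem_fil.mpr ⟨N, fun i hi => hi⟩
  filter_upwards [hm] with i hi
  change ‖sq A φ N _ i - (x : ∀ i : Idx.{u}, A i.down) i‖ ≤ ε / 2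
  rw [sq_of_le A φ N _ hi]
  exact hN N i.down hi le_rfl

end Lim

theorem main : LimitExists.{u, v} := by
  intro A _ φ hφ
  exact ⟨Z.{u} A φ, inferInstance, emb A φ, emb_succ A φ, emb_injective A φ hφ, emb_dense A φ⟩

end Vale.Agent.JS.PartA
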