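import Vale.Agent.P095JS.PartB3

/-! Part B: the extension to the algebra of functions on the square. -/

open scoped Kronecker Matrix.Norms.L2Operator

namespace Vale.Agent.JS.PartB

open Hat PartD

universe u

variable {p q : ℕ} {B : Type u} [CStarAlgebra B]

/-- An entry is bounded by the norm. -/
theorem norm_entry_le' {n : Type*} [Fintype n] [DecidableEq n] (X : Matrix n n ℂ) (i j : n) :
    ‖X i j‖ ≤ ‖X‖ := by
  have h1 : Matrix.single i i (1 : ℂ) * X * Matrix.single j j (1 : ℂ) =
      X i j • Matrix.single i j (1 : ℂ) := by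
    ext a b
    rw [Matrix.smul_single, smul_eq_mul, mul_one]
    by_cases ha : i = a
    · subst ha
      by_cases hb : j = b
      · subst hb
        simp
      · rw [Matrix.mul_single_apply_of_ne (hbj := fun h => hb h.symm)]
        simp [hb]
    · rw [mul_assoc, Matrix.single_mul_apply_of_ne (h := fun h => ha h.symm)]
      simp [ha]
  have h2 : ‖X i j • Matrix.single i j (1 : ℂ)‖ ≤ ‖X‖ := by
    rw [← h1]
    have g1 := norm_single_le i i
    have g2 := norm_single_le j j
    calc ‖Matrix.single i i (1 : ℂ) * X * Matrix.single j j (1 : ℂ)‖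
        ≤ ‖(Matrix.single i i (1 : ℂ) : Matrix n n ℂ)‖ * ‖X‖ *
          ‖(Matrix.single j j (1 : ℂ) : Matrix n n ℂ)‖ :=
          (norm_mul_le _ _).trans (mul_le_mul_of_nonneg_right (norm_mul_le _ _) (norm_nonneg _))
      _ ≤ 1 * ‖X‖ * 1 := by gcongr
      _ = ‖X‖ := by ring
  rw [norm_smul] at h2
  have h3 : 1 ≤ ‖(Matrix.single i j (1 : ℂ) : Matrix n n ℂ)‖ := by
    have e : (Matrix.single i j (1 : ℂ) : Matrix n n ℂ) * Matrix.single j i (1 : ℂ) *
        Matrix.single i j (1 : ℂ) = Matrix.single i j (1 : ℂ) := by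
      rw [Matrix.single_mul_single_same, Matrix.single_mul_single_same]; simp
    have hne : (Matrix.single i j (1 : ℂ) : Matrix n n ℂ) ≠ 0 := by
      intro h
      have := congrFun (congrFun h i) j
      simp at this
    have hpos : 0 < ‖(Matrix.single i j (1 : ℂ) : Matrix n n ℂ)‖ := norm_pos_iff.2 hne
    have g := norm_single_le j i
    have h4 : ‖(Matrix.single i j (1 : ℂ) : Matrix n n ℂ)‖ ≤
        ‖(Matrix.single i j (1 : ℂ) : Matrix n n ℂ)‖ *
        ‖(Matrix.single j i (1 : ℂ) : Matrix n n ℂ)‖ *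
        ‖(Matrix.single i j (1 : ℂ) : Matrix n n ℂ)‖ := by
      conv_lhs => rw [← e]
      exact (norm_mul_le _ _).trans (mul_le_mul_of_nonneg_right (norm_mul_le _ _) (norm_nonneg _))
    by_contra hlt
    push Not at hlt
    have h5 : ‖(Matrix.single i j (1 : ℂ) : Matrix n n ℂ)‖ *
        ‖(Matrix.single j i (1 : ℂ) : Matrix n n ℂ)‖ *
        ‖(Matrix.single i j (1 : ℂ) : Matrix n n ℂ)‖ ≤
        ‖(Matrix.single i j (1 : ℂ) : Matrix n n ℂ)‖ * 1 *
        ‖(Matrix.single i j (1 : ℂ) : Matrix n n ℂ)‖ := by gcongr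
    nlinarith
  nlinarith [norm_nonneg (X i j)]

/-- The norm is bounded by the sum of the entries. -/
theorem norm_le_sum_entries {n : Type*} [Fintype n] [DecidableEq n] (X : Matrix n n ℂ) {M : ℝ}
    (hM : ∀ i j, ‖X i j‖ ≤ M) : ‖X‖ ≤ (Fintype.card n : ℝ) ^ 2 * M := by
  conv_lhs => rw [Matrix.matrix_eq_sum_single X]
  calc _ ≤ ∑ i : n, ∑ j : n, M := by
        refine (norm_sum_le _ _).trans (Finset.sum_le_sum fun i _ => (norm_sum_le _ _).trans
          (Finset.sum_le_sum fun j _ => ?_))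
        have h5 : Matrix.single i j (X i j) = X i j • Matrix.single i j (1 : ℂ) := by
          rw [Matrix.smul_single, smul_eq_mul, mul_one]
        rw [h5, norm_smul]
        have g := norm_single_le i j
        have g2 := hM i j
        nlinarith [norm_nonneg (X i j)]
    _ = _ := by
        simp only [Finset.sum_const, Finset.card_univ, nsmul_eq_mul]
        ring

variable (φ ψ : DD p q →⋆ₐ[ℂ] B)

/-- The generators of the graph. -/
noncomputable def ge (z : DD p q × DD p q) : XX p q × B := (pe z, φ z.1 * ψ z.2)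

theorem lft_rgt_comm (f g : CM p q) : Commute (lft f) (rgt g) := by
  ext z : 1
  simp only [ContinuousMap.mul_apply, lft_apply, rgt_apply]
  exact L_R _ _

theorem ge_mul (h : ∀ x y, Commute (φ x) (ψ y)) (z w : DD p q × DD p q) :
    ge φ ψ z * ge φ ψ w = ge φ ψ (z * w) := by
  refine Prod.ext ?_ ?_
  · change pe z * pe w = pe (z * w)
    simp only [pe, Prod.fst_mul, Prod.snd_mul, MulMemClass.coe_mul, map_mul]
    have := (lft_rgt_comm (w.1 : CM p q) (z.2 : CM p q)).eq
    calc lft (z.1 : CM p q) * rgt (z.2 : CM p q) * (lft (w.1 : CM p q) * rgt (w.2 : CM p q))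
        = lft (z.1 : CM p q) * (rgt (z.2 : CM p q) * lft (w.1 : CM p q)) * rgt (w.2 : CM p q) := by
          simp only [mul_assoc]
      _ = _ := by rw [← this]; simp only [mul_assoc]
  · change φ z.1 * ψ z.2 * (φ w.1 * ψ w.2) = φ (z * w).1 * ψ (z * w).2
    rw [Prod.fst_mul, Prod.snd_mul, map_mul, map_mul]
    have := (h w.1 z.2).eq
    calc φ z.1 * ψ z.2 * (φ w.1 * ψ w.2) = φ z.1 * (ψ z.2 * φ w.1) * ψ w.2 := by
          simp only [mul_assoc]
      _ = _ := by rw [← this]; simp only [mul_assoc]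

theorem star_ge (h : ∀ x y, Commute (φ x) (ψ y)) (z : DD p q × DD p q) :
    star (ge φ ψ z) = ge φ ψ (star z) := by
  refine Prod.ext ?_ ?_
  · change star (pe z) = pe (star z)
    simp only [pe, Prod.fst_star, Prod.snd_star, StarMemClass.coe_star, map_star, star_mul]
    exact ((lft_rgt_comm (z.1 : CM p q) (z.2 : CM p q)).star_star).eq.symm
  · change star (φ z.1 * ψ z.2) = φ (star z).1 * ψ (star z).2
    rw [Prod.fst_star, Prod.snd_star, map_star, map_star, star_mul]
    exact ((h z.1 z.2).star_star).eq.symm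

theorem ge_one : ge φ ψ 1 = 1 := by
  refine Prod.ext ?_ ?_
  · change lft ((1 : DD p q) : CM p q) * rgt ((1 : DD p q) : CM p q) = 1
    rw [OneMemClass.coe_one, map_one, map_one, mul_one]
  · change φ 1 * ψ 1 = 1
    rw [map_one, map_one, mul_one]

/-- The graph of the extension. -/
noncomputable def graph (h : ∀ x y, Commute (φ x) (ψ y)) : StarSubalgebra ℂ (XX p q × B) where
  carrier := Submodule.span ℂ (Set.range (ge φ ψ))
  mul_mem' {a b} ha hb := by
    have h1 := Submodule.mul_mem_mul ha hb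
    rw [Submodule.span_mul_span] at h1
    refine Submodule.span_mono ?_ h1
    rintro _ ⟨_, ⟨z, rfl⟩, _, ⟨w, rfl⟩, rfl⟩
    exact ⟨z * w, (ge_mul φ ψ h z w).symm⟩
  add_mem' ha hb := Submodule.add_mem _ ha hb
  algebraMap_mem' r := by
    rw [Algebra.algebraMap_eq_smul_one]
    exact Submodule.smul_mem _ _ (Submodule.subset_span ⟨1, ge_one φ ψ⟩)
  star_mem' {a} ha := by
    induction ha using Submodule.span_induction with
    | mem x hx =>
      obtain ⟨z, rfl⟩ := hx
      rw [star_ge φ ψ h]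
      exact Submodule.subset_span ⟨_, rfl⟩
    | zero => rw [star_zero]; exact Submodule.zero_mem _
    | add x y _ _ hx hy => rw [star_add]; exact Submodule.add_mem _ hx hy
    | smul c x _ hx => rw [star_smul]; exact Submodule.smul_mem _ _ hx

theorem mem_graph (h : ∀ x y, Commute (φ x) (ψ y)) (z : XX p q × B) :
    z ∈ graph φ ψ h ↔ z ∈ Submodule.span ℂ (Set.range (ge φ ψ)) := Iff.rfl

variable (p q) in
/-- The final constant. -/
noncomputable def KL : ℝ := KK p q * ((Fintype.card (Fin p × Fin q) : ℝ) ^ 2)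

theorem graph_bound (hp : 0 < p) (hq : 0 < q) (h : ∀ x y, Commute (φ x) (ψ y))
    {z : XX p q × B} (hz : z ∈ graph φ ψ h) : ‖z.2‖ ≤ KL p q * ‖z.1‖ := by
  rw [mem_graph, Finsupp.mem_span_range_iff_exists_finsupp] at hz
  obtain ⟨c, rfl⟩ := hz
  -- write the sum over the finite support
  set s := c.support with hs
  have e : c.sum (fun i a => a • ge φ ψ i) = ∑ i : s, ge φ ψ (c i • (i : DD p q × DD p q).1,
      (i : DD p q × DD p q).2) := by
    rw [Finsupp.sum, ← Finset.sum_coe_sort]
    refine Finset.sum_congr rfl fun i _ => ?_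
    refine Prod.ext ?_ ?_
    · change c i • pe _ = pe _
      simp only [pe, SetLike.val_smul, map_smul, smul_mul_assoc]
    · change c i • (φ _ * ψ _) = φ _ * ψ _
      rw [map_smul, smul_mul_assoc]
  rw [e]
  set F : s → DD p q := fun i => c i • (i : DD p q × DD p q).1 with hF
  set G : s → DD p q := fun i => (i : DD p q × DD p q).2 with hG
  have e1 : (∑ i : s, ge φ ψ (F i, G i)).1 = ∑ i, lft (F i : CM p q) * rgt (G i : CM p q) := by
    rw [Prod.fst_sum]; rfl
  have e2 : (∑ i : s, ge φ ψ (F i, G i)).2 = ∑ i, φ (F i) * ψ (G i) := by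
    rw [Prod.snd_sum]; rfl
  rw [e1, e2]
  set N : ℝ := ‖∑ i, lft (F i : CM p q) * rgt (G i : CM p q)‖ with hN
  have hN0 : 0 ≤ N := norm_nonneg _
  have hC0 : (0 : ℝ) ≤ (Fintype.card (Fin p × Fin q) : ℝ) ^ 2 := by positivity
  have := lem1 hp hq φ F (fun i => ψ (G i)) (fun i g => h g (G i))
    (M := (Fintype.card (Fin p × Fin q) : ℝ) ^ 2 * N) (by positivity) (fun σ a b => ?_)
  · refine this.trans (le_of_eq ?_)
    unfold KL; ring
  · have g1 : ∑ i, (F i : CM p q) σ a b • ψ (G i) = ψ (∑ i, (F i : CM p q) σ a b • G i) := by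
      rw [map_sum]
      exact Finset.sum_congr rfl fun i _ => (map_smul ψ _ _).symm
    rw [g1]
    refine (norm_hom_le ψ _).trans ?_
    refine (ContinuousMap.norm_le _ (by positivity)).2 fun τ => ?_
    refine norm_le_sum_entries _ fun c' d' => ?_
    have g2 : ((∑ i, (F i : CM p q) σ a b • G i : DD p q) : CM p q) τ c' d' =
        (∑ i, lft (F i : CM p q) * rgt (G i : CM p q)) (σ, τ) (a, c') (b, d') := by
      rw [AddSubmonoidClass.coe_finsetSum, ContinuousMap.sum_apply, ContinuousMap.sum_apply,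
        Matrix.sum_apply, Matrix.sum_apply]
      refine Finset.sum_congr rfl fun i _ => ?_
      rw [ContinuousMap.mul_apply, lft_apply, rgt_apply, L12, R34, ← Matrix.mul_kronecker_mul,
        mul_one, one_mul, Matrix.kroneckerMap_apply]
      rfl
    rw [g2]
    exact (norm_entry_le' _ _ _).trans (ContinuousMap.norm_coe_le_norm _ _)

/-- The closure of the graph. -/
noncomputable def cgraph (h : ∀ x y, Commute (φ x) (ψ y)) : StarSubalgebra ℂ (XX p q × B) :=
  (graph φ ψ h).topologicalClosure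

instance (h : ∀ x y, Commute (φ x) (ψ y)) : IsClosed (cgraph φ ψ h : Set (XX p q × B)) :=
  StarSubalgebra.isClosed_topologicalClosure _

theorem cgraph_bound (hp : 0 < p) (hq : 0 < q) (h : ∀ x y, Commute (φ x) (ψ y))
    {z : XX p q × B} (hz : z ∈ cgraph φ ψ h) : ‖z.2‖ ≤ KL p q * ‖z.1‖ := by
  have hcl : IsClosed {z : XX p q × B | ‖z.2‖ ≤ KL p q * ‖z.1‖} :=
    isClosed_le (by fun_prop) (by fun_prop)
  exact closure_minimal (fun z hz => graph_bound φ ψ hp hq h hz) hcl hz

/-- The first projection of the closure of the graph. -/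
noncomputable def pr1 (h : ∀ x y, Commute (φ x) (ψ y)) : cgraph φ ψ h →⋆ₐ[ℂ] XX p q :=
  (StarAlgHom.fst ℂ (XX p q) B).comp (cgraph φ ψ h).subtype

noncomputable def pr2 (h : ∀ x y, Commute (φ x) (ψ y)) : cgraph φ ψ h →⋆ₐ[ℂ] B :=
  (StarAlgHom.snd ℂ (XX p q) B).comp (cgraph φ ψ h).subtype

theorem pr1_injective (hp : 0 < p) (hq : 0 < q) (h : ∀ x y, Commute (φ x) (ψ y)) :
    Function.Injective (pr1 φ ψ h) := by
  rw [injective_iff_map_eq_zero]
  intro z hz
  have h1 : (z : XX p q × B).1 = 0 := hz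
  have h2 := cgraph_bound φ ψ hp hq h z.2
  rw [h1, norm_zero, mul_zero] at h2
  exact Subtype.ext (Prod.ext h1 (norm_le_zero_iff.1 h2))

theorem pr1_norm (hp : 0 < p) (hq : 0 < q) (h : ∀ x y, Commute (φ x) (ψ y)) (z : cgraph φ ψ h) :
    ‖pr1 φ ψ h z‖ = ‖z‖ :=
  NonUnitalStarAlgHom.norm_map (pr1 φ ψ h : cgraph φ ψ h →⋆ₙₐ[ℂ] XX p q)
    (pr1_injective φ ψ hp hq h) z

theorem mem_range_pr1 (hp : 0 < p) (hq : 0 < q) (h : ∀ x y, Commute (φ x) (ψ y)) {F : XX p q}
    (hF : F ∈ EE p q) : ∃ z : cgraph φ ψ h, pr1 φ ψ h z = F := by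
  have hiso : Isometry (pr1 φ ψ h) :=
    AddMonoidHomClass.isometry_of_norm _ (pr1_norm φ ψ hp hq h)
  have hcs : CompleteSpace (cgraph φ ψ h) :=
    (inferInstance : IsClosed (cgraph φ ψ h : Set (XX p q × B))).completeSpace_coe
  have hcl : IsClosed (Set.range (pr1 φ ψ h)) := hiso.isClosedEmbedding.isClosed_range
  have hsub : (Submodule.span ℂ (Set.range (pe (p := p) (q := q))) : Set (XX p q)) ⊆
      Set.range (pr1 φ ψ h) := by
    intro G hG
    have : G ∈ LinearMap.range (pr1 φ ψ h).toAlgHom.toLinearMap := by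
      refine Submodule.span_le.2 ?_ hG
      rintro _ ⟨z, rfl⟩
      exact ⟨⟨ge φ ψ z, subset_closure (Submodule.subset_span ⟨z, rfl⟩)⟩, rfl⟩
    obtain ⟨z, hz⟩ := this
    exact ⟨z, hz⟩
  obtain ⟨z, hz⟩ := closure_minimal hsub hcl (density hp hq hF)
  exact ⟨z, hz⟩

/-- The inverse of the first projection on `EE`. -/
theorem main : ExtExists.{u} := by
  intro p q hp hq B _ φ ψ h
  have hinj := pr1_injective φ ψ hp hq h
  choose g hg using fun F : EE p q => mem_range_pr1 φ ψ hp hq h F.2
  have key : ∀ (F : EE p q) (z : cgraph φ ψ h), pr1 φ ψ h z = F → g F = z := fun F z hz =>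
    hinj ((hg F).trans hz.symm)
  let Θ : EE p q →⋆ₐ[ℂ] B :=
    { toFun := fun F => pr2 φ ψ h (g F)
      map_one' := by rw [key 1 1 (by rw [map_one]; rfl), map_one]
      map_mul' := fun F G => by
        rw [key (F * G) (g F * g G) (by rw [map_mul, hg, hg]; rfl), map_mul]
      map_zero' := by rw [key 0 0 (by rw [map_zero]; rfl), map_zero]
      map_add' := fun F G => by
        rw [key (F + G) (g F + g G) (by rw [map_add, hg, hg]; rfl), map_add]
      commutes' := fun r => by
        rw [key (algebraMap ℂ _ r) (algebraMap ℂ _ r) (by rw [AlgHomClass.commutes]; rfl),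
          AlgHomClass.commutes]
      map_star' := fun F => by
        rw [key (star F) (star (g F)) (by rw [map_star, hg]; rfl), map_star] }
  refine ⟨Θ, fun f => ?_, fun f => ?_, fun F => ?_⟩
  · change pr2 φ ψ h (g _) = _
    have hm : ((lft (f : CM p q), φ f) : XX p q × B) ∈ cgraph φ ψ h := by
      refine subset_closure (Submodule.subset_span ⟨(f, 1), ?_⟩)
      refine Prod.ext ?_ ?_
      · change lft (f : CM p q) * rgt ((1 : DD p q) : CM p q) = _
        rw [OneMemClass.coe_one, map_one, mul_one]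
      · change φ f * ψ 1 = _
        rw [map_one, mul_one]
    rw [key _ ⟨_, hm⟩ rfl]
    rfl
  · change pr2 φ ψ h (g _) = _
    have hm : ((rgt (f : CM p q), ψ f) : XX p q × B) ∈ cgraph φ ψ h := by
      refine subset_closure (Submodule.subset_span ⟨(1, f), ?_⟩)
      refine Prod.ext ?_ ?_
      · change lft ((1 : DD p q) : CM p q) * rgt (f : CM p q) = _
        rw [OneMemClass.coe_one, map_one, one_mul]
      · change φ 1 * ψ f = _
        rw [map_one, one_mul]
    rw [key _ ⟨_, hm⟩ rfl]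
    rfl
  · change ‖(g F : XX p q × B).2‖ ≤ ‖(F : XX p q)‖
    rw [← hg F, pr1_norm φ ψ hp hq h]
    exact norm_snd_le (g F : XX p q × B)

end Vale.Agent.JS.PartB
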