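import Vale.Agent.P095JS.Iface

/-! Part D: the unitary on the square. -/

open scoped Kronecker Matrix.Norms.L2Operator

namespace Vale.Agent.JS.PartD

open Vale.Agent.JS

section Abs

/-! ### An algebraic setting -/

variable {A : Type*} [CStarAlgebra A]

/-- For a selfadjoint unitary `F` and `|z| = 1`: a unitary, `1` at `z = 1` and `F` at `z = -1`. -/
noncomputable def gam (F : A) (z : ℂ) : A := ((1 + z) / 2) • (1 : A) + ((1 - z) / 2) • F

theorem gam_one (F : A) : gam F 1 = 1 := by simp [gam]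

theorem gam_neg_one (F : A) : gam F (-1) = F := by norm_num [gam]

theorem gam_commute {F x : A} (h : Commute F x) (z : ℂ) : Commute (gam F z) x :=
  ((Commute.one_left x).smul_left _).add_left (h.smul_left _)

theorem gam_mul_star {F : A} (hs : star F = F) (hF : F * F = 1) {z : ℂ} (hz : star z * z = 1) :
    gam F z * star (gam F z) = 1 := by
  have hz' : z * star z = 1 := by rw [mul_comm]; exact hz
  simp only [gam, star_add, star_smul, star_one, hs, mul_add, add_mul, smul_mul_smul_comm, one_mul,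
    mul_one, hF]
  have e1 : (1 + z) / 2 * star ((1 + z) / 2) + (1 - z) / 2 * star ((1 - z) / 2) = 1 := by
    simp only [star_div₀, star_add, star_sub, star_one, star_ofNat]
    linear_combination (1 / 2 : ℂ) * hz'
  have e2 : (1 + z) / 2 * star ((1 - z) / 2) + (1 - z) / 2 * star ((1 + z) / 2) = 0 := by
    simp only [star_div₀, star_add, star_sub, star_one, star_ofNat]
    linear_combination (-1 / 2 : ℂ) * hz'
  have : ((1 + z) / 2 * star ((1 + z) / 2)) • (1 : A) + ((1 - z) / 2 * star ((1 + z) / 2)) • F +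
      (((1 + z) / 2 * star ((1 - z) / 2)) • F + ((1 - z) / 2 * star ((1 - z) / 2)) • (1 : A)) =
      ((1 + z) / 2 * star ((1 + z) / 2) + (1 - z) / 2 * star ((1 - z) / 2)) • (1 : A) +
      ((1 + z) / 2 * star ((1 - z) / 2) + (1 - z) / 2 * star ((1 + z) / 2)) • F := by
    rw [add_smul, add_smul]; abel
  rw [this, e1, e2, one_smul, zero_smul, add_zero]

theorem star_gam {F : A} (hs : star F = F) (z : ℂ) : star (gam F z) = gam F (star z) := by
  simp [gam, hs]

theorem gam_unitary {F : A} (hs : star F = F) (hF : F * F = 1) {z : ℂ} (hz : star z * z = 1) :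
    gam F z ∈ unitary A := by
  have h1 := gam_mul_star hs hF hz
  refine Unitary.mem_iff.2 ⟨?_, h1⟩
  rw [star_gam hs]
  have h2 := gam_mul_star (z := star z) hs hF (by rw [star_star, mul_comm]; exact hz)
  rwa [star_gam hs, star_star] at h2

end Abs

variable {p q : ℕ}

/-- Exchange of the factors 1 and 3, and of the factors 2 and 4. -/
def s13 (i : (Fin p × Fin q) × (Fin p × Fin q)) : (Fin p × Fin q) × (Fin p × Fin q) :=
  ((i.2.1, i.1.2), (i.1.1, i.2.2))
def s24 (i : (Fin p × Fin q) × (Fin p × Fin q)) : (Fin p × Fin q) × (Fin p × Fin q) :=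
  ((i.1.1, i.2.2), (i.2.1, i.1.2))

theorem s13_s13 (i : (Fin p × Fin q) × (Fin p × Fin q)) : s13 (s13 i) = i := rfl
theorem s24_s24 (i : (Fin p × Fin q) × (Fin p × Fin q)) : s24 (s24 i) = i := rfl
theorem s13_eq {i j : (Fin p × Fin q) × (Fin p × Fin q)} : s13 i = j ↔ i = s13 j :=
  ⟨fun h => by rw [← h, s13_s13], fun h => by rw [h, s13_s13]⟩
theorem s24_eq {i j : (Fin p × Fin q) × (Fin p × Fin q)} : s24 i = j ↔ i = s24 j :=
  ⟨fun h => by rw [← h, s24_s24], fun h => by rw [h, s24_s24]⟩

variable (p q) in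
/-- The flips of factors 1 and 3, and of factors 2 and 4. -/
def F13 : M4 p q := fun i j => if s13 i = j then 1 else 0
variable (p q) in
def F24 : M4 p q := fun i j => if s24 i = j then 1 else 0

theorem F13_mul (X : M4 p q) (i j) : (F13 p q * X) i j = X (s13 i) j := by
  simp [Matrix.mul_apply, F13]

theorem mul_F13 (X : M4 p q) (i j) : (X * F13 p q) i j = X i (s13 j) := by
  simp only [Matrix.mul_apply, F13, s13_eq]
  simp

theorem F24_mul (X : M4 p q) (i j) : (F24 p q * X) i j = X (s24 i) j := by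
  simp [Matrix.mul_apply, F24]

theorem mul_F24 (X : M4 p q) (i j) : (X * F24 p q) i j = X i (s24 j) := by
  simp only [Matrix.mul_apply, F24, s24_eq]
  simp

theorem F13_sq : F13 p q * F13 p q = 1 := by
  ext i j
  rw [F13_mul]
  by_cases h : i = j <;> simp [F13, s13_s13, h, Matrix.one_apply]

theorem F24_sq : F24 p q * F24 p q = 1 := by
  ext i j
  rw [F24_mul]
  by_cases h : i = j <;> simp [F24, s24_s24, h, Matrix.one_apply]

theorem star_F13 : star (F13 p q) = F13 p q := by
  ext i j
  rw [Matrix.star_apply]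
  simp only [F13, s13_eq (i := j), eq_comm (a := j)]
  split_ifs <;> simp

theorem star_F24 : star (F24 p q) = F24 p q := by
  ext i j
  rw [Matrix.star_apply]
  simp only [F24, s24_eq (i := j), eq_comm (a := j)]
  split_ifs <;> simp

theorem F13_F24 : Commute (F13 p q) (F24 p q) := by
  ext i j
  rw [F13_mul, mul_F13]
  have h : s24 (s13 i) = j ↔ s24 i = s13 j := by
    rw [s24_eq, s13_eq, s24_eq]
    exact Iff.rfl
  simp only [F24, h]

/-- `L12`, `R34` on simple tensors. -/
theorem F13_L1 (x : Matrix (Fin p) (Fin p) ℂ) :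
    F13 p q * L12 (one1 q x) = R34 (one1 q x) * F13 p q := by
  ext ⟨⟨a, b⟩, ⟨c, d⟩⟩ ⟨⟨a', b'⟩, ⟨c', d'⟩⟩
  rw [F13_mul, mul_F13]
  simp only [s13, L12, R34, one1, Matrix.kroneckerMap_apply, Matrix.one_apply, Prod.mk.injEq]
  by_cases h1 : a = c' <;> by_cases h2 : b = b' <;> by_cases h3 : d = d' <;> simp [h1, h2, h3]

theorem F13_L2 (y : Matrix (Fin q) (Fin q) ℂ) : Commute (F13 p q) (L12 (one2 p y)) := by
  ext ⟨⟨a, b⟩, ⟨c, d⟩⟩ ⟨⟨a', b'⟩, ⟨c', d'⟩⟩
  rw [F13_mul, mul_F13]
  simp only [s13, L12, one2, Matrix.kroneckerMap_apply, Matrix.one_apply, Prod.mk.injEq]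
  by_cases h1 : a = c' <;> by_cases h2 : c = a' <;> by_cases h3 : d = d' <;> simp [h1, h2, h3]

theorem F13_R2 (y : Matrix (Fin q) (Fin q) ℂ) : Commute (F13 p q) (R34 (one2 p y)) := by
  ext ⟨⟨a, b⟩, ⟨c, d⟩⟩ ⟨⟨a', b'⟩, ⟨c', d'⟩⟩
  rw [F13_mul, mul_F13]
  simp only [s13, R34, one2, Matrix.kroneckerMap_apply, Matrix.one_apply, Prod.mk.injEq]
  by_cases h1 : a = c' <;> by_cases h2 : c = a' <;> by_cases h3 : b = b' <;> simp [h1, h2, h3]

theorem F24_L2 (y : Matrix (Fin q) (Fin q) ℂ) :
    F24 p q * L12 (one2 p y) = R34 (one2 p y) * F24 p q := by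
  ext ⟨⟨a, b⟩, ⟨c, d⟩⟩ ⟨⟨a', b'⟩, ⟨c', d'⟩⟩
  rw [F24_mul, mul_F24]
  simp only [s24, L12, R34, one2, Matrix.kroneckerMap_apply, Matrix.one_apply, Prod.mk.injEq]
  by_cases h1 : b = d' <;> by_cases h2 : a = a' <;> by_cases h3 : c = c' <;> simp [h1, h2, h3]

theorem F24_L1 (x : Matrix (Fin p) (Fin p) ℂ) : Commute (F24 p q) (L12 (one1 q x)) := by
  ext ⟨⟨a, b⟩, ⟨c, d⟩⟩ ⟨⟨a', b'⟩, ⟨c', d'⟩⟩
  rw [F24_mul, mul_F24]
  simp only [s24, L12, one1, Matrix.kroneckerMap_apply, Matrix.one_apply, Prod.mk.injEq]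
  by_cases h1 : b = d' <;> by_cases h2 : c = c' <;> by_cases h3 : d = b' <;> simp [h1, h2, h3]

theorem F24_R1 (x : Matrix (Fin p) (Fin p) ℂ) : Commute (F24 p q) (R34 (one1 q x)) := by
  ext ⟨⟨a, b⟩, ⟨c, d⟩⟩ ⟨⟨a', b'⟩, ⟨c', d'⟩⟩
  rw [F24_mul, mul_F24]
  simp only [s24, R34, one1, Matrix.kroneckerMap_apply, Matrix.one_apply, Prod.mk.injEq]
  by_cases h1 : b = d' <;> by_cases h2 : a = a' <;> by_cases h3 : d = b' <;> simp [h1, h2, h3]

/-- The full flip. -/
theorem F_L (X : MM p q) : F13 p q * (F24 p q * L12 X) = R34 X * (F13 p q * F24 p q) := by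
  ext ⟨⟨a, b⟩, ⟨c, d⟩⟩ ⟨⟨a', b'⟩, ⟨c', d'⟩⟩
  rw [F13_mul, F24_mul, ← mul_assoc, mul_F24, mul_F13]
  simp only [s13, s24, L12, R34, Matrix.kroneckerMap_apply, Matrix.one_apply, Prod.mk.injEq]
  by_cases h1 : a = c' <;> by_cases h2 : b = d' <;> simp [h1, h2]

theorem L_R (X Y : MM p q) : Commute (L12 X) (R34 Y) := by
  simp [Commute, SemiconjBy, L12, R34, ← Matrix.mul_kronecker_mul]

/-- Elements acting on factors 1 and 3 only (2 and 4 only) commute as expected. -/
theorem conj13_L1 (X : MM p q) (x : Matrix (Fin p) (Fin p) ℂ) :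
    Commute (F13 p q * L12 X * F13 p q) (L12 (one1 q x)) := by
  have h1 := F13_L1 (q := q) x
  have h2 : L12 (one1 q x) = F13 p q * R34 (one1 q x) * F13 p q := by
    rw [mul_assoc, ← F13_L1, ← mul_assoc, F13_sq, one_mul]
  have h3 := (L_R X (one1 q x)).eq
  rw [Commute, SemiconjBy, h2]
  calc F13 p q * L12 X * F13 p q * (F13 p q * R34 (one1 q x) * F13 p q)
      = F13 p q * L12 X * (F13 p q * F13 p q) * R34 (one1 q x) * F13 p q := by
        simp only [mul_assoc]
    _ = F13 p q * (L12 X * R34 (one1 q x)) * F13 p q := by rw [F13_sq]; simp only [mul_assoc, mul_one]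
    _ = F13 p q * R34 (one1 q x) * (F13 p q * F13 p q) * L12 X * F13 p q := by
        rw [h3, F13_sq]; simp only [mul_assoc, one_mul]
    _ = _ := by simp only [mul_assoc]

theorem conj24_L2 (X : MM p q) (y : Matrix (Fin q) (Fin q) ℂ) :
    Commute (F24 p q * L12 X * F24 p q) (L12 (one2 p y)) := by
  have h2 : L12 (one2 p y) = F24 p q * R34 (one2 p y) * F24 p q := by
    rw [mul_assoc, ← F24_L2, ← mul_assoc, F24_sq, one_mul]
  have h3 := (L_R X (one2 p y)).eq
  rw [Commute, SemiconjBy, h2]
  calc F24 p q * L12 X * F24 p q * (F24 p q * R34 (one2 p y) * F24 p q)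
      = F24 p q * L12 X * (F24 p q * F24 p q) * R34 (one2 p y) * F24 p q := by
        simp only [mul_assoc]
    _ = F24 p q * (L12 X * R34 (one2 p y)) * F24 p q := by rw [F24_sq]; simp only [mul_assoc, mul_one]
    _ = F24 p q * R34 (one2 p y) * (F24 p q * F24 p q) * L12 X * F24 p q := by
        rw [h3, F24_sq]; simp only [mul_assoc, one_mul]
    _ = _ := by simp only [mul_assoc]

/-- The unitary, for parameters `v, w` (values of the path at `s` and `t`), `u` (value at `1`) and
`a, b, d` on the circle. -/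
noncomputable def WW (u v w : MM p q) (a b d : ℂ) : M4 p q :=
  R34 w * F13 p q * gam (F24 p q) a * star (L12 u) * gam (F13 p q) b * L12 u *
    gam (F24 p q) d * star (L12 v)

theorem F13_gam24 (z : ℂ) : Commute (F13 p q) (gam (F24 p q) z) :=
  (gam_commute F13_F24.symm z).symm

theorem star_L (X : MM p q) : star (L12 X) = L12 (star X) := star_L12 X

theorem L_mul (X Y : MM p q) : L12 (X * Y) = L12 X * L12 Y := by
  simp [L12, ← Matrix.mul_kronecker_mul]

theorem R_mul (X Y : MM p q) : R34 (X * Y) = R34 X * R34 Y := by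
  simp [R34, ← Matrix.mul_kronecker_mul]

theorem L_one : L12 (1 : MM p q) = 1 := by simp [L12]
theorem R_one : R34 (1 : MM p q) = 1 := by simp [R34]

theorem L_L {X Y : MM p q} (h : Commute X Y) : Commute (L12 X) (L12 Y) := by
  rw [Commute, SemiconjBy, ← L_mul, h.eq, L_mul]

theorem R_R {X Y : MM p q} (h : Commute X Y) : Commute (R34 X) (R34 Y) := by
  rw [Commute, SemiconjBy, ← R_mul, h.eq, R_mul]

theorem LsL {u : MM p q} (hu : star u * u = 1) : star (L12 u) * L12 u = 1 := by
  rw [star_L, ← L_mul, hu, L_one]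

theorem LLs {u : MM p q} (hu : u * star u = 1) : L12 u * star (L12 u) = 1 := by
  rw [star_L, ← L_mul, hu, L_one]

/-- The left edge `s = 0`, first half. -/
theorem WW_left1 {u w : MM p q} (hu : star u * u = 1) {a : ℂ} (ha : star a * a = 1)
    (y : Matrix (Fin q) (Fin q) ℂ) : Commute (WW u 1 w a 1 (star a)) (L12 (one2 p y)) := by
  have h : WW u 1 w a 1 (star a) = R34 w * F13 p q := by
    have h1 := gam_mul_star (star_F24 (p := p) (q := q)) F24_sq ha
    rw [star_gam star_F24] at h1
    calc WW u 1 w a 1 (star a) = R34 w * F13 p q * (gam (F24 p q) a *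
          (star (L12 u) * L12 u) * gam (F24 p q) (star a)) := by
          simp only [WW, gam_one, L_one, star_one, mul_one, mul_assoc]
      _ = _ := by rw [LsL hu, mul_one, h1, mul_one]
  rw [h]
  exact ((L_R _ _).symm).mul_left (F13_L2 y)

/-- The left edge `s = 0`, second half. -/
theorem WW_left2 {u w : MM p q} {b : ℂ}
    (y : Matrix (Fin q) (Fin q) ℂ) : Commute (WW u 1 w (-1) b (-1)) (L12 (one2 p y)) := by
  have h : WW u 1 w (-1) b (-1) = R34 w * F13 p q * (F24 p q * L12 (star u) * F24 p q) *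
      gam (F13 p q) b * (F24 p q * L12 u * F24 p q) := by
    have h1 : gam (F13 p q) b * F24 p q = F24 p q * gam (F13 p q) b :=
      (gam_commute F13_F24 b).eq
    calc WW u 1 w (-1) b (-1) = R34 w * F13 p q * (F24 p q * L12 (star u)) *
          ((F24 p q * F24 p q) * gam (F13 p q) b) * (L12 u * F24 p q) := by
          simp only [WW, gam_neg_one, L_one, star_one, mul_one, mul_assoc, F24_sq, one_mul, star_L]
      _ = R34 w * F13 p q * (F24 p q * L12 (star u) * F24 p q) *
          (F24 p q * gam (F13 p q) b) * (L12 u * F24 p q) := by simp only [mul_assoc]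
      _ = _ := by rw [← h1]; simp only [mul_assoc]
  rw [h]
  exact (((((L_R _ _).symm).mul_left (F13_L2 y)).mul_left (conj24_L2 _ y)).mul_left
    (gam_commute (F13_L2 y) b)).mul_left (conj24_L2 _ y)

/-- The right edge `s = 1`. -/
theorem WW_right {u w : MM p q} (hu : u * star u = 1) {a : ℂ}
    (x : Matrix (Fin p) (Fin p) ℂ) : Commute (WW u u w a (-1) 1) (L12 (one1 q x)) := by
  have h : WW u u w a (-1) 1 = R34 w * gam (F24 p q) a * (F13 p q * L12 (star u) * F13 p q) := by
    have h1 := (F13_gam24 (p := p) (q := q) a).eq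
    calc WW u u w a (-1) 1 = R34 w * (F13 p q * gam (F24 p q) a) * L12 (star u) * F13 p q *
          (L12 u * star (L12 u)) := by
          simp only [WW, gam_neg_one, gam_one, mul_one, mul_assoc, star_L]
      _ = _ := by rw [LLs hu, mul_one, h1]; simp only [mul_assoc]
  rw [h]
  exact (((L_R _ _).symm).mul_left (gam_commute (F24_L1 x) a)).mul_left (conj13_L1 _ x)

/-- The bottom edge `t = 0`. -/
theorem WW_bot {u v : MM p q} {b : ℂ}
    (y : Matrix (Fin q) (Fin q) ℂ) : Commute (WW u v 1 1 b 1) (R34 (one2 p y)) := by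
  have h : WW u v 1 1 b 1 = F13 p q * L12 (star u) * gam (F13 p q) b * L12 u * L12 (star v) := by
    simp only [WW, gam_one, R_one, mul_one, one_mul, star_L]
  rw [h]
  exact ((((F13_R2 y).mul_left (L_R _ _)).mul_left (gam_commute (F13_R2 y) b)).mul_left
    (L_R _ _)).mul_left (L_R _ _)

/-- The top edge `t = 1`. -/
theorem WW_top {u v : MM p q} (hu : u * star u = 1) {d : ℂ}
    (x : Matrix (Fin p) (Fin p) ℂ) : Commute (WW u v u (-1) (-1) d) (R34 (one1 q x)) := by
  have h : WW u v u (-1) (-1) d = F24 p q * L12 u * gam (F24 p q) d * L12 (star v) := by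
    calc WW u v u (-1) (-1) d = (R34 u * (F13 p q * F24 p q)) * star (L12 u) * F13 p q * L12 u *
          gam (F24 p q) d * star (L12 v) := by
          simp only [WW, gam_neg_one, mul_assoc]
      _ = F13 p q * F24 p q * (L12 u * star (L12 u)) * F13 p q * L12 u *
          gam (F24 p q) d * star (L12 v) := by rw [← F_L]; simp only [mul_assoc]
      _ = (F13 p q * F24 p q) * F13 p q * L12 u * gam (F24 p q) d * star (L12 v) := by
          rw [LLs hu]; simp only [mul_assoc, mul_one]
      _ = (F24 p q * (F13 p q * F13 p q)) * L12 u * gam (F24 p q) d * star (L12 v) := by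
          rw [F13_F24.eq]; simp only [mul_assoc]
      _ = _ := by rw [F13_sq, mul_one, star_L]
  rw [h]
  exact (((F24_R1 x).mul_left (L_R _ _)).mul_left (gam_commute (F24_R1 x) d)).mul_left (L_R _ _)

/-- Elements commuting with the second factor lie in the first. -/
theorem exists_one1 (hq : 0 < q) {a : MM p q}
    (h : ∀ y : Matrix (Fin q) (Fin q) ℂ, Commute a (one2 p y)) : ∃ x, a = one1 q x := by
  classical
  refine ⟨fun i j => a (i, ⟨0, hq⟩) (j, ⟨0, hq⟩), ?_⟩
  have key : ∀ (i j : Fin p) (k m l : Fin q),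
      a (i, k) (j, m) = (if k = m then 1 else 0) * a (i, l) (j, l) := by
    intro i j k m l
    have h1 := congrFun (congrFun (h (Matrix.single m l 1)).eq (i, k)) (j, l)
    simp only [Matrix.mul_apply, one2, Matrix.kroneckerMap_apply, Matrix.one_apply,
      Matrix.single_apply, Fintype.sum_prod_type] at h1
    simp only [ite_and, ite_mul, mul_ite, zero_mul, mul_zero, one_mul, mul_one] at h1
    simpa [eq_comm (a := k)] using h1
  ext ⟨i, k⟩ ⟨j, m⟩
  rw [key i j k m ⟨0, hq⟩]
  change _ = a (i, ⟨0, hq⟩) (j, ⟨0, hq⟩) * (1 : Matrix (Fin q) (Fin q) ℂ) k m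
  rw [Matrix.one_apply, mul_comm]

theorem exists_one2 (hp : 0 < p) {a : MM p q}
    (h : ∀ x : Matrix (Fin p) (Fin p) ℂ, Commute a (one1 q x)) : ∃ y, a = one2 p y := by
  classical
  refine ⟨fun i j => a (⟨0, hp⟩, i) (⟨0, hp⟩, j), ?_⟩
  have key : ∀ (i j : Fin q) (k m l : Fin p),
      a (k, i) (m, j) = (if k = m then 1 else 0) * a (l, i) (l, j) := by
    intro i j k m l
    have h1 := congrFun (congrFun (h (Matrix.single m l 1)).eq (k, i)) (l, j)
    simp only [Matrix.mul_apply, one1, Matrix.kroneckerMap_apply, Matrix.one_apply,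
      Matrix.single_apply, Fintype.sum_prod_type] at h1
    simp only [ite_and, ite_mul, mul_ite, zero_mul, mul_zero, one_mul, mul_one] at h1
    simpa [eq_comm (a := k)] using h1
  ext ⟨k, i⟩ ⟨m, j⟩
  rw [key i j k m ⟨0, hp⟩]
  change _ = (1 : Matrix (Fin p) (Fin p) ℂ) k m * a (⟨0, hp⟩, i) (⟨0, hp⟩, j)
  rw [Matrix.one_apply]

section Est

variable {A : Type*} [CStarAlgebra A]

theorem norm_conj {V : A} (hV : V ∈ unitary A) (x : A) : ‖V * x * star V‖ = ‖x‖ := by
  rw [CStarRing.norm_mul_mem_unitary _ (Unitary.star_mem hV), CStarRing.norm_mem_unitary_mul _ hV]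

theorem norm_conj_sub {V : A} (hV : V ∈ unitary A) (x y : A) :
    ‖V * x * star V - V * y * star V‖ = ‖x - y‖ := by
  rw [← sub_mul, ← mul_sub, norm_conj hV]

theorem conj_of_commute {V : A} (hV : V ∈ unitary A) {x : A} (h : Commute V x) :
    V * x * star V = x := by
  rw [h.eq, mul_assoc, (Unitary.mem_iff.1 hV).2, mul_one]

end Est

/-- `L12` and `R34` as star homs. -/
noncomputable def l12 : MM p q →⋆ₐ[ℂ] M4 p q where
  toFun := L12
  map_one' := L_one
  map_mul' := L_mul
  map_zero' := by simp [L12]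
  map_add' := fun _ _ => by simp [L12, Matrix.add_kronecker]
  commutes' r := by
    simp only [Algebra.algebraMap_eq_smul_one, L12, Matrix.smul_kronecker,
      Matrix.one_kronecker_one]
  map_star' f := (star_L12 _).symm

noncomputable def r34 : MM p q →⋆ₐ[ℂ] M4 p q where
  toFun := R34
  map_one' := R_one
  map_mul' := R_mul
  map_zero' := by simp [R34]
  map_add' := fun _ _ => by simp [R34, Matrix.kronecker_add]
  commutes' r := by
    simp only [Algebra.algebraMap_eq_smul_one, R34, Matrix.kronecker_smul,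
      Matrix.one_kronecker_one]
  map_star' f := (star_R34 _).symm

theorem norm_L_sub (X Y : MM p q) : ‖L12 X - L12 Y‖ ≤ ‖X - Y‖ := by
  have h := NonUnitalStarAlgHom.norm_apply_le (l12 : MM p q →⋆ₐ[ℂ] M4 p q) (X - Y)
  rwa [map_sub] at h

theorem norm_R_sub (X Y : MM p q) : ‖R34 X - R34 Y‖ ≤ ‖X - Y‖ := by
  have h := NonUnitalStarAlgHom.norm_apply_le (r34 : MM p q →⋆ₐ[ℂ] M4 p q) (X - Y)
  rwa [map_sub] at h

theorem L_unitary {u : MM p q} (hu : u ∈ unitary (MM p q)) : L12 u ∈ unitary (M4 p q) :=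
  Unitary.mem_iff.2 ⟨LsL (Unitary.mem_iff.1 hu).1, LLs (Unitary.mem_iff.1 hu).2⟩

theorem R_unitary {u : MM p q} (hu : u ∈ unitary (MM p q)) : R34 u ∈ unitary (M4 p q) := by
  have h := Unitary.mem_iff.1 hu
  refine Unitary.mem_iff.2 ⟨?_, ?_⟩
  · rw [star_R34, ← R_mul, h.1, R_one]
  · rw [star_R34, ← R_mul, h.2, R_one]

theorem F13_unitary : F13 p q ∈ unitary (M4 p q) :=
  Unitary.mem_iff.2 ⟨by rw [star_F13, F13_sq], by rw [star_F13, F13_sq]⟩

theorem WW_unitary {u v w : MM p q} (hu : u ∈ unitary (MM p q)) (hv : v ∈ unitary (MM p q))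
    (hw : w ∈ unitary (MM p q)) {a b d : ℂ} (ha : star a * a = 1) (hb : star b * b = 1)
    (hd : star d * d = 1) : WW u v w a b d ∈ unitary (M4 p q) :=
  mul_mem (mul_mem (mul_mem (mul_mem (mul_mem (mul_mem (mul_mem (R_unitary hw) F13_unitary)
    (gam_unitary star_F24 F24_sq ha)) (Unitary.star_mem (L_unitary hu)))
    (gam_unitary star_F13 F13_sq hb)) (L_unitary hu)) (gam_unitary star_F24 F24_sq hd))
    (Unitary.star_mem (L_unitary hv))

/-- The estimate. -/
theorem WW_est {u v w : MM p q} (hu : u ∈ unitary (MM p q)) (hv : v ∈ unitary (MM p q))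
    (hw : w ∈ unitary (MM p q)) {a b d : ℂ} (ha : star a * a = 1) (hb : star b * b = 1)
    (hd : star d * d = 1) {x : Matrix (Fin p) (Fin p) ℂ} {y : Matrix (Fin q) (Fin q) ℂ}
    {fs ft : MM p q} {ε : ℝ}
    (h1 : ‖fs - v * one1 q x * star v‖ ≤ ε) (h2 : ‖one2 p y - u * one1 q x * star u‖ ≤ ε)
    (h3 : ‖ft - w * one1 q x * star w‖ ≤ ε) :
    ‖WW u v w a b d * L12 fs * star (WW u v w a b d) - R34 ft‖ ≤ 4 * ε := by
  have hU := L_unitary hu
  have hV := L_unitary hv
  have hW := R_unitary hw
  have hG : gam (F24 p q) a ∈ unitary (M4 p q) := gam_unitary star_F24 F24_sq ha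
  have hH : gam (F13 p q) b ∈ unitary (M4 p q) := gam_unitary star_F13 F13_sq hb
  have hK : gam (F24 p q) d ∈ unitary (M4 p q) := gam_unitary star_F24 F24_sq hd
  set a0 : M4 p q := L12 (one1 q x) with ha0
  -- first step
  have e1 : ‖star (L12 v) * L12 fs * L12 v - a0‖ ≤ ε := by
    have h := norm_conj_sub hV (star (L12 v) * L12 fs * L12 v) a0
    have h' : L12 v * (star (L12 v) * L12 fs * L12 v) * star (L12 v) = L12 fs := by
      have := (Unitary.mem_iff.1 hV).2
      calc L12 v * (star (L12 v) * L12 fs * L12 v) * star (L12 v)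
          = (L12 v * star (L12 v)) * L12 fs * (L12 v * star (L12 v)) := by
            simp only [mul_assoc]
        _ = _ := by rw [this, one_mul, mul_one]
    have h'' : L12 v * a0 * star (L12 v) = L12 (v * one1 q x * star v) := by
      rw [ha0, star_L, ← L_mul, ← L_mul]
    rw [h', h''] at h
    rw [← h]
    exact (norm_L_sub _ _).trans h1
  -- the middle
  set M : M4 p q := star (L12 u) * gam (F13 p q) b * L12 u with hM
  have hMu : M ∈ unitary (M4 p q) := mul_mem (mul_mem (Unitary.star_mem hU) hH) hU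
  have e2 : ‖M * a0 * star M - a0‖ ≤ 2 * ε := by
    set c : M4 p q := L12 (one2 p y) with hc
    have hc1 : ‖L12 u * a0 * star (L12 u) - c‖ ≤ ε := by
      rw [ha0, star_L, ← L_mul, ← L_mul, norm_sub_rev]
      exact (norm_L_sub _ _).trans h2
    have hcc : gam (F13 p q) b * c * star (gam (F13 p q) b) = c :=
      conj_of_commute hH (gam_commute (F13_L2 y) b)
    have hc2 : ‖gam (F13 p q) b * (L12 u * a0 * star (L12 u)) * star (gam (F13 p q) b) - c‖ ≤ ε := by
      have h := norm_conj_sub hH (L12 u * a0 * star (L12 u)) c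
      rw [hcc] at h
      rw [h]; exact hc1
    have hc3 : ‖gam (F13 p q) b * (L12 u * a0 * star (L12 u)) * star (gam (F13 p q) b) -
        L12 u * a0 * star (L12 u)‖ ≤ 2 * ε := by
      calc _ ≤ ‖gam (F13 p q) b * (L12 u * a0 * star (L12 u)) * star (gam (F13 p q) b) - c‖ +
            ‖c - L12 u * a0 * star (L12 u)‖ := norm_sub_le_norm_sub_add_norm_sub _ _ _
        _ ≤ 2 * ε := by rw [norm_sub_rev c]; linarith
    have h := norm_conj_sub (Unitary.star_mem hU)
      (gam (F13 p q) b * (L12 u * a0 * star (L12 u)) * star (gam (F13 p q) b))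
      (L12 u * a0 * star (L12 u))
    have h' : star (L12 u) * (L12 u * a0 * star (L12 u)) * star (star (L12 u)) = a0 := by
      have := (Unitary.mem_iff.1 hU).1
      rw [star_star]
      calc star (L12 u) * (L12 u * a0 * star (L12 u)) * L12 u
          = (star (L12 u) * L12 u) * a0 * (star (L12 u) * L12 u) := by simp only [mul_assoc]
        _ = _ := by rw [this, one_mul, mul_one]
    have h'' : star (L12 u) * (gam (F13 p q) b * (L12 u * a0 * star (L12 u)) *
        star (gam (F13 p q) b)) * star (star (L12 u)) = M * a0 * star M := by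
      simp only [hM, star_mul, star_star, mul_assoc]
    rw [h', h''] at h
    rw [h]
    exact hc3
  -- the outer part
  set Q : M4 p q := R34 w * F13 p q * gam (F24 p q) a with hQ
  have hQu : Q ∈ unitary (M4 p q) := mul_mem (mul_mem hW F13_unitary) hG
  have e3 : Q * a0 * star Q = R34 (w * one1 q x * star w) := by
    have g1 : gam (F24 p q) a * a0 * star (gam (F24 p q) a) = a0 :=
      conj_of_commute hG (gam_commute (F24_L1 x) a)
    have g2 : F13 p q * a0 * star (F13 p q) = R34 (one1 q x) := by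
      rw [ha0, F13_L1, star_F13, mul_assoc, F13_sq, mul_one]
    calc Q * a0 * star Q = R34 w * (F13 p q * (gam (F24 p q) a * a0 * star (gam (F24 p q) a)) *
          star (F13 p q)) * star (R34 w) := by simp only [hQ, star_mul, mul_assoc]
      _ = _ := by rw [g1, g2, star_R34, ← R_mul, ← R_mul]
  have e4 : ‖Q * a0 * star Q - R34 ft‖ ≤ ε := by
    rw [e3, norm_sub_rev]
    exact (norm_R_sub _ _).trans h3
  have hKa : gam (F24 p q) d * a0 * star (gam (F24 p q) d) = a0 :=
    conj_of_commute hK (gam_commute (F24_L1 x) d)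
  have hWW : WW u v w a b d * L12 fs * star (WW u v w a b d) =
      (Q * M * gam (F24 p q) d) * (star (L12 v) * L12 fs * L12 v) *
        star (Q * M * gam (F24 p q) d) := by
    simp only [WW, hQ, hM, star_mul, star_star, mul_assoc]
  have hR : (Q * M * gam (F24 p q) d) * a0 * star (Q * M * gam (F24 p q) d) =
      Q * (M * a0 * star M) * star Q := by
    calc (Q * M * gam (F24 p q) d) * a0 * star (Q * M * gam (F24 p q) d)
        = Q * (M * (gam (F24 p q) d * a0 * star (gam (F24 p q) d)) * star M) * star Q := by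
          simp only [star_mul, mul_assoc]
      _ = _ := by rw [hKa]
  have hRu : Q * M * gam (F24 p q) d ∈ unitary (M4 p q) := mul_mem (mul_mem hQu hMu) hK
  have t1 : ‖WW u v w a b d * L12 fs * star (WW u v w a b d) - Q * (M * a0 * star M) * star Q‖ ≤
      ε := by
    rw [hWW, ← hR, norm_conj_sub hRu]
    exact e1
  have t2 : ‖Q * (M * a0 * star M) * star Q - Q * a0 * star Q‖ ≤ 2 * ε := by
    rw [norm_conj_sub hQu]
    exact e2
  calc _ ≤ ‖WW u v w a b d * L12 fs * star (WW u v w a b d) - Q * (M * a0 * star M) * star Q‖ +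
        ‖Q * (M * a0 * star M) * star Q - R34 ft‖ := norm_sub_le_norm_sub_add_norm_sub _ _ _
    _ ≤ ‖WW u v w a b d * L12 fs * star (WW u v w a b d) - Q * (M * a0 * star M) * star Q‖ +
        (‖Q * (M * a0 * star M) * star Q - Q * a0 * star Q‖ + ‖Q * a0 * star Q - R34 ft‖) := by
        gcongr; exact norm_sub_le_norm_sub_add_norm_sub _ _ _
    _ ≤ 4 * ε := by linarith

/-! ### The parameters -/

/-- The point `e^(iπr)` of the circle. -/
noncomputable def ee (r : ℝ) : ℂ := Complex.exp (((Real.pi * r : ℝ) : ℂ) * Complex.I)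

theorem ee_zero : ee 0 = 1 := by simp [ee]
theorem ee_one : ee 1 = -1 := by simp [ee, Complex.exp_pi_mul_I]
theorem ee_norm (r : ℝ) : star (ee r) * ee r = 1 := by
  rw [mul_comm]
  have h : ‖ee r‖ = 1 := Complex.norm_exp_ofReal_mul_I _
  have := Complex.mul_conj (ee r)
  rw [show (star (ee r) : ℂ) = (starRingEnd ℂ) (ee r) from rfl, this, Complex.normSq_eq_norm_sq, h]
  simp

theorem continuous_ee : Continuous ee := by unfold ee; fun_prop

noncomputable def al (z : unitInterval × unitInterval) : ℝ := min 1 (2 * (z.2 : ℝ))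
noncomputable def be (z : unitInterval × unitInterval) : ℝ := max (z.1 : ℝ) (2 * (z.2 : ℝ) - 1)
noncomputable def de (z : unitInterval × unitInterval) : ℝ := al z * (1 - (z.1 : ℝ))

theorem main : FlipUnitary := by
  intro p q hp hq u hu hu0
  have hcont : Continuous fun z : unitInterval × unitInterval =>
      WW (u 1) (u z.1) (u z.2) (star (ee (al z))) (ee (be z)) (ee (de z)) := by
    have hal : Continuous al := by unfold al; fun_prop
    have hbe : Continuous be := by unfold be; fun_prop
    have hde : Continuous de := by unfold de; fun_prop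
    have hg : ∀ (F : M4 p q) (g : unitInterval × unitInterval → ℂ), Continuous g →
        Continuous fun z => gam F (g z) := fun F g hg => by unfold gam; fun_prop
    unfold WW
    have c1 := continuous_R34.comp (u.continuous.comp (continuous_snd (X := unitInterval) (Y := unitInterval)))
    have c2 := continuous_L12.comp (u.continuous.comp (continuous_fst (X := unitInterval) (Y := unitInterval)))
    exact (((((((c1.mul continuous_const).mul (hg _ _ (continuous_star.comp (continuous_ee.comp hal)))).mul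
      continuous_const).mul (hg _ _ (continuous_ee.comp hbe))).mul continuous_const).mul
      (hg _ _ (continuous_ee.comp hde))).mul (continuous_star.comp c2))
  have hsn : ∀ r, star (star (ee r)) * star (ee r) = 1 := fun r => by
    rw [star_star, mul_comm]; exact ee_norm r
  refine ⟨⟨_, hcont⟩, ⟨?_, ?_, ?_, ?_⟩, fun z => ?_, ?_⟩
  · intro t y
    simp only [ContinuousMap.coe_mk]
    have h0 : de (0, t) = al (0, t) := by simp [de]
    rw [hu0, h0]
    rcases le_total (2 * (t : ℝ)) 1 with h | h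
    · have : be (0, t) = 0 := by
        simp only [be, Set.Icc.coe_zero]
        exact max_eq_left (by linarith)
      rw [this, ee_zero]
      have := WW_left1 (w := u t) (Unitary.mem_iff.1 (hu 1)).1 (hsn (al (0, t))) y
      rwa [star_star] at this
    · have : al (0, t) = 1 := by simp only [al]; exact min_eq_left h
      rw [this, ee_one, star_neg, star_one]
      exact WW_left2 y
  · intro t x
    simp only [ContinuousMap.coe_mk]
    have h0 : de (1, t) = 0 := by simp [de]
    have h1 : be (1, t) = 1 := by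
      simp only [be, Set.Icc.coe_one]
      exact max_eq_left (by linarith [t.2.2])
    rw [h0, h1, ee_zero, ee_one]
    exact WW_right (Unitary.mem_iff.1 (hu 1)).2 x
  · intro s y
    simp only [ContinuousMap.coe_mk]
    have h0 : al (s, 0) = 0 := by simp [al]
    have h1 : de (s, 0) = 0 := by simp [de, h0]
    rw [h0, h1, ee_zero, star_one, hu0]
    exact WW_bot y
  · intro s x
    simp only [ContinuousMap.coe_mk]
    have h0 : al (s, 1) = 1 := by
      simp only [al, Set.Icc.coe_one]; norm_num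
    have h1 : be (s, 1) = 1 := by
      simp only [be, Set.Icc.coe_one]
      rw [max_eq_right (by linarith [s.2.2])]
      norm_num
    rw [h0, h1, ee_one, star_neg, star_one]
    exact WW_top (Unitary.mem_iff.1 (hu 1)).2 x
  · exact WW_unitary (hu _) (hu _) (hu _) (hsn _) (ee_norm _) (ee_norm _)
  · intro f hf ε hε h
    obtain ⟨x, hx⟩ := exists_one1 hq hf.1
    obtain ⟨y, hy⟩ := exists_one2 hp hf.2
    refine (ContinuousMap.norm_le _ (by linarith)).2 fun z => ?_
    rw [hx] at h
    exact WW_est (hu 1) (hu z.1) (hu z.2) (hsn _) (ee_norm _) (ee_norm _) (h z.1)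
      (by rw [← hy]; exact h 1) (h z.2)

end Vale.Agent.JS.PartD
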