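import Vale.Agent.P095JS.Hat
import Vale.Agent.P095JS.PartD

/-! Part B, first half: norm bound for products of commuting homs. -/

open scoped Kronecker Matrix.Norms.L2Operator

namespace Vale.Agent.JS.PartB

open Hat PartD

universe u

variable {p q : ℕ}

instance isClosed_DD : IsClosed (DD p q : Set (CM p q)) := by
  have h : (DD p q : Set (CM p q)) = (⋂ y : Matrix (Fin q) (Fin q) ℂ,
      {f : CM p q | f 0 * one2 p y = one2 p y * f 0}) ∩
      (⋂ x : Matrix (Fin p) (Fin p) ℂ, {f : CM p q | f 1 * one1 q x = one1 q x * f 1}) := by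
    ext f
    simp only [Set.mem_inter_iff, Set.mem_iInter]
    exact Iff.rfl
  rw [h]
  refine (isClosed_iInter fun y => ?_).inter (isClosed_iInter fun x => ?_)
  · exact isClosed_eq ((continuous_eval_const _).mul continuous_const)
      (continuous_const.mul (continuous_eval_const _))
  · exact isClosed_eq ((continuous_eval_const _).mul continuous_const)
      (continuous_const.mul (continuous_eval_const _))

theorem norm_hom_le {B : Type u} [CStarAlgebra B] (φ : DD p q →⋆ₐ[ℂ] B) (x : DD p q) :
    ‖φ x‖ ≤ ‖(x : CM p q)‖ :=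
  NonUnitalStarAlgHom.norm_apply_le (φ : DD p q →⋆ₙₐ[ℂ] B) x

/-- `h · m` as a path of matrices. -/
noncomputable def el (h : C(unitInterval, ℂ)) (m : MM p q) : CM p q :=
  ⟨fun t => h t • m, h.continuous.smul continuous_const⟩

@[simp] theorem el_apply (h : C(unitInterval, ℂ)) (m : MM p q) (t) : el h m t = h t • m := rfl

theorem el_mem {h : C(unitInterval, ℂ)} {m : MM p q}
    (h0 : h 0 = 0 ∨ ∀ y : Matrix (Fin q) (Fin q) ℂ, Commute m (one2 p y))
    (h1 : h 1 = 0 ∨ ∀ x : Matrix (Fin p) (Fin p) ℂ, Commute m (one1 q x)) : el h m ∈ DD p q := by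
  refine ⟨fun y => ?_, fun x => ?_⟩
  · rw [el_apply]
    rcases h0 with h0 | h0
    · rw [h0, zero_smul]; exact Commute.zero_left _
    · exact (h0 y).smul_left _
  · rw [el_apply]
    rcases h1 with h1 | h1
    · rw [h1, zero_smul]; exact Commute.zero_left _
    · exact (h1 x).smul_left _

theorem el_mul (g h : C(unitInterval, ℂ)) (m n : MM p q) : el g m * el h n = el (g * h) (m * n) := by
  ext t : 1
  simp only [ContinuousMap.mul_apply, el_apply, smul_mul_smul_comm]

theorem star_el (h : C(unitInterval, ℂ)) (m : MM p q) : star (el h m) = el (star h) (star m) := by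
  ext t : 1
  simp only [ContinuousMap.star_apply, el_apply, star_smul]

theorem norm_el_le (h : C(unitInterval, ℂ)) (m : MM p q) : ‖el h m‖ ≤ ‖h‖ * ‖m‖ := by
  refine (ContinuousMap.norm_le _ (by positivity)).2 fun t => ?_
  rw [el_apply, norm_smul]
  exact mul_le_mul_of_nonneg_right (h.norm_coe_le_norm t) (norm_nonneg _)

/-- The hat functions and their square roots, as complex functions. -/
noncomputable def hc (m : ℕ) (k : Fin (m + 1)) : C(unitInterval, ℂ) :=
  ⟨fun t => (hh m k t : ℂ), Complex.continuous_ofReal.comp (continuous_hh m k)⟩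
noncomputable def hs (m : ℕ) (k : Fin (m + 1)) : C(unitInterval, ℂ) :=
  ⟨fun t => (Real.sqrt (hh m k t) : ℂ),
    Complex.continuous_ofReal.comp (Real.continuous_sqrt.comp (continuous_hh m k))⟩

theorem hs_mul_hs (m : ℕ) (k : Fin (m + 1)) : hs m k * hs m k = hc m k := by
  ext t
  simp only [hs, hc, ContinuousMap.mul_apply, ContinuousMap.coe_mk]
  rw [← Complex.ofReal_mul, Real.mul_self_sqrt (hh_nonneg _ _ _)]

theorem star_hs (m : ℕ) (k : Fin (m + 1)) : star (hs m k) = hs m k := by
  ext t
  simp [hs]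

theorem hc_zero {m : ℕ} {k : Fin (m + 1)} (hk : k ≠ 0) : hc m k 0 = 0 := by
  simp [hc, hh_zero hk]
theorem hc_one {m : ℕ} {k : Fin (m + 1)} (hk : k ≠ Fin.last m) : hc m k 1 = 0 := by
  simp [hc, hh_one hk]
theorem hs_zero {m : ℕ} {k : Fin (m + 1)} (hk : k ≠ 0) : hs m k 0 = 0 := by
  simp [hs, hh_zero hk]
theorem hs_one {m : ℕ} {k : Fin (m + 1)} (hk : k ≠ Fin.last m) : hs m k 1 = 0 := by
  simp [hs, hh_one hk]

theorem norm_hc_le (m : ℕ) (k : Fin (m + 1)) : ‖hc m k‖ ≤ 1 := by
  refine (ContinuousMap.norm_le _ zero_le_one).2 fun t => ?_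
  simp only [hc, ContinuousMap.coe_mk, Complex.norm_real, Real.norm_of_nonneg (hh_nonneg _ _ _)]
  exact hh_le_one _ _ _

theorem norm_single_le {n : Type*} [Fintype n] [DecidableEq n] (a b : n) :
    ‖(Matrix.single a b (1 : ℂ) : Matrix n n ℂ)‖ ≤ 1 := by
  have h : star (Matrix.single a b (1 : ℂ)) * Matrix.single a b (1 : ℂ) =
      (Matrix.single b b (1 : ℂ) : Matrix n n ℂ) := by
    rw [Matrix.star_eq_conjTranspose, Matrix.conjTranspose_single, star_one,
      Matrix.single_mul_single_same, mul_one]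
  have h2 : ‖(Matrix.single b b (1 : ℂ) : Matrix n n ℂ)‖ ≤ 1 := by
    have h3 : ‖(Matrix.single b b (1 : ℂ) : Matrix n n ℂ)‖ *
        ‖(Matrix.single b b (1 : ℂ) : Matrix n n ℂ)‖ = ‖(Matrix.single b b (1 : ℂ) : Matrix n n ℂ)‖ := by
      rw [← CStarRing.norm_star_mul_self, Matrix.star_eq_conjTranspose,
        Matrix.conjTranspose_single, star_one, Matrix.single_mul_single_same, mul_one]
    by_contra hlt
    push Not at hlt
    nlinarith
  have h4 := CStarRing.norm_star_mul_self (x := (Matrix.single a b (1 : ℂ) : Matrix n n ℂ))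
  rw [h] at h4
  by_contra hlt
  push Not at hlt
  nlinarith

/-- Row/column Cauchy-Schwarz. -/
theorem norm_sum_mul_le {F : Type u} [CStarAlgebra F] {ι : Type*} [Fintype ι] (u v : ι → F) :
    ‖∑ i, u i * v i‖ ≤ Real.sqrt ‖∑ i, u i * star (u i)‖ * Real.sqrt ‖∑ i, star (v i) * v i‖ := by
  let _ : PartialOrder F := CStarAlgebra.spectralOrder F
  have _ : StarOrderedRing F := CStarAlgebra.spectralOrderedRing F
  have h := CStarModule.norm_inner_le (A := F) (E := WithCStarModule F (ι → F))
    (x := (WithCStarModule.equiv F (ι → F)).symm (fun i => star (v i)))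
    (y := (WithCStarModule.equiv F (ι → F)).symm u)
  rw [WithCStarModule.pi_inner, WithCStarModule.pi_norm, WithCStarModule.pi_norm] at h
  simp only [WithCStarModule.equiv_symm_pi_apply, WithCStarModule.inner_def, star_star] at h
  rw [mul_comm]
  exact h

/-- A sum of `star v * (star c * c) * v` with `‖c‖ ≤ M`. -/
theorem norm_sum_conj_le {F : Type u} [CStarAlgebra F] {ι : Type*} [Fintype ι] (w c : ι → F)
    {M : ℝ} (hM : 0 ≤ M) (hc : ∀ i, ‖c i‖ ≤ M) :
    ‖∑ i, star (w i) * (star (c i) * c i) * w i‖ ≤ M ^ 2 * ‖∑ i, star (w i) * w i‖ := by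
  let _ : PartialOrder F := CStarAlgebra.spectralOrder F
  have _ : StarOrderedRing F := CStarAlgebra.spectralOrderedRing F
  have h1 : ∀ i, star (c i) * c i ≤ algebraMap ℝ F (M ^ 2) := fun i => by
    refine (CStarAlgebra.star_mul_le_algebraMap_norm_sq (a := c i)).trans ?_
    have h2 : ‖c i‖ ^ 2 ≤ M ^ 2 := by
      have := hc i
      have := norm_nonneg (c i)
      nlinarith
    exact algebraMap_mono F h2
  have h2 : ∀ i, star (w i) * (star (c i) * c i) * w i ≤ (M ^ 2) • (star (w i) * w i) := fun i => by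
    have := star_left_conjugate_le_conjugate (h1 i) (w i)
    rwa [Algebra.algebraMap_eq_smul_one, mul_smul_comm, mul_one, smul_mul_assoc] at this
  have h3 : ∑ i, star (w i) * (star (c i) * c i) * w i ≤ (M ^ 2) • ∑ i, star (w i) * w i := by
    rw [Finset.smul_sum]
    exact Finset.sum_le_sum fun i _ => h2 i
  have h4 : 0 ≤ ∑ i, star (w i) * (star (c i) * c i) * w i := by
    refine Finset.sum_nonneg fun i _ => ?_
    have : star (w i) * (star (c i) * c i) * w i = star (c i * w i) * (c i * w i) := by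
      simp only [star_mul, mul_assoc]
    rw [this]
    exact star_mul_self_nonneg _
  refine (CStarAlgebra.norm_le_norm_of_nonneg_of_le h4 h3).trans ?_
  rw [norm_smul, Real.norm_of_nonneg (by positivity)]

variable {B : Type u} [CStarAlgebra B]

/-- One matrix unit. -/
theorem unit_bound (φ : DD p q →⋆ₐ[ℂ] B) {m : ℕ} (J : Finset (Fin (m + 1)))
    (hJ0 : (0 : Fin (m + 1)) ∉ J) (hJ1 : Fin.last m ∉ J) (a b : Fin p × Fin q)
    (c : Fin (m + 1) → B) (hcomm : ∀ k g, Commute (φ g) (c k)) {M : ℝ} (hM0 : 0 ≤ M)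
    (hM : ∀ k, ‖c k‖ ≤ M) (g : Fin (m + 1) → DD p q)
    (hg : ∀ k ∈ J, (g k : CM p q) = el (hc m k) (Matrix.single a b 1)) :
    ‖∑ k ∈ J, φ (g k) * c k‖ ≤ M := by
  classical
  have hne : ∀ k ∈ J, k ≠ 0 ∧ k ≠ Fin.last m := fun k hk =>
    ⟨fun h => hJ0 (h ▸ hk), fun h => hJ1 (h ▸ hk)⟩
  -- the elements `sqrt h · e_{xy}`
  let E : Fin p × Fin q → Fin p × Fin q → J → DD p q := fun x y k =>
    ⟨el (hs m k) (Matrix.single x y 1), el_mem (Or.inl (hs_zero (hne k k.2).1))
      (Or.inl (hs_one (hne k k.2).2))⟩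
  have hE : ∀ x y (k : J), (E x y k : CM p q) = el (hs m k) (Matrix.single x y 1) :=
    fun _ _ _ => rfl
  have hEE : ∀ (k : J), E a a k * E a b k = g k := fun k => by
    apply Subtype.ext
    rw [hg k k.2, MulMemClass.coe_mul, hE, hE, el_mul, hs_mul_hs, Matrix.single_mul_single_same,
      mul_one]
  have hsum : ∑ k ∈ J, φ (g k) * c k = ∑ k : J, φ (E a a k) * (φ (E a b k) * c k) := by
    rw [← Finset.sum_coe_sort J (fun k => φ (g k) * c k)]
    refine Finset.sum_congr rfl fun k _ => ?_
    rw [← hEE, map_mul, mul_assoc]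
  -- norm of sums of `h · e_xx`
  have hnorm : ∀ x, ‖∑ k : J, φ (star (E x x k)) * φ (E x x k)‖ ≤ 1 := fun x => by
    have h1 : ∑ k : J, φ (star (E x x k)) * φ (E x x k) =
        φ (∑ k : J, star (E x x k) * E x x k) := by
      rw [map_sum]
      exact Finset.sum_congr rfl fun k _ => (map_mul φ _ _).symm
    rw [h1]
    refine (norm_hom_le φ _).trans ?_
    have h2 : ((∑ k : J, star (E x x k) * E x x k : DD p q) : CM p q) =
        el (∑ k : J, hc m k) (Matrix.single x x 1) := by
      rw [AddSubmonoidClass.coe_finsetSum]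
      ext t : 1
      simp only [MulMemClass.coe_mul, StarMemClass.coe_star, hE, star_el, star_hs, el_mul,
        hs_mul_hs, Matrix.star_eq_conjTranspose, Matrix.conjTranspose_single, star_one,
        Matrix.single_mul_single_same, mul_one, ContinuousMap.sum_apply, el_apply, Finset.sum_smul]
    rw [h2]
    refine (norm_el_le _ _).trans ?_
    have h4 : ‖∑ k : J, hc m k‖ ≤ 1 := by
      refine (ContinuousMap.norm_le _ zero_le_one).2 fun t => ?_
      rw [ContinuousMap.sum_apply]
      have h5 : ∑ k : J, (hc m k) t = ((∑ k ∈ J, hh m k t : ℝ) : ℂ) := by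
        rw [← Finset.sum_coe_sort J (fun k => hh m k t), Complex.ofReal_sum]
        rfl
      rw [h5, Complex.norm_real, Real.norm_of_nonneg (Finset.sum_nonneg fun k _ => hh_nonneg _ _ _),
        ← sum_hh m t]
      exact Finset.sum_le_sum_of_subset_of_nonneg (Finset.subset_univ _)
        fun k _ _ => hh_nonneg _ _ _
    calc ‖∑ k : J, hc m k‖ * ‖(Matrix.single x x 1 : MM p q)‖ ≤ 1 * 1 :=
        mul_le_mul h4 (norm_single_le _ _) (norm_nonneg _) zero_le_one
      _ = 1 := one_mul _
  rw [hsum]
  refine (norm_sum_mul_le _ _).trans ?_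
  have n1 : ‖∑ k : J, φ (E a a k) * star (φ (E a a k))‖ ≤ 1 := by
    have h1 : ∀ k : J, star (E a a k) = E a a k := fun k => by
      apply Subtype.ext
      rw [StarMemClass.coe_star, hE, star_el, star_hs, Matrix.star_eq_conjTranspose,
        Matrix.conjTranspose_single, star_one]
    have h2 := hnorm a
    simp only [h1] at h2
    simpa only [← map_star, h1] using h2
  have n2 : ‖∑ k : J, star (φ (E a b k) * c k) * (φ (E a b k) * c k)‖ ≤ M ^ 2 := by
    have h1 : ∀ k : J, star (φ (E a b k) * c k) * (φ (E a b k) * c k) =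
        star (φ (E b b k)) * (star (c k) * c k) * φ (E b b k) := fun k => by
      have e1 : star (E a b k) * E a b k = star (E b b k) * E b b k := by
        apply Subtype.ext
        simp only [MulMemClass.coe_mul, StarMemClass.coe_star, hE, star_el, star_hs, el_mul,
          hs_mul_hs, Matrix.star_eq_conjTranspose, Matrix.conjTranspose_single, star_one,
          Matrix.single_mul_single_same, mul_one]
      have e2 : star (φ (E a b k)) * φ (E a b k) = star (φ (E b b k)) * φ (E b b k) := by
        rw [← map_star, ← map_mul, e1, map_mul, map_star]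
      have e3 : star (φ (E b b k)) * star (c k) = star (c k) * star (φ (E b b k)) := by
        have := (hcomm k (star (E b b k))).star_star
        have h4 := (hcomm k (E b b k)).star_star
        exact h4.eq
      have e5 : c k * φ (E b b k) = φ (E b b k) * c k := (hcomm k _).eq.symm
      calc star (φ (E a b k) * c k) * (φ (E a b k) * c k)
          = star (c k) * (star (φ (E a b k)) * φ (E a b k)) * c k := by
            simp only [star_mul, mul_assoc]
        _ = star (c k) * star (φ (E b b k)) * (φ (E b b k) * c k) := by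
            rw [e2]; simp only [mul_assoc]
        _ = star (φ (E b b k)) * star (c k) * (c k * φ (E b b k)) := by rw [← e3, ← e5]
        _ = _ := by simp only [mul_assoc]
    simp only [h1]
    refine (norm_sum_conj_le (fun k : J => φ (E b b k)) (fun k : J => c k) hM0
      (fun k => hM k)).trans ?_
    have h2 := hnorm b
    simp only [map_star] at h2
    nlinarith [sq_nonneg M]
  calc _ ≤ Real.sqrt 1 * Real.sqrt (M ^ 2) := by
        exact mul_le_mul (Real.sqrt_le_sqrt n1) (Real.sqrt_le_sqrt n2) (Real.sqrt_nonneg _)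
          (Real.sqrt_nonneg _)
    _ = M := by rw [Real.sqrt_one, one_mul, Real.sqrt_sq hM0]

end Vale.Agent.JS.PartB
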