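import Vale.Agent.P095JS.PartB1

/-! Part B: the norm bound. -/

open scoped Kronecker Matrix.Norms.L2Operator

namespace Vale.Agent.JS.PartB

open Hat PartD

universe u

variable {p q : ℕ}

/-- `one1`, `one2` as star homs. -/
noncomputable def o1 : Matrix (Fin p) (Fin p) ℂ →⋆ₐ[ℂ] MM p q where
  toFun := one1 q
  map_one' := by simp [one1]
  map_mul' x y := by simp [one1, ← Matrix.mul_kronecker_mul]
  map_zero' := by simp [one1]
  map_add' := fun _ _ => by simp [one1, Matrix.add_kronecker]
  commutes' r := by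
    simp only [Algebra.algebraMap_eq_smul_one, one1, Matrix.smul_kronecker,
      Matrix.one_kronecker_one]
  map_star' f := (star_one1 _ _).symm

noncomputable def o2 : Matrix (Fin q) (Fin q) ℂ →⋆ₐ[ℂ] MM p q where
  toFun := one2 p
  map_one' := by simp [one2]
  map_mul' x y := by simp [one2, ← Matrix.mul_kronecker_mul]
  map_zero' := by simp [one2]
  map_add' := fun _ _ => by simp [one2, Matrix.kronecker_add]
  commutes' r := by
    simp only [Algebra.algebraMap_eq_smul_one, one2, Matrix.kronecker_smul,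
      Matrix.one_kronecker_one]
  map_star' f := (star_one2 _ _).symm

theorem norm_one1_single (a b : Fin p) : ‖one1 q (Matrix.single a b (1 : ℂ))‖ ≤ 1 :=
  (NonUnitalStarAlgHom.norm_apply_le (o1 : Matrix (Fin p) (Fin p) ℂ →⋆ₐ[ℂ] MM p q) _).trans
    (norm_single_le a b)

theorem norm_one2_single (a b : Fin q) : ‖one2 p (Matrix.single a b (1 : ℂ))‖ ≤ 1 :=
  (NonUnitalStarAlgHom.norm_apply_le (o2 : Matrix (Fin q) (Fin q) ℂ →⋆ₐ[ℂ] MM p q) _).trans
    (norm_single_le a b)

theorem one1_comm (x : Matrix (Fin p) (Fin p) ℂ) (y : Matrix (Fin q) (Fin q) ℂ) :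
    Commute (one1 q x) (one2 p y) := by
  simp [Commute, SemiconjBy, one1, one2, ← Matrix.mul_kronecker_mul]

theorem one1_sum (x : Matrix (Fin p) (Fin p) ℂ) :
    one1 q x = ∑ a, ∑ b, x a b • one1 q (Matrix.single a b (1 : ℂ)) := by
  have h := congrArg (o1 (q := q)) (Matrix.matrix_eq_sum_single x)
  simp only [map_sum] at h
  refine h.trans ?_
  refine Finset.sum_congr rfl fun a _ => Finset.sum_congr rfl fun b _ => ?_
  have : Matrix.single a b (x a b) = x a b • Matrix.single a b (1 : ℂ) := by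
    rw [Matrix.smul_single, smul_eq_mul, mul_one]
  rw [this, map_smul]
  rfl

theorem one2_sum (x : Matrix (Fin q) (Fin q) ℂ) :
    one2 p x = ∑ a, ∑ b, x a b • one2 p (Matrix.single a b (1 : ℂ)) := by
  have h := congrArg (o2 (p := p)) (Matrix.matrix_eq_sum_single x)
  simp only [map_sum] at h
  refine h.trans ?_
  refine Finset.sum_congr rfl fun a _ => Finset.sum_congr rfl fun b _ => ?_
  have : Matrix.single a b (x a b) = x a b • Matrix.single a b (1 : ℂ) := by
    rw [Matrix.smul_single, smul_eq_mul, mul_one]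
  rw [this, map_smul]
  rfl

theorem one1_apply_self (x : Matrix (Fin p) (Fin p) ℂ) (a b : Fin p) (c : Fin q) :
    one1 q x (a, c) (b, c) = x a b := by
  simp [one1, Matrix.kroneckerMap_apply]

theorem one2_apply_self (x : Matrix (Fin q) (Fin q) ℂ) (a b : Fin q) (c : Fin p) :
    one2 p x (c, a) (c, b) = x a b := by
  simp [one2, Matrix.kroneckerMap_apply]

variable {B : Type u} [CStarAlgebra B]

/-- A sum with coefficients, for a fixed finite family of elements of norm at most `1`. -/
theorem expand_bound (φ : DD p q →⋆ₐ[ℂ] B) {ι κ : Type*} [Fintype ι] [Fintype κ]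
    (f : ι → DD p q) (d : ι → B) (G : κ → DD p q) (x : ι → κ → ℂ)
    (hf : ∀ i, f i = ∑ k, x i k • G k) (hG : ∀ k, ‖(G k : CM p q)‖ ≤ 1) {M : ℝ}
    (hM : ∀ k, ‖∑ i, x i k • d i‖ ≤ M) :
    ‖∑ i, φ (f i) * d i‖ ≤ Fintype.card κ * M := by
  have e : ∑ i, φ (f i) * d i = ∑ k, φ (G k) * ∑ i, x i k • d i := by
    simp only [hf, map_sum, map_smul, Finset.sum_mul, Finset.mul_sum]
    rw [Finset.sum_comm]
    refine Finset.sum_congr rfl fun k _ => Finset.sum_congr rfl fun i _ => ?_
    rw [smul_mul_assoc, mul_smul_comm]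
  rw [e]
  calc _ ≤ ∑ k, ‖φ (G k) * ∑ i, x i k • d i‖ := norm_sum_le _ _
    _ ≤ ∑ _k : κ, M := by
        refine Finset.sum_le_sum fun k _ => (norm_mul_le _ _).trans ?_
        have h1 : ‖φ (G k)‖ ≤ 1 := (norm_hom_le φ _).trans (hG k)
        have h2 := hM k
        have h3 := norm_nonneg (∑ i, x i k • d i)
        nlinarith [norm_nonneg (φ (G k))]
    _ = _ := by rw [Finset.sum_const, Finset.card_univ, nsmul_eq_mul]

variable (p q) in
/-- The constant. -/
noncomputable def KK : ℝ := (p : ℝ) ^ 2 + (q : ℝ) ^ 2 + ((p : ℝ) * q) ^ 2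

theorem lem1 (hp : 0 < p) (hq : 0 < q) (φ : DD p q →⋆ₐ[ℂ] B) {ι : Type*} [Fintype ι]
    (f : ι → DD p q) (d : ι → B) (hd : ∀ i g, Commute (φ g) (d i)) {M : ℝ} (hM0 : 0 ≤ M)
    (hM : ∀ s a b, ‖∑ i, ((f i : CM p q) s a b) • d i‖ ≤ M) :
    ‖∑ i, φ (f i) * d i‖ ≤ KK p q * M := by
  classical
  refine le_of_forall_pos_le_add fun ε hε => ?_
  set D : ℝ := ∑ i, ‖d i‖ + 1 with hD
  have hD0 : 0 < D := by
    have : 0 ≤ ∑ i, ‖d i‖ := Finset.sum_nonneg fun i _ => norm_nonneg _
    linarith
  choose n hn using fun i => approx (f i : CM p q) (ε := ε / D) (by positivity)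
  set m : ℕ := Finset.univ.sup n + 1 with hm
  have hm0 : 0 < m := Nat.succ_pos _
  have hmn : ∀ i, n i ≤ m := fun i =>
    (Finset.le_sup (f := n) (Finset.mem_univ i)).trans (Nat.le_succ _)
  have h0l : (0 : Fin (m + 1)) ≠ Fin.last m := by
    intro h
    have := congrArg Fin.val h
    simp only [Fin.val_zero, Fin.val_last] at this
    omega
  have hmem : ∀ i k, el (hc m k) ((f i : CM p q) (node m k)) ∈ DD p q := by
    intro i k
    refine el_mem ?_ ?_
    · by_cases hk : k = 0
      · subst hk; right; rw [node_zero]; exact (f i).2.1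
      · left; exact hc_zero hk
    · by_cases hk : k = Fin.last m
      · subst hk; right; rw [node_last hm0]; exact (f i).2.2
      · left; exact hc_one hk
  let F : ι → Fin (m + 1) → DD p q := fun i k => ⟨_, hmem i k⟩
  have hF : ∀ i k, (F i k : CM p q) = el (hc m k) ((f i : CM p q) (node m k)) := fun _ _ => rfl
  have happ : ∀ i, ‖((f i - ∑ k, F i k : DD p q) : CM p q)‖ ≤ ε / D := by
    intro i
    refine (ContinuousMap.norm_le _ (by positivity)).2 fun t => ?_
    have h := hn i m (hmn i) hm0 t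
    have e : ((f i - ∑ k, F i k : DD p q) : CM p q) t =
        (f i : CM p q) t - ∑ k, hh m k t • (f i : CM p q) (node m k) := by
      rw [AddSubgroupClass.coe_sub, AddSubmonoidClass.coe_finsetSum, ContinuousMap.sub_apply,
        ContinuousMap.sum_apply]
      congr 1
    rw [e]
    exact h
  -- splitting
  have hsplit : ∑ i, φ (f i) * d i = ∑ i, φ (f i - ∑ k, F i k) * d i +
      ∑ k, ∑ i, φ (F i k) * d i := by
    rw [Finset.sum_comm, ← Finset.sum_add_distrib]
    refine Finset.sum_congr rfl fun i _ => ?_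
    have hsa : (f i - ∑ k, F i k) + ∑ k, F i k = f i := by
      apply Subtype.ext
      rw [AddMemClass.coe_add, AddSubgroupClass.coe_sub]
      exact sub_add_cancel _ _
    rw [← Finset.sum_mul, ← map_sum, ← add_mul, ← map_add, hsa]
  set J : Finset (Fin (m + 1)) := (Finset.univ.erase 0).erase (Fin.last m) with hJ
  have hsum : ∑ k, ∑ i, φ (F i k) * d i = ∑ i, φ (F i 0) * d i +
      (∑ i, φ (F i (Fin.last m)) * d i + ∑ k ∈ J, ∑ i, φ (F i k) * d i) := by
    have g1 := Finset.add_sum_erase Finset.univ (fun k => ∑ i, φ (F i k) * d i)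
      (Finset.mem_univ (0 : Fin (m + 1)))
    have g2 := Finset.add_sum_erase (Finset.univ.erase (0 : Fin (m + 1)))
      (fun k => ∑ i, φ (F i k) * d i) (a := Fin.last m)
      (Finset.mem_erase.2 ⟨h0l.symm, Finset.mem_univ _⟩)
    rw [← g1, ← g2]
  have hJ0 : (0 : Fin (m + 1)) ∉ J := by simp [hJ]
  have hJ1 : Fin.last m ∉ J := by simp [hJ]
  -- the first term
  have b1 : ‖∑ i, φ (f i - ∑ k, F i k) * d i‖ ≤ ε := by
    calc _ ≤ ∑ i, ‖φ (f i - ∑ k, F i k) * d i‖ := norm_sum_le _ _
      _ ≤ ∑ i, ε / D * ‖d i‖ := by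
          refine Finset.sum_le_sum fun i _ => (norm_mul_le _ _).trans ?_
          exact mul_le_mul_of_nonneg_right ((norm_hom_le φ _).trans (happ i)) (norm_nonneg _)
      _ = ε / D * ∑ i, ‖d i‖ := by rw [Finset.mul_sum]
      _ ≤ ε / D * D := by
          refine mul_le_mul_of_nonneg_left ?_ (by positivity)
          rw [hD]; linarith
      _ = ε := by field_simp
  -- the left end
  have b2 : ‖∑ i, φ (F i 0) * d i‖ ≤ (p : ℝ) ^ 2 * M := by
    let G : Fin p × Fin p → DD p q := fun z =>
      ⟨el (hc m 0) (one1 q (Matrix.single z.1 z.2 1)),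
        el_mem (Or.inr fun y => one1_comm _ y) (Or.inl (hc_one h0l))⟩
    have h := expand_bound φ (fun i => F i 0) d G
      (fun i z => (f i : CM p q) 0 (z.1, ⟨0, hq⟩) (z.2, ⟨0, hq⟩)) (fun i => ?_) (fun z => ?_)
      (M := M) (fun z => hM 0 _ _)
    · simpa [sq] using h
    · obtain ⟨x, hx⟩ := exists_one1 hq (f i).2.1
      apply Subtype.ext
      rw [hF, node_zero, hx, AddSubmonoidClass.coe_finsetSum]
      ext t : 1
      rw [el_apply, ContinuousMap.sum_apply]
      conv_lhs => rw [one1_sum x]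
      rw [← Finset.univ_product_univ, Finset.sum_product, Finset.smul_sum]
      refine Finset.sum_congr rfl fun a _ => ?_
      rw [Finset.smul_sum]
      refine Finset.sum_congr rfl fun b _ => ?_
      rw [one1_apply_self, SetLike.val_smul, ContinuousMap.smul_apply]
      exact smul_comm _ _ _
    · refine (norm_el_le _ _).trans ?_
      calc _ ≤ (1 : ℝ) * 1 := mul_le_mul (norm_hc_le _ _) (norm_one1_single _ _) (norm_nonneg _)
            zero_le_one
        _ = 1 := one_mul _
  -- the right end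
  have b3 : ‖∑ i, φ (F i (Fin.last m)) * d i‖ ≤ (q : ℝ) ^ 2 * M := by
    let G : Fin q × Fin q → DD p q := fun z =>
      ⟨el (hc m (Fin.last m)) (one2 p (Matrix.single z.1 z.2 1)),
        el_mem (Or.inl (hc_zero h0l.symm)) (Or.inr fun x => (one1_comm x _).symm)⟩
    have h := expand_bound φ (fun i => F i (Fin.last m)) d G
      (fun i z => (f i : CM p q) 1 (⟨0, hp⟩, z.1) (⟨0, hp⟩, z.2)) (fun i => ?_) (fun z => ?_)
      (M := M) (fun z => hM 1 _ _)
    · simpa [sq] using h
    · obtain ⟨x, hx⟩ := exists_one2 hp (f i).2.2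
      apply Subtype.ext
      rw [hF, node_last hm0, hx, AddSubmonoidClass.coe_finsetSum]
      ext t : 1
      rw [el_apply, ContinuousMap.sum_apply]
      conv_lhs => rw [one2_sum x]
      rw [← Finset.univ_product_univ, Finset.sum_product, Finset.smul_sum]
      refine Finset.sum_congr rfl fun a _ => ?_
      rw [Finset.smul_sum]
      refine Finset.sum_congr rfl fun b _ => ?_
      rw [one2_apply_self, SetLike.val_smul, ContinuousMap.smul_apply]
      exact smul_comm _ _ _
    · refine (norm_el_le _ _).trans ?_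
      calc _ ≤ (1 : ℝ) * 1 := mul_le_mul (norm_hc_le _ _) (norm_one2_single _ _) (norm_nonneg _)
            zero_le_one
        _ = 1 := one_mul _
  -- the interior
  have b4 : ‖∑ k ∈ J, ∑ i, φ (F i k) * d i‖ ≤ ((p : ℝ) * q) ^ 2 * M := by
    let g : Fin p × Fin q → Fin p × Fin q → Fin (m + 1) → DD p q := fun a b k =>
      if h : k ≠ 0 ∧ k ≠ Fin.last m then
        ⟨el (hc m k) (Matrix.single a b 1), el_mem (Or.inl (hc_zero h.1)) (Or.inl (hc_one h.2))⟩
      else 0
    have hJne : ∀ k ∈ J, k ≠ 0 ∧ k ≠ Fin.last m := fun k hk =>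
      ⟨fun h => hJ0 (h ▸ hk), fun h => hJ1 (h ▸ hk)⟩
    have hg : ∀ a b, ∀ k ∈ J, (g a b k : CM p q) = el (hc m k) (Matrix.single a b 1) := by
      intro a b k hk
      simp only [g, dif_pos (hJne k hk)]
    have e : ∑ k ∈ J, ∑ i, φ (F i k) * d i =
        ∑ a, ∑ b, ∑ k ∈ J, φ (g a b k) * ∑ i, ((f i : CM p q) (node m k) a b) • d i := by
      have e1 : ∀ k ∈ J, ∑ i, φ (F i k) * d i =
          ∑ a, ∑ b, φ (g a b k) * ∑ i, ((f i : CM p q) (node m k) a b) • d i := by
        intro k hk
        have e2 : ∀ i, F i k = ∑ a, ∑ b, ((f i : CM p q) (node m k) a b) • g a b k := by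
          intro i
          apply Subtype.ext
          rw [hF, AddSubmonoidClass.coe_finsetSum]
          simp only [AddSubmonoidClass.coe_finsetSum]
          ext t : 1
          rw [el_apply, ContinuousMap.sum_apply]
          simp only [ContinuousMap.sum_apply, SetLike.val_smul, ContinuousMap.smul_apply,
            hg _ _ k hk, el_apply]
          conv_lhs => rw [Matrix.matrix_eq_sum_single ((f i : CM p q) (node m k))]
          rw [Finset.smul_sum]
          refine Finset.sum_congr rfl fun a _ => ?_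
          rw [Finset.smul_sum]
          refine Finset.sum_congr rfl fun b _ => ?_
          rw [smul_comm, Matrix.smul_single ((f i : CM p q) (node m k) a b), smul_eq_mul, mul_one]
        simp only [e2, map_sum, map_smul, Finset.sum_mul, Finset.mul_sum]
        rw [Finset.sum_comm]
        refine Finset.sum_congr rfl fun a _ => ?_
        rw [Finset.sum_comm]
        refine Finset.sum_congr rfl fun b _ => ?_
        refine Finset.sum_congr rfl fun i _ => ?_
        rw [smul_mul_assoc, mul_smul_comm]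
      rw [Finset.sum_congr rfl e1, Finset.sum_comm]
      refine Finset.sum_congr rfl fun a _ => ?_
      rw [Finset.sum_comm]
    rw [e]
    calc _ ≤ ∑ a : Fin p × Fin q, ‖∑ b, ∑ k ∈ J, φ (g a b k) *
            ∑ i, ((f i : CM p q) (node m k) a b) • d i‖ := norm_sum_le _ _
      _ ≤ ∑ a : Fin p × Fin q, ∑ b : Fin p × Fin q, M := by
          refine Finset.sum_le_sum fun a _ => (norm_sum_le _ _).trans ?_
          refine Finset.sum_le_sum fun b _ => ?_
          refine unit_bound φ J hJ0 hJ1 a b _ (fun k h => ?_) hM0 (fun k => hM _ a b) _ (hg a b)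
          exact Commute.sum_right _ _ _ fun i _ => (hd i h).smul_right _
      _ = ((p : ℝ) * q) ^ 2 * M := by
          simp only [Finset.sum_const, Finset.card_univ, Fintype.card_prod, Fintype.card_fin,
            nsmul_eq_mul]
          push_cast
          ring
  rw [hsplit, hsum]
  calc _ ≤ ‖∑ i, φ (f i - ∑ k, F i k) * d i‖ + (‖∑ i, φ (F i 0) * d i‖ +
        (‖∑ i, φ (F i (Fin.last m)) * d i‖ + ‖∑ k ∈ J, ∑ i, φ (F i k) * d i‖)) :=
        (norm_add_le _ _).trans (add_le_add_right ((norm_add_le _ _).trans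
          (add_le_add_right (norm_add_le _ _) _)) _)
    _ ≤ ε + ((p : ℝ) ^ 2 * M + ((q : ℝ) ^ 2 * M + ((p : ℝ) * q) ^ 2 * M)) := by
        gcongr
    _ = KK p q * M + ε := by unfold KK; ring

end Vale.Agent.JS.PartB
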