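import Vale.Agent.P095JS.PartB2

/-! Part B: density of the simple tensors in the algebra of functions on the square. -/

open scoped Kronecker Matrix.Norms.L2Operator

namespace Vale.Agent.JS.PartB

open Hat PartD

universe u

variable {p q : ℕ}

/-- Functions on the square. -/
abbrev XX (p q : ℕ) := C(unitInterval × unitInterval, M4 p q)

theorem approx2 {E : Type*} [NormedAddCommGroup E] [NormedSpace ℝ E]
    (F : C(unitInterval × unitInterval, E)) {ε : ℝ} (hε : 0 < ε) : ∃ m : ℕ, 0 < m ∧ ∀ s t,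
      ‖F (s, t) - ∑ j : Fin (m + 1), ∑ k : Fin (m + 1),
        (hh m j s * hh m k t) • F (node m j, node m k)‖ ≤ ε := by
  have hu : UniformContinuous F := CompactSpace.uniformContinuous_of_continuous F.continuous
  obtain ⟨δ, hδ, h⟩ := Metric.uniformContinuous_iff.1 hu ε hε
  obtain ⟨n, hn⟩ := exists_nat_gt (1 / δ)
  set m := n + 1 with hm
  have hm0' : (0 : ℝ) < m := by rw [hm]; positivity
  have hmδ : 1 / δ < m := hn.trans_le (by rw [hm]; push_cast; linarith)
  refine ⟨m, Nat.succ_pos _, fun s t => ?_⟩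
  have hs1 : ∑ j : Fin (m + 1), ∑ k : Fin (m + 1), hh m j s * hh m k t = 1 := by
    rw [← Finset.sum_mul_sum, sum_hh, sum_hh, one_mul]
  have e : F (s, t) - ∑ j : Fin (m + 1), ∑ k : Fin (m + 1),
        (hh m j s * hh m k t) • F (node m j, node m k) =
      ∑ j : Fin (m + 1), ∑ k : Fin (m + 1),
        (hh m j s * hh m k t) • (F (s, t) - F (node m j, node m k)) := by
    simp only [smul_sub, Finset.sum_sub_distrib]
    simp only [← Finset.sum_smul]
    rw [hs1, one_smul]
  rw [e]
  have key : ∀ (r : unitInterval) (k : Fin (m + 1)), hh m k r ≠ 0 → dist r (node m k) < δ := by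
    intro r k hk
    have hk' : ¬ 1 ≤ |m * (r : ℝ) - (k : ℕ)| := fun h => hk (hat_eq_zero h)
    rw [Subtype.dist_eq, Real.dist_eq]
    have e2 : (r : ℝ) - (node m k : ℝ) = (m * (r : ℝ) - (k : ℕ)) / m := by
      simp only [node]; field_simp
    rw [e2, abs_div, abs_of_pos hm0', div_lt_iff₀ hm0']
    push Not at hk'
    have : 1 < δ * m := by
      rw [div_lt_iff₀ hδ] at hmδ; linarith
    linarith
  calc _ ≤ ∑ j : Fin (m + 1), ∑ k : Fin (m + 1), (hh m j s * hh m k t) * ε := by
        refine (norm_sum_le _ _).trans (Finset.sum_le_sum fun j _ => (norm_sum_le _ _).trans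
          (Finset.sum_le_sum fun k _ => ?_))
        have hnn : 0 ≤ hh m j s * hh m k t := mul_nonneg (hh_nonneg _ _ _) (hh_nonneg _ _ _)
        rw [norm_smul, Real.norm_of_nonneg hnn]
        by_cases hj : hh m j s = 0
        · rw [hj]; simp
        by_cases hk : hh m k t = 0
        · rw [hk]; simp
        refine mul_le_mul_of_nonneg_left ?_ hnn
        rw [← dist_eq_norm]
        refine (h ?_).le
        rw [Prod.dist_eq]
        exact max_lt (key s j hj) (key t k hk)
    _ = ε := by simp only [← Finset.sum_mul]; rw [hs1, one_mul]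

/-- The products of functions. -/
noncomputable def pe (z : DD p q × DD p q) : XX p q := lft (z.1 : CM p q) * rgt (z.2 : CM p q)

/-- The left coefficients. -/
def lc (X : M4 p q) (c d : Fin p × Fin q) : MM p q := fun a b => X (a, c) (b, d)
def rc (X : M4 p q) (a b : Fin p × Fin q) : MM p q := fun c d => X (a, c) (b, d)

theorem mul_L12_apply (X : M4 p q) (Y : MM p q) (a b c d : Fin p × Fin q) :
    (X * L12 Y) (a, c) (b, d) = ∑ b', X (a, c) (b', d) * Y b' b := by
  rw [Matrix.mul_apply, Fintype.sum_prod_type]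
  refine Finset.sum_congr rfl fun b' _ => ?_
  simp [L12, Matrix.kroneckerMap_apply, Matrix.one_apply]

theorem L12_mul_apply (X : M4 p q) (Y : MM p q) (a b c d : Fin p × Fin q) :
    (L12 Y * X) (a, c) (b, d) = ∑ a', Y a a' * X (a', c) (b, d) := by
  rw [Matrix.mul_apply, Fintype.sum_prod_type]
  refine Finset.sum_congr rfl fun b' _ => ?_
  simp [L12, Matrix.kroneckerMap_apply, Matrix.one_apply]

theorem mul_R34_apply (X : M4 p q) (Y : MM p q) (a b c d : Fin p × Fin q) :
    (X * R34 Y) (a, c) (b, d) = ∑ d', X (a, c) (b, d') * Y d' d := by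
  rw [Matrix.mul_apply, Fintype.sum_prod_type_right]
  refine Finset.sum_congr rfl fun b' _ => ?_
  simp [R34, Matrix.kroneckerMap_apply, Matrix.one_apply]

theorem R34_mul_apply (X : M4 p q) (Y : MM p q) (a b c d : Fin p × Fin q) :
    (R34 Y * X) (a, c) (b, d) = ∑ c', Y c c' * X (a, c') (b, d) := by
  rw [Matrix.mul_apply, Fintype.sum_prod_type_right]
  refine Finset.sum_congr rfl fun b' _ => ?_
  simp [R34, Matrix.kroneckerMap_apply, Matrix.one_apply]

theorem lc_comm {X : M4 p q} {Y : MM p q} (h : Commute X (L12 Y)) (c d : Fin p × Fin q) :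
    Commute (lc X c d) Y := by
  ext a b
  have h1 := congrFun (congrFun h.eq (a, c)) (b, d)
  rw [mul_L12_apply, L12_mul_apply] at h1
  rw [Matrix.mul_apply, Matrix.mul_apply]
  exact h1

theorem rc_comm {X : M4 p q} {Y : MM p q} (h : Commute X (R34 Y)) (a b : Fin p × Fin q) :
    Commute (rc X a b) Y := by
  ext c d
  have h1 := congrFun (congrFun h.eq (a, c)) (b, d)
  rw [mul_R34_apply, R34_mul_apply] at h1
  rw [Matrix.mul_apply, Matrix.mul_apply]
  exact h1

theorem expand (X : M4 p q) : X = ∑ a, ∑ b, L12 (Matrix.single a b 1) * R34 (rc X a b) := by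
  ext ⟨a, c⟩ ⟨b, d⟩
  simp only [Matrix.sum_apply]
  have h : ∀ x y : Fin p × Fin q,
      (L12 (Matrix.single x y 1) * R34 (rc X x y) : M4 p q) (a, c) (b, d) =
      (if x = a ∧ y = b then 1 else 0) * X (x, c) (y, d) := by
    intro x y
    rw [L12, R34, ← Matrix.mul_kronecker_mul, mul_one, one_mul, Matrix.kroneckerMap_apply,
      Matrix.single_apply]
    rfl
  simp only [h]
  rw [Finset.sum_eq_single a, Finset.sum_eq_single b]
  · simp
  · intro y _ hy; simp [hy]
  · intro h; exact absurd (Finset.mem_univ _) h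
  · intro x _ hx; exact Finset.sum_eq_zero fun y _ => by simp [hx]
  · intro h; exact absurd (Finset.mem_univ _) h

/-- Linear projections onto the two subalgebras. -/
noncomputable def P1 (hq : 0 < q) : MM p q →ₗ[ℂ] MM p q where
  toFun x := one1 q fun i j => x (i, ⟨0, hq⟩) (j, ⟨0, hq⟩)
  map_add' x y := map_add (o1 (p := p) (q := q)) (fun i j => x (i, ⟨0, hq⟩) (j, ⟨0, hq⟩))
    (fun i j => y (i, ⟨0, hq⟩) (j, ⟨0, hq⟩))
  map_smul' c x := map_smul (o1 (p := p) (q := q)) c (fun i j => x (i, ⟨0, hq⟩) (j, ⟨0, hq⟩))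

noncomputable def P2 (hp : 0 < p) : MM p q →ₗ[ℂ] MM p q where
  toFun x := one2 p fun i j => x (⟨0, hp⟩, i) (⟨0, hp⟩, j)
  map_add' x y := map_add (o2 (p := p) (q := q)) (fun i j => x (⟨0, hp⟩, i) (⟨0, hp⟩, j))
    (fun i j => y (⟨0, hp⟩, i) (⟨0, hp⟩, j))
  map_smul' c x := map_smul (o2 (p := p) (q := q)) c (fun i j => x (⟨0, hp⟩, i) (⟨0, hp⟩, j))

theorem P1_of (hq : 0 < q) {x : MM p q} (h : ∀ y : Matrix (Fin q) (Fin q) ℂ, Commute x (one2 p y)) :
    P1 hq x = x := by
  obtain ⟨y, rfl⟩ := exists_one1 hq h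
  have e : (fun i j => one1 q y (i, ⟨0, hq⟩) (j, ⟨0, hq⟩)) = y := by
    funext i j
    exact one1_apply_self _ _ _ _
  exact congrArg (one1 q) e

theorem P2_of (hp : 0 < p) {x : MM p q} (h : ∀ y : Matrix (Fin p) (Fin p) ℂ, Commute x (one1 q y)) :
    P2 hp x = x := by
  obtain ⟨y, rfl⟩ := exists_one2 hp h
  have e : (fun i j => one2 p y (⟨0, hp⟩, i) (⟨0, hp⟩, j)) = y := by
    funext i j
    exact one2_apply_self _ _ _ _
  exact congrArg (one2 p) e

theorem exists_proj (hp : 0 < p) (hq : 0 < q) {m : ℕ} (hm : 0 < m) (k : Fin (m + 1)) :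
    ∃ P : MM p q →ₗ[ℂ] MM p q,
      (∀ x, k = 0 → ∀ y : Matrix (Fin q) (Fin q) ℂ, Commute (P x) (one2 p y)) ∧
      (∀ x, k = Fin.last m → ∀ y : Matrix (Fin p) (Fin p) ℂ, Commute (P x) (one1 q y)) ∧
      ∀ x, (k = 0 → ∀ y : Matrix (Fin q) (Fin q) ℂ, Commute x (one2 p y)) →
        (k = Fin.last m → ∀ y : Matrix (Fin p) (Fin p) ℂ, Commute x (one1 q y)) → P x = x := by
  have h0l : (0 : Fin (m + 1)) ≠ Fin.last m := by
    intro h
    have := congrArg Fin.val h
    simp only [Fin.val_zero, Fin.val_last] at this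
    omega
  by_cases h0 : k = 0
  · subst h0
    exact ⟨P1 hq, fun x _ y => one1_comm _ y, fun x h => absurd h h0l,
      fun x h _ => P1_of hq (h rfl)⟩
  by_cases h1 : k = Fin.last m
  · subst h1
    exact ⟨P2 hp, fun x h => absurd h h0, fun x _ y => (one1_comm y _).symm,
      fun x _ h => P2_of hp (h rfl)⟩
  · exact ⟨LinearMap.id, fun x h => absurd h h0, fun x h => absurd h h1, fun x _ _ => rfl⟩

/-- A simple function on the square. -/
noncomputable def sf (m : ℕ) (j k : Fin (m + 1)) (X : M4 p q) : XX p q :=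
  ⟨fun z => (hh m j z.1 * hh m k z.2) • X,
    (((continuous_hh m j).comp continuous_fst).mul
      ((continuous_hh m k).comp continuous_snd)).smul continuous_const⟩

theorem sf_mem (hp : 0 < p) (hq : 0 < q) {m : ℕ} (hm : 0 < m) (j k : Fin (m + 1)) (X : M4 p q)
    (h1 : j = 0 → ∀ y : Matrix (Fin q) (Fin q) ℂ, Commute X (L12 (one2 p y)))
    (h2 : j = Fin.last m → ∀ x : Matrix (Fin p) (Fin p) ℂ, Commute X (L12 (one1 q x)))
    (h3 : k = 0 → ∀ y : Matrix (Fin q) (Fin q) ℂ, Commute X (R34 (one2 p y)))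
    (h4 : k = Fin.last m → ∀ x : Matrix (Fin p) (Fin p) ℂ, Commute X (R34 (one1 q x))) :
    sf m j k X ∈ Submodule.span ℂ (Set.range (pe (p := p) (q := q))) := by
  obtain ⟨P, hP1, hP2, hP⟩ := exists_proj hp hq hm k
  have hX : X = ∑ c, ∑ d, L12 (lc X c d) * R34 (P (Matrix.single c d 1)) := by
    have e1 : ∀ a b, rc X a b = ∑ c, ∑ d, X (a, c) (b, d) • P (Matrix.single c d 1) := by
      intro a b
      have : P (rc X a b) = rc X a b := hP _ (fun hk y => rc_comm (h3 hk y) a b)
        (fun hk x => rc_comm (h4 hk x) a b)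
      rw [← this]
      conv_lhs => rw [Matrix.matrix_eq_sum_single (rc X a b)]
      simp only [map_sum]
      refine Finset.sum_congr rfl fun c _ => Finset.sum_congr rfl fun d _ => ?_
      have h5 : Matrix.single c d (rc X a b c d) = X (a, c) (b, d) • Matrix.single c d (1 : ℂ) := by
        rw [Matrix.smul_single, smul_eq_mul, mul_one]; rfl
      rw [h5, map_smul]
    have e2 : ∀ c d, L12 (lc X c d) = ∑ a, ∑ b, X (a, c) (b, d) • L12 (Matrix.single a b 1) := by
      intro c d
      have h := congrArg (l12 (p := p) (q := q)) (Matrix.matrix_eq_sum_single (lc X c d))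
      simp only [map_sum] at h
      refine h.trans ?_
      refine Finset.sum_congr rfl fun a _ => Finset.sum_congr rfl fun b _ => ?_
      have h5 : Matrix.single a b (lc X c d a b) = X (a, c) (b, d) • Matrix.single a b (1 : ℂ) := by
        rw [Matrix.smul_single, smul_eq_mul, mul_one]; rfl
      rw [h5, map_smul]
      rfl
    have e3 : ∀ a b, R34 (rc X a b) = ∑ c, ∑ d, X (a, c) (b, d) • R34 (P (Matrix.single c d 1)) := by
      intro a b
      rw [e1]
      change (r34 (p := p) (q := q)) _ = _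
      simp only [map_sum, map_smul]
      rfl
    conv_lhs => rw [expand X]
    simp only [e3, e2, Finset.mul_sum, Finset.sum_mul, smul_mul_assoc, mul_smul_comm]
    have hswap : ∀ G : Fin p × Fin q → Fin p × Fin q → Fin p × Fin q → Fin p × Fin q → M4 p q,
        ∑ a, ∑ b, ∑ c, ∑ d, G a b c d = ∑ c, ∑ d, ∑ a, ∑ b, G a b c d := by
      intro G
      have s1 : ∀ a, ∑ b, ∑ c, ∑ d, G a b c d = ∑ c, ∑ d, ∑ b, G a b c d := fun a => by
        rw [Finset.sum_comm]
        exact Finset.sum_congr rfl fun c _ => Finset.sum_comm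
      simp only [s1]
      rw [Finset.sum_comm]
      exact Finset.sum_congr rfl fun c _ => Finset.sum_comm
    exact hswap _
  have hsf : sf m j k X = ∑ c, ∑ d, lft (el (hc m j) (lc X c d)) *
      rgt (el (hc m k) (P (Matrix.single c d 1))) := by
    ext z : 1
    simp only [ContinuousMap.sum_apply, ContinuousMap.mul_apply, lft_apply, rgt_apply, el_apply]
    change (hh m j z.1 * hh m k z.2) • X = _
    conv_lhs => rw [hX]
    rw [Finset.smul_sum]
    refine Finset.sum_congr rfl fun c _ => ?_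
    rw [Finset.smul_sum]
    refine Finset.sum_congr rfl fun d _ => ?_
    have g1 : ∀ (c : ℂ) (Y : MM p q), L12 (c • Y) = c • L12 Y := fun c Y => map_smul l12 c Y
    have g2 : ∀ (c : ℂ) (Y : MM p q), R34 (c • Y) = c • R34 Y := fun c Y => map_smul r34 c Y
    rw [g1, g2, smul_mul_smul_comm]
    change _ = ((hh m j z.1 : ℂ) * (hh m k z.2 : ℂ)) • _
    rw [← Complex.ofReal_mul]
    rfl
  rw [hsf]
  refine Submodule.sum_mem _ fun c _ => Submodule.sum_mem _ fun d _ => Submodule.subset_span ?_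
  refine ⟨(⟨el (hc m j) (lc X c d), el_mem ?_ ?_⟩,
    ⟨el (hc m k) (P (Matrix.single c d 1)), el_mem ?_ ?_⟩), rfl⟩
  · by_cases hj : j = 0
    · right; exact fun y => lc_comm (h1 hj y) c d
    · left; exact hc_zero hj
  · by_cases hj : j = Fin.last m
    · right; exact fun y => lc_comm (h2 hj y) c d
    · left; exact hc_one hj
  · by_cases hk : k = 0
    · right; exact hP1 _ hk
    · left; exact hc_zero hk
  · by_cases hk : k = Fin.last m
    · right; exact hP2 _ hk
    · left; exact hc_one hk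

/-- Density. -/
theorem density (hp : 0 < p) (hq : 0 < q) {F : XX p q} (hF : F ∈ EE p q) :
    F ∈ closure (Submodule.span ℂ (Set.range (pe (p := p) (q := q))) : Set (XX p q)) := by
  rw [Metric.mem_closure_iff]
  intro ε hε
  obtain ⟨m, hm, h⟩ := approx2 F (half_pos hε)
  refine ⟨∑ j, ∑ k, sf m j k (F (node m j, node m k)), ?_, ?_⟩
  · refine Submodule.sum_mem _ fun j _ => Submodule.sum_mem _ fun k _ => ?_
    refine sf_mem hp hq hm j k _ ?_ ?_ ?_ ?_
    · rintro rfl; rw [node_zero]; exact hF.1 _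
    · rintro rfl; rw [node_last hm]; exact hF.2.1 _
    · rintro rfl; rw [node_zero]; exact hF.2.2.1 _
    · rintro rfl; rw [node_last hm]; exact hF.2.2.2 _
  · rw [dist_eq_norm]
    refine lt_of_le_of_lt ((ContinuousMap.norm_le _ (half_pos hε).le).2 fun z => ?_)
      (half_lt_self hε)
    have := h z.1 z.2
    rw [ContinuousMap.sub_apply]
    simp only [ContinuousMap.sum_apply]
    exact this

end Vale.Agent.JS.PartB
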