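import Vale.Agent.P095JS.PartD

/-! Part C, first half: permutation matrices, paths of unitaries, block diagonal maps. -/

open scoped Kronecker Matrix.Norms.L2Operator

namespace Vale.Agent.JS.PartC

open Vale.Agent.JS

set_option linter.unusedSectionVars false

section Perm

variable {K : Type*} [Fintype K] [DecidableEq K]

/-- Permutation matrices. -/
def pm (σ : Equiv.Perm K) : Matrix K K ℂ := Matrix.of fun x y => if σ y = x then 1 else 0

theorem pm_apply (σ : Equiv.Perm K) (x y : K) : pm σ x y = if σ y = x then 1 else 0 := rfl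

theorem pm_mul (σ τ : Equiv.Perm K) : pm σ * pm τ = pm (σ * τ) := by
  ext x y
  simp [Matrix.mul_apply, pm_apply, Equiv.Perm.mul_apply]
  congr

theorem pm_one : pm (1 : Equiv.Perm K) = 1 := by
  ext x y
  simp [pm_apply, Matrix.one_apply, eq_comm]

theorem star_pm (σ : Equiv.Perm K) : star (pm σ) = pm σ⁻¹ := by
  ext x y
  rw [Matrix.star_apply, pm_apply, pm_apply]
  by_cases h : σ x = y
  · rw [if_pos h, if_pos (by rw [← h]; simp), star_one]
  · rw [if_neg h, if_neg (fun h' => h (by rw [← h']; simp)), star_zero]

theorem pm_conj (σ : Equiv.Perm K) (M : Matrix K K ℂ) :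
    pm σ * M * star (pm σ) = Matrix.reindex σ σ M := by
  rw [star_pm]
  ext x y
  rw [Matrix.reindex_apply, Matrix.submatrix_apply, Matrix.mul_apply, Finset.sum_eq_single (σ.symm y)]
  · rw [pm_apply, Matrix.mul_apply, Finset.sum_eq_single (σ.symm x)]
    · simp [pm_apply]
    · intro b _ hb
      rw [pm_apply, if_neg, zero_mul]
      rintro rfl; simp at hb
    · simp
  · intro b _ hb
    rw [pm_apply, if_neg, mul_zero]
    intro h; exact hb h.symm
  · simp

/-- Every permutation matrix is the end point of a path of unitaries starting at `1`. -/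
theorem exists_path (σ : Equiv.Perm K) : ∃ V : C(unitInterval, Matrix K K ℂ),
    (∀ s, V s ∈ unitary (Matrix K K ℂ)) ∧ V 0 = 1 ∧ V 1 = pm σ := by
  induction σ using Equiv.Perm.swap_induction_on with
  | one => exact ⟨ContinuousMap.const _ 1, fun s => one_mem _, rfl, by rw [pm_one]; rfl⟩
  | swap_mul f x y hxy ih =>
    obtain ⟨V, hV, h0, h1⟩ := ih
    set S : Matrix K K ℂ := pm (Equiv.swap x y) with hS
    have hs : star S = S := by rw [hS, star_pm, Equiv.swap_inv]
    have hSS : S * S = 1 := by rw [hS, pm_mul, Equiv.swap_mul_self, pm_one]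
    have hc : Continuous fun s : unitInterval =>
        PartD.gam S (Complex.exp (((s : ℝ) : ℂ) * (Real.pi * Complex.I))) := by
      unfold PartD.gam
      fun_prop
    refine ⟨⟨fun s => PartD.gam S (Complex.exp (((s : ℝ) : ℂ) * (Real.pi * Complex.I))) * V s,
      hc.mul V.continuous⟩, fun s => ?_, ?_, ?_⟩
    · refine mul_mem (PartD.gam_unitary hs hSS ?_) (hV s)
      rw [Complex.star_def, ← Complex.exp_conj, ← Complex.exp_add]
      simp
    · simp [PartD.gam_one, h0]
    · simp [Complex.exp_pi_mul_I, PartD.gam_neg_one, h1, hS, pm_mul]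

end Perm

section Diag

variable {I J K : Type*} [Fintype I] [DecidableEq I] [Fintype J] [DecidableEq J]
  [Fintype K] [DecidableEq K]

/-- Block diagonal matrices, as a homomorphism. -/
def bd (e : I × J ≃ K) : (J → Matrix I I ℂ) →⋆ₐ[ℂ] Matrix K K ℂ where
  toFun F := Matrix.reindex e e (Matrix.blockDiagonal F)
  map_one' := by
    simp [Matrix.reindex_apply]
  map_mul' F G := by
    simp only [Matrix.reindex_apply]
    rw [show (F * G) = fun k => F k * G k from rfl, Matrix.blockDiagonal_mul,
      Matrix.submatrix_mul_equiv]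
  map_zero' := by simp [Matrix.reindex_apply]
  map_add' F G := by
    simp only [Matrix.reindex_apply]
    rw [Matrix.blockDiagonal_add, Matrix.submatrix_add]; rfl
  commutes' r := by
    ext x y
    simp only [Matrix.reindex_apply, Matrix.submatrix_apply, Matrix.blockDiagonal_apply,
      Pi.algebraMap_apply, Matrix.algebraMap_matrix_apply]
    by_cases h : x = y
    · simp [h]
    · rw [if_neg h]
      have h' : e.symm x ≠ e.symm y := fun h' => h (e.symm.injective h')
      split_ifs with h1 h2
      · exact absurd (Prod.ext h2 h1) h'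
      · rfl
      · rfl
  map_star' F := by
    simp only [Matrix.reindex_apply, Matrix.star_eq_conjTranspose, Matrix.conjTranspose_submatrix,
      Matrix.blockDiagonal_conjTranspose]
    rfl

theorem bd_apply (e : I × J ≃ K) (F : J → Matrix I I ℂ) (x y : K) :
    bd e F x y = if (e.symm x).2 = (e.symm y).2 then
      F (e.symm x).2 (e.symm x).1 (e.symm y).1 else 0 := by
  show Matrix.reindex e e (Matrix.blockDiagonal F) x y = _
  rw [Matrix.reindex_apply, Matrix.submatrix_apply, Matrix.blockDiagonal_apply]

theorem bd_injective (e : I × J ≃ K) : Function.Injective (bd e) := by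
  intro F G h
  have : Matrix.reindex e e (Matrix.blockDiagonal F) = Matrix.reindex e e (Matrix.blockDiagonal G) := h
  exact Matrix.blockDiagonal_injective ((Matrix.reindex e e).injective this)

theorem norm_bd_le (e : I × J ≃ K) (F : J → Matrix I I ℂ) : ‖bd e F‖ ≤ ‖F‖ :=
  NonUnitalStarAlgHom.norm_apply_le (bd e) F

theorem continuous_bd {X : Type*} [TopologicalSpace X] (e : I × J ≃ K)
    {F : X → J → Matrix I I ℂ} (hF : ∀ j, Continuous fun x => F x j) :
    Continuous fun x => bd e (F x) := by
  refine continuous_matrix fun a b => ?_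
  simp only [bd_apply]
  split_ifs
  · exact (hF _).matrix_elem _ _
  · exact continuous_const

theorem bd_reindex (e : I × J ≃ K) (σ : Equiv.Perm K) (F : J → Matrix I I ℂ) :
    Matrix.reindex σ σ (bd e F) = bd (e.trans σ) F := by
  ext x y
  rw [Matrix.reindex_apply, Matrix.submatrix_apply, bd_apply, bd_apply]
  rfl

/-- Composition of block diagonal maps. -/
theorem bd_bd {J' K' : Type*} [Fintype J'] [DecidableEq J'] [Fintype K'] [DecidableEq K']
    (e : I × J ≃ K) (e' : K × J' ≃ K') (F : J → J' → Matrix I I ℂ) :
    bd e' (fun j' => bd e (fun j => F j j')) =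
      bd (((Equiv.prodAssoc I J J').symm.trans (Equiv.prodCongr e (Equiv.refl J'))).trans e')
        (fun j => F j.1 j.2) := by
  ext x y
  rw [bd_apply e', bd_apply (((Equiv.prodAssoc I J J').symm.trans
    (Equiv.prodCongr e (Equiv.refl J'))).trans e')]
  have hs : ∀ z : K', (((Equiv.prodAssoc I J J').symm.trans
      (Equiv.prodCongr e (Equiv.refl J'))).trans e').symm z =
      ((e.symm (e'.symm z).1).1, ((e.symm (e'.symm z).1).2, (e'.symm z).2)) := fun z => rfl
  rw [hs, hs]
  simp only [bd_apply, Prod.mk.injEq]
  by_cases h1 : (e'.symm x).2 = (e'.symm y).2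
  · by_cases h2 : (e.symm (e'.symm x).1).2 = (e.symm (e'.symm y).1).2
    · simp [h1, h2]
    · simp [h1, h2]
  · simp [h1]

end Diag

end Vale.Agent.JS.PartC
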