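import Vale.Agent.P095JS.PartC1

/-! Part C, second half: diagonal maps between algebras of matrix valued functions. -/

open scoped Kronecker Matrix.Norms.L2Operator

namespace Vale.Agent.JS.PartC

open Vale.Agent.JS

/-- The data of a diagonal map. -/
structure Dat (p q P Q : ℕ) where
  J : Type
  [fJ : Fintype J]
  [dJ : DecidableEq J]
  e : (Fin p × Fin q) × J ≃ Fin P × Fin Q
  ξ : J → C(unitInterval, unitInterval)
  U : C(unitInterval, MM P Q)
  hU : ∀ s, U s ∈ unitary (MM P Q)

attribute [instance] Dat.fJ Dat.dJ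

variable {p q p' q' P Q : ℕ}

/-- The values of `f` at the points `ξ j s`. -/
noncomputable def Dat.val (D : Dat p q P Q) (f : CM p q) (s : unitInterval) : D.J → MM p q :=
  fun j => f (D.ξ j s)

/-- The diagonal map, as a function. -/
noncomputable def Dat.fn (D : Dat p q P Q) (f : CM p q) : CM P Q :=
  ⟨fun s => D.U s * bd D.e (D.val f s) * star (D.U s),
    (D.U.continuous.mul (continuous_bd D.e fun j => f.continuous.comp (D.ξ j).continuous)).mul
      D.U.continuous.star⟩

theorem Dat.fn_apply (D : Dat p q P Q) (f : CM p q) (s : unitInterval) :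
    D.fn f s = D.U s * bd D.e (D.val f s) * star (D.U s) := rfl

/-- The diagonal map. -/
noncomputable def Dat.hom (D : Dat p q P Q) : CM p q →⋆ₐ[ℂ] CM P Q where
  toFun := D.fn
  map_one' := by
    ext1 s
    have : D.val 1 s = 1 := rfl
    rw [Dat.fn_apply, this, map_one, mul_one]
    exact (Unitary.mem_iff.1 (D.hU s)).2
  map_mul' f g := by
    ext1 s
    have h : D.val (f * g) s = D.val f s * D.val g s := rfl
    rw [ContinuousMap.mul_apply, Dat.fn_apply, Dat.fn_apply, Dat.fn_apply, h, map_mul]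
    have hs := (Unitary.mem_iff.1 (D.hU s)).1
    calc D.U s * (bd D.e (D.val f s) * bd D.e (D.val g s)) * star (D.U s)
        = D.U s * bd D.e (D.val f s) * 1 * bd D.e (D.val g s) * star (D.U s) := by
          simp only [mul_one, mul_assoc]
      _ = _ := by rw [← hs]; simp only [mul_assoc]
  map_zero' := by
    ext1 s
    have : D.val 0 s = 0 := rfl
    rw [Dat.fn_apply, this, map_zero, mul_zero, zero_mul]; rfl
  map_add' f g := by
    ext1 s
    have h : D.val (f + g) s = D.val f s + D.val g s := rfl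
    rw [ContinuousMap.add_apply, Dat.fn_apply, Dat.fn_apply, Dat.fn_apply, h, map_add, mul_add,
      add_mul]
  commutes' r := by
    ext1 s
    have h : D.val (algebraMap ℂ (CM p q) r) s = algebraMap ℂ (D.J → MM p q) r := rfl
    rw [Dat.fn_apply, h, AlgHomClass.commutes]
    rw [show (algebraMap ℂ (CM P Q) r) s = algebraMap ℂ (MM P Q) r from rfl]
    rw [← Algebra.commutes, mul_assoc, (Unitary.mem_iff.1 (D.hU s)).2, mul_one]
  map_star' f := by
    ext1 s
    have h : D.val (star f) s = star (D.val f s) := rfl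
    rw [Dat.fn_apply, h, ContinuousMap.star_apply, Dat.fn_apply, map_star]
    simp only [star_mul, star_star, mul_assoc]

theorem Dat.hom_apply (D : Dat p q P Q) (f : CM p q) (s : unitInterval) :
    D.hom f s = D.U s * bd D.e (D.val f s) * star (D.U s) := rfl

/-- Lipschitz bound for the evaluation points. -/
def Dat.Lip (D : Dat p q P Q) (L : ℝ) : Prop :=
  ∀ j s t, |((D.ξ j s : unitInterval) : ℝ) - (D.ξ j t : unitInterval)| ≤ L * |(s : ℝ) - t|

variable (p q) in
/-- The identity. -/
noncomputable def Dat.id : Dat p q p q where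
  J := Unit
  e := Equiv.prodPUnit _
  ξ := fun _ => ContinuousMap.id _
  U := ContinuousMap.const _ 1
  hU := fun _ => one_mem _

theorem Dat.id_hom : (Dat.id p q).hom = StarAlgHom.id ℂ _ := by
  ext f s : 2
  rw [Dat.hom_apply]
  show 1 * bd _ _ * star 1 = f s
  rw [one_mul, star_one, mul_one]
  ext x y
  rw [bd_apply]
  simp [Dat.id, Dat.val]
  rfl

theorem Dat.id_lip : (Dat.id p q).Lip 1 := by
  intro j s t
  simp [Dat.id]

/-- Composition. -/
noncomputable def Dat.comp (D' : Dat p' q' P Q) (D : Dat p q p' q') : Dat p q P Q where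
  J := D.J × D'.J
  e := ((Equiv.prodAssoc _ D.J D'.J).symm.trans (Equiv.prodCongr D.e (Equiv.refl D'.J))).trans D'.e
  ξ := fun j => (D.ξ j.1).comp (D'.ξ j.2)
  U := ⟨fun s => D'.U s * bd D'.e (fun j => D.U (D'.ξ j s)),
    D'.U.continuous.mul (continuous_bd D'.e fun j => D.U.continuous.comp (D'.ξ j).continuous)⟩
  hU := fun s => by
    refine mul_mem (D'.hU s) (Unitary.map_mem (bd D'.e) ?_)
    exact Unitary.mem_iff.2 ⟨funext fun j => (Unitary.mem_iff.1 (D.hU _)).1,
      funext fun j => (Unitary.mem_iff.1 (D.hU _)).2⟩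

theorem Dat.comp_hom (D' : Dat p' q' P Q) (D : Dat p q p' q') :
    (D'.comp D).hom = D'.hom.comp D.hom := by
  ext f s : 2
  rw [StarAlgHom.comp_apply, Dat.hom_apply, Dat.hom_apply]
  have h : D'.val (D.hom f) s = (fun j => D.U (D'.ξ j s)) *
      (fun j => bd D.e (D.val f (D'.ξ j s))) * star (fun j => D.U (D'.ξ j s)) := rfl
  rw [h, map_mul, map_mul, map_star]
  have h2 : bd D'.e (fun j' => bd D.e (D.val f (D'.ξ j' s))) =
      bd (D'.comp D).e ((D'.comp D).val f s) :=
    bd_bd D.e D'.e (fun j j' => f (D.ξ j (D'.ξ j' s)))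
  rw [h2]
  have h3 : (D'.comp D).U s = D'.U s * bd D'.e (fun j => D.U (D'.ξ j s)) := rfl
  rw [h3, star_mul]
  simp only [mul_assoc]

theorem Dat.comp_lip {D' : Dat p' q' P Q} {D : Dat p q p' q'} {L L' : ℝ} (hL : 0 ≤ L)
    (h' : D'.Lip L') (h : D.Lip L) : (D'.comp D).Lip (L * L') := by
  intro j s t
  calc _ ≤ L * |((D'.ξ j.2 s : unitInterval) : ℝ) - (D'.ξ j.2 t : unitInterval)| := h _ _ _
    _ ≤ L * (L' * |(s : ℝ) - t|) := mul_le_mul_of_nonneg_left (h' _ _ _) hL
    _ = _ := by ring

/-- Diagonal maps with small Lipschitz constants collapse. -/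
theorem Dat.collapse (D : Dat p q P Q) {L δ ε : ℝ} (h : D.Lip L) (hL : 0 ≤ L) (hLδ : L < δ)
    (hε : 0 ≤ ε) (f : CM p q) (hf : ∀ a b : unitInterval, dist a b < δ → ‖f a - f b‖ ≤ ε)
    (s : unitInterval) :
    ‖D.hom f s - (D.U s * star (D.U 0)) * D.hom f 0 * star (D.U s * star (D.U 0))‖ ≤ ε := by
  have h0 := (Unitary.mem_iff.1 (D.hU 0)).1
  have e1 : (D.U s * star (D.U 0)) * D.hom f 0 * star (D.U s * star (D.U 0)) =
      D.U s * bd D.e (D.val f 0) * star (D.U s) := by
    rw [Dat.hom_apply, star_mul, star_star]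
    calc D.U s * star (D.U 0) * (D.U 0 * bd D.e (D.val f 0) * star (D.U 0)) *
          (D.U 0 * star (D.U s))
        = D.U s * (star (D.U 0) * D.U 0) * bd D.e (D.val f 0) * (star (D.U 0) * D.U 0) *
          star (D.U s) := by simp only [mul_assoc]
      _ = _ := by rw [h0, mul_one, mul_one]
  rw [e1, Dat.hom_apply, ← sub_mul, ← mul_sub, ← map_sub]
  rw [CStarRing.norm_mul_mem_unitary _ (Unitary.star_mem (D.hU s)),
    CStarRing.norm_mem_unitary_mul _ (D.hU s)]
  refine (norm_bd_le _ _).trans ?_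
  rw [pi_norm_le_iff_of_nonneg hε]
  intro j
  refine hf _ _ ?_
  rw [Subtype.dist_eq, Real.dist_eq]
  refine (h j s 0).trans_lt (lt_of_le_of_lt ?_ hLδ)
  have hs := s.2
  rw [show ((0 : unitInterval) : ℝ) = 0 from rfl, sub_zero, abs_of_nonneg hs.1]
  nlinarith [hs.2, hs.1]

theorem Dat.hom_injective (D : Dat p q P Q)
    (h : ∀ x : unitInterval, ∃ j s, D.ξ j s = x) : Function.Injective D.hom := by
  intro f g hfg
  ext1 x
  obtain ⟨j, s, rfl⟩ := h x
  have h1 : D.hom f s = D.hom g s := by rw [hfg]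
  rw [Dat.hom_apply, Dat.hom_apply] at h1
  have hs := (Unitary.mem_iff.1 (D.hU s)).1
  have h2 : ∀ M : MM P Q, star (D.U s) * (D.U s * M * star (D.U s)) * D.U s = M := fun M => by
    calc star (D.U s) * (D.U s * M * star (D.U s)) * D.U s
        = (star (D.U s) * D.U s) * M * (star (D.U s) * D.U s) := by simp only [mul_assoc]
      _ = M := by rw [hs, one_mul, mul_one]
  have h3 : bd D.e (D.val f s) = bd D.e (D.val g s) := by
    rw [← h2 (bd D.e (D.val f s)), h1, h2]
  exact congrFun (bd_injective _ h3) j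

end Vale.Agent.JS.PartC
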