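import Vale.Agent.P095JS.PartC2

/-! Part C: amplifications, and the multiplicities of the connecting maps. -/

open scoped Kronecker Matrix.Norms.L2Operator

namespace Vale.Agent.JS.PartC

open Vale.Agent.JS

set_option linter.unusedSectionVars false

section Amp

variable {I J a r m s n : Type} [Fintype I] [DecidableEq I] [Fintype J] [DecidableEq J]
  [Fintype a] [DecidableEq a] [Fintype r] [DecidableEq r] [Fintype m] [DecidableEq m]
  [Fintype s] [DecidableEq s] [Fintype n] [DecidableEq n]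

/-- Reordering of the index set. -/
def ampE (eI : I ≃ a × r) (eJ : J ≃ (m × s) ⊕ (n × (m × (r × s)))) :
    I × J ≃ (a ⊕ (I × n)) × (m × (r × s)) where
  toFun x := match eJ x.2 with
    | Sum.inl y => (Sum.inl (eI x.1).1, (y.1, ((eI x.1).2, y.2)))
    | Sum.inr y => (Sum.inr (x.1, y.1), y.2)
  invFun z := match z.1 with
    | Sum.inl α => (eI.symm (α, z.2.2.1), eJ.symm (Sum.inl (z.2.1, z.2.2.2)))
    | Sum.inr y => (y.1, eJ.symm (Sum.inr (y.2, z.2)))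
  left_inv x := by
    obtain ⟨i, j⟩ := x
    obtain ⟨z, rfl⟩ := eJ.symm.surjective j
    rcases z with z | z <;> simp
  right_inv z := by
    obtain ⟨z1, z2⟩ := z
    rcases z1 with z1 | z1 <;> simp

theorem ampE_inl (eI : I ≃ a × r) (eJ : J ≃ (m × s) ⊕ (n × (m × (r × s)))) (i : I) (y : m × s) :
    ampE eI eJ (i, eJ.symm (Sum.inl y)) = (Sum.inl (eI i).1, (y.1, ((eI i).2, y.2))) := by
  simp [ampE]

theorem ampE_inr (eI : I ≃ a × r) (eJ : J ≃ (m × s) ⊕ (n × (m × (r × s)))) (i : I)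
    (y : n × (m × (r × s))) :
    ampE eI eJ (i, eJ.symm (Sum.inr y)) = (Sum.inr (i, y.1), y.2) := by
  simp [ampE]

theorem amp (eI : I ≃ a × r) (eJ : J ≃ (m × s) ⊕ (n × (m × (r × s)))) (F : J → Matrix I I ℂ)
    (A : Matrix a a ℂ) (G : Matrix I I ℂ)
    (h1 : ∀ z i i', F (eJ.symm (Sum.inl z)) i i' =
      if (eI i).2 = (eI i').2 then A (eI i).1 (eI i').1 else 0)
    (h2 : ∀ z, F (eJ.symm (Sum.inr z)) = G) :
    ∃ Y : Matrix (a ⊕ (I × n)) (a ⊕ (I × n)) ℂ, ∀ x x' : I × J,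
      (if x.2 = x'.2 then F x.2 x.1 x'.1 else 0) =
      if (ampE eI eJ x).2 = (ampE eI eJ x').2 then
        Y (ampE eI eJ x).1 (ampE eI eJ x').1 else 0 := by
  refine ⟨Matrix.fromBlocks A 0 0 (Matrix.blockDiagonal fun _ => G), ?_⟩
  rintro ⟨i, j⟩ ⟨i', j'⟩
  obtain ⟨z, rfl⟩ := eJ.symm.surjective j
  obtain ⟨z', rfl⟩ := eJ.symm.surjective j'
  rcases z with z | z <;> rcases z' with z' | z'
  · rw [ampE_inl, ampE_inl]
    simp only [EmbeddingLike.apply_eq_iff_eq, Sum.inl.injEq, Matrix.fromBlocks_apply₁₁,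
      Prod.mk.injEq, h1]
    by_cases hz : z = z'
    · subst hz
      simp
    · rw [if_neg hz, if_neg]
      rintro ⟨h3, h4, h5⟩
      exact hz (Prod.ext h3 h5)
  · rw [ampE_inl, ampE_inr]
    simp
  · rw [ampE_inl, ampE_inr]
    simp
  · rw [ampE_inr, ampE_inr]
    simp only [EmbeddingLike.apply_eq_iff_eq, Sum.inr.injEq, Matrix.fromBlocks_apply₂₂,
      Matrix.blockDiagonal_apply, h2]
    by_cases hz : z = z'
    · subst hz
      simp
    · rw [if_neg hz]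
      by_cases h3 : z.2 = z'.2
      · rw [if_pos h3, if_neg (fun h4 => hz (Prod.ext h4 h3))]
      · rw [if_neg h3]

/-- The cyclic matrix units. -/
def cyc (μ : ℕ) (i : Fin (μ + 2)) : Matrix (Fin (μ + 2)) (Fin (μ + 2)) ℂ :=
  Matrix.single i (i + 1) 1

theorem cyc_mul (μ : ℕ) (i : Fin (μ + 2)) : cyc μ i * cyc μ i = 0 := by
  rw [cyc, Matrix.single_mul_single_of_ne]
  intro h
  have := congrArg (fun x => x - i) h
  simp at this

theorem sum_cyc (μ : ℕ) : ∑ i, star (cyc μ i) * cyc μ i = 1 := by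
  have h : ∀ i : Fin (μ + 2), star (cyc μ i) * cyc μ i = Matrix.single (i + 1) (i + 1) 1 := by
    intro i
    rw [cyc, Matrix.star_eq_conjTranspose, Matrix.conjTranspose_single, Matrix.single_mul_single_same]
    simp
  simp_rw [h]
  exact (Equiv.sum_comp (Equiv.addRight (1 : Fin (μ + 2)))
    (fun i => (Matrix.single i i 1 : Matrix (Fin (μ + 2)) (Fin (μ + 2)) ℂ))).trans
    Matrix.sum_single_one

variable {P Q : ℕ}

/-- The index set at the left end. -/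
def eL (eI : I ≃ a × r) (eJ : J ≃ (m × s) ⊕ (n × (m × (r × s)))) (ρ₁ : (a ⊕ (I × n)) × m ≃ Fin P)
    (ρ₂ : r × s ≃ Fin Q) : I × J ≃ Fin P × Fin Q :=
  (ampE eI eJ).trans ((Equiv.prodAssoc _ _ _).symm.trans (Equiv.prodCongr ρ₁ ρ₂))

/-- The index set at the right end. -/
def eR (eI : I ≃ a × r) (eJ : J ≃ (m × s) ⊕ (n × (m × (r × s)))) (ρ₁ : (a ⊕ (I × n)) × m ≃ Fin Q)
    (ρ₂ : r × s ≃ Fin P) : I × J ≃ Fin P × Fin Q :=
  (eL eI eJ ρ₁ ρ₂).trans (Equiv.prodComm _ _)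

theorem bd_eL (eI : I ≃ a × r) (eJ : J ≃ (m × s) ⊕ (n × (m × (r × s))))
    (ρ₁ : (a ⊕ (I × n)) × m ≃ Fin P) (ρ₂ : r × s ≃ Fin Q) (F : J → Matrix I I ℂ)
    (Y : Matrix (a ⊕ (I × n)) (a ⊕ (I × n)) ℂ) (hY : ∀ x x' : I × J,
      (if x.2 = x'.2 then F x.2 x.1 x'.1 else 0) =
      if (ampE eI eJ x).2 = (ampE eI eJ x').2 then
        Y (ampE eI eJ x).1 (ampE eI eJ x').1 else 0) :
    bd (eL eI eJ ρ₁ ρ₂) F = one1 Q (Matrix.reindex ρ₁ ρ₁ (Y ⊗ₖ (1 : Matrix m m ℂ))) := by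
  ext x y
  obtain ⟨x, rfl⟩ := (eL eI eJ ρ₁ ρ₂).surjective x
  obtain ⟨y, rfl⟩ := (eL eI eJ ρ₁ ρ₂).surjective y
  rw [bd_apply, Equiv.symm_apply_apply, Equiv.symm_apply_apply, hY]
  have h : ∀ z, eL eI eJ ρ₁ ρ₂ z =
      (ρ₁ ((ampE eI eJ z).1, (ampE eI eJ z).2.1), ρ₂ (ampE eI eJ z).2.2) := fun z => rfl
  rw [h, h]
  simp only [one1, Matrix.kroneckerMap_apply, Matrix.reindex_apply, Matrix.submatrix_apply,
    Equiv.symm_apply_apply, Matrix.one_apply, EmbeddingLike.apply_eq_iff_eq, Prod.ext_iff]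
  by_cases h1 : (ampE eI eJ x).2.1 = (ampE eI eJ y).2.1 <;>
  by_cases h2 : (ampE eI eJ x).2.2.1 = (ampE eI eJ y).2.2.1 <;>
  by_cases h3 : (ampE eI eJ x).2.2.2 = (ampE eI eJ y).2.2.2 <;> simp [h1, h2, h3]

theorem bd_eR (eI : I ≃ a × r) (eJ : J ≃ (m × s) ⊕ (n × (m × (r × s))))
    (ρ₁ : (a ⊕ (I × n)) × m ≃ Fin Q) (ρ₂ : r × s ≃ Fin P) (F : J → Matrix I I ℂ)
    (Y : Matrix (a ⊕ (I × n)) (a ⊕ (I × n)) ℂ) (hY : ∀ x x' : I × J,
      (if x.2 = x'.2 then F x.2 x.1 x'.1 else 0) =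
      if (ampE eI eJ x).2 = (ampE eI eJ x').2 then
        Y (ampE eI eJ x).1 (ampE eI eJ x').1 else 0) :
    bd (eR eI eJ ρ₁ ρ₂) F = one2 P (Matrix.reindex ρ₁ ρ₁ (Y ⊗ₖ (1 : Matrix m m ℂ))) := by
  have h := bd_eL eI eJ ρ₁ ρ₂ F Y hY
  ext x y
  have h2 : bd (eR eI eJ ρ₁ ρ₂) F x y = bd (eL eI eJ ρ₁ ρ₂) F x.swap y.swap := by
    rw [bd_apply, bd_apply]
    rfl
  rw [h2, h]
  simp only [one1, one2, Matrix.kroneckerMap_apply, Prod.fst_swap]
  exact mul_comm _ _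

theorem commute_one1_one2 (x : Matrix (Fin P) (Fin P) ℂ) (y : Matrix (Fin Q) (Fin Q) ℂ) :
    Commute (one1 Q x) (one2 P y) := by
  simp [Commute, SemiconjBy, one1, one2, ← Matrix.mul_kronecker_mul]

theorem commute_one1 {x y : Matrix (Fin P) (Fin P) ℂ} (h : Commute x y) :
    Commute (one1 Q x) (one1 Q y) := by
  simp only [Commute, SemiconjBy, one1, ← Matrix.mul_kronecker_mul, one_mul]
  rw [h.eq]

theorem commute_one2 {x y : Matrix (Fin Q) (Fin Q) ℂ} (h : Commute x y) :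
    Commute (one2 P x) (one2 P y) := by
  simp only [Commute, SemiconjBy, one2, ← Matrix.mul_kronecker_mul, one_mul]
  rw [h.eq]

/-- A matrix commuting with `1 ⊗ y` for all `y` is of the form `A ⊗ 1`. -/
theorem exists_left {p q : ℕ} (hq : 0 < q) (M : MM p q)
    (h : ∀ y : Matrix (Fin q) (Fin q) ℂ, Commute M (one2 p y)) :
    ∃ A : Matrix (Fin p) (Fin p) ℂ, ∀ i i', M i i' = if i.2 = i'.2 then A i.1 i'.1 else 0 := by
  refine ⟨fun i i' => M (i, ⟨0, hq⟩) (i', ⟨0, hq⟩), ?_⟩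
  rintro ⟨i, j⟩ ⟨i', r⟩
  have h1 := congrFun (congrFun (h (Matrix.single r ⟨0, hq⟩ 1)).eq (i, j)) (i', ⟨0, hq⟩)
  simpa [Matrix.mul_apply, one2, Matrix.kroneckerMap_apply, Fintype.sum_prod_type,
    Matrix.single_apply, Matrix.one_apply, ite_and, eq_comm] using h1

theorem exists_right {p q : ℕ} (hp : 0 < p) (M : MM p q)
    (h : ∀ x : Matrix (Fin p) (Fin p) ℂ, Commute M (one1 q x)) :
    ∃ A : Matrix (Fin q) (Fin q) ℂ, ∀ i i', M i i' = if i.1 = i'.1 then A i.2 i'.2 else 0 := by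
  refine ⟨fun i i' => M (⟨0, hp⟩, i) (⟨0, hp⟩, i'), ?_⟩
  rintro ⟨j, i⟩ ⟨r, i'⟩
  have h1 := congrFun (congrFun (h (Matrix.single r ⟨0, hp⟩ 1)).eq (j, i)) (⟨0, hp⟩, i')
  simpa [Matrix.mul_apply, one1, Matrix.kroneckerMap_apply, Fintype.sum_prod_type,
    Matrix.single_apply, Matrix.one_apply, ite_and, eq_comm] using h1

end Amp

end Vale.Agent.JS.PartC
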