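import Vale.Agent.P095JS.PartB
import Vale.Agent.P095JS.PartD
import Vale.Agent.P101.StmtZ

/-! Part E, first half: the limit has approximately inner half-flip. -/

open Filter Topology
open scoped Kronecker Matrix.Norms.L2Operator

namespace Vale.Agent.JS.PartE

open PartB PartD

universe u

variable {S : Seq}

theorem comp_mem (hS : S.Good) (n k : ℕ) : ∀ {f : CM (S.p n) (S.q n)}, f ∈ DD (S.p n) (S.q n) →
    S.comp n k f ∈ DD (S.p (n + k)) (S.q (n + k)) := by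
  induction k with
  | zero => intro f hf; exact hf
  | succ k ih => intro f hf; exact hS.maps (n + k) _ (ih hf)

/-- `Z` is the limit of the sequence `S`, via `ι`. -/
structure Sys (S : Seq) (hS : S.Good) (Z : Type u) [CStarAlgebra Z]
    (ι : ∀ n, DD (S.p n) (S.q n) →⋆ₐ[ℂ] Z) : Prop where
  compat : ∀ n (f : DD (S.p n) (S.q n)), ι (n + 1) ⟨S.Φ n f, hS.maps n _ f.2⟩ = ι n f
  inj : ∀ n, Function.Injective (ι n)
  dense : Dense (⋃ n, Set.range (ι n))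

variable {hS : S.Good} {Z : Type u} [CStarAlgebra Z] {ι : ∀ n, DD (S.p n) (S.q n) →⋆ₐ[ℂ] Z}

theorem Sys.comp (h : Sys S hS Z ι) (n k : ℕ) (f : DD (S.p n) (S.q n)) :
    ι (n + k) ⟨S.comp n k f, comp_mem hS n k f.2⟩ = ι n f := by
  induction k with
  | zero => rfl
  | succ k ih => exact (h.compat (n + k) ⟨S.comp n k f, comp_mem hS n k f.2⟩).trans ih

theorem Sys.range_mono (h : Sys S hS Z ι) : Monotone fun n => (ι n).range := by
  refine monotone_nat_of_le_succ fun n => ?_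
  rintro _ ⟨f, rfl⟩
  exact ⟨⟨S.Φ n f, hS.maps n _ f.2⟩, h.compat n f⟩

/-- Finitely many elements of `Z` are approximated at one stage. -/
theorem Sys.exists_approx (h : Sys S hS Z ι) (F : Finset Z) {δ : ℝ} (hδ : 0 < δ) :
    ∃ n, ∀ x ∈ F, ∃ f : DD (S.p n) (S.q n), ‖ι n f - x‖ < δ := by
  classical
  induction F using Finset.induction_on with
  | empty => exact ⟨0, fun x hx => absurd hx (Finset.notMem_empty x)⟩
  | insert a F ha ih =>
    obtain ⟨n, hn⟩ := ih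
    obtain ⟨y, hy, hya⟩ := Metric.dense_iff.1 h.dense a δ hδ
    obtain ⟨_, ⟨m, rfl⟩, ⟨g, rfl⟩⟩ := hya
    refine ⟨max n m, fun x hx => ?_⟩
    rcases Finset.mem_insert.1 hx with rfl | hx
    · obtain ⟨f, hf⟩ := h.range_mono (le_max_right n m) ⟨g, rfl⟩
      refine ⟨f, ?_⟩
      have hf' : ι (max n m) f = ι m g := hf
      rw [hf', ← dist_eq_norm]
      exact hy
    · obtain ⟨g, hg⟩ := hn x hx
      obtain ⟨f, hf⟩ := h.range_mono (le_max_left n m) ⟨g, rfl⟩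
      refine ⟨f, ?_⟩
      have hf' : ι (max n m) f = ι n g := hf
      rw [hf']
      exact hg

theorem est_conj {B : Type u} [CStarAlgebra B] {v : B} (hv : v ∈ unitary B) {a a' b b' : B}
    {c δ : ℝ} (h1 : ‖v * a' * star v - b'‖ ≤ c) (h2 : ‖a' - a‖ ≤ δ) (h3 : ‖b' - b‖ ≤ δ) :
    ‖v * a * star v - b‖ ≤ c + 2 * δ := by
  have h4 : ‖v * a * star v - v * a' * star v‖ ≤ δ := by
    rw [norm_conj_sub hv, norm_sub_rev]; exact h2
  have h5 := norm_sub_le_norm_sub_add_norm_sub (v * a * star v) (v * a' * star v) b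
  have h6 := norm_sub_le_norm_sub_add_norm_sub (v * a' * star v) b' b
  linarith

/-- Approximately inner half-flip. -/
theorem Sys.halfFlip (h : Sys S hS Z ι) (B : Type u) [CStarAlgebra B] : P101.HalfFlip Z B := by
  refine ⟨fun φ ψ hφψ F ε hε => ?_⟩
  obtain ⟨u, hu, hu0, hcol⟩ := hS.collapse
  set δ := ε / 7 with hδ
  have hδ0 : 0 < δ := by positivity
  obtain ⟨n, hn⟩ := h.exists_approx F hδ0
  choose! g hg using hn
  have hk : ∀ x ∈ F, ∀ᶠ k in atTop, ∀ s,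
      ‖S.comp n k (g x) s - u n k s * S.comp n k (g x) 0 * star (u n k s)‖ ≤ δ := fun x _ =>
    eventually_atTop.2 (hcol n (g x) δ hδ0)
  obtain ⟨k, hk⟩ := ((F.eventually_all).2 hk).exists
  have hp := hS.p_pos (n + k)
  have hq := hS.q_pos (n + k)
  obtain ⟨W, hW, hWu, hWf⟩ := PartD.main _ _ hp hq (u n k) (hu n k) (hu0 n k)
  obtain ⟨Θ, hΘl, hΘr, hΘn⟩ := PartB.main _ _ hp hq B (φ.comp (ι (n + k))) (ψ.comp (ι (n + k)))
    (fun x y => hφψ _ _)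
  have hWW : (⟨W, hW⟩ : EE (S.p (n + k)) (S.q (n + k))) ∈
      unitary (EE (S.p (n + k)) (S.q (n + k))) := by
    rw [Unitary.mem_iff]
    constructor
    · ext z : 2
      exact (Unitary.mem_iff.1 (hWu z)).1
    · ext z : 2
      exact (Unitary.mem_iff.1 (hWu z)).2
  have hv : Θ ⟨W, hW⟩ ∈ unitary B := by
    rw [Unitary.mem_iff] at hWW ⊢
    rw [← map_star, ← map_mul, ← map_mul, hWW.1, hWW.2, map_one]
    exact ⟨rfl, rfl⟩
  refine ⟨Θ ⟨W, hW⟩, hv, fun x hx => ?_⟩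
  set f : DD (S.p (n + k)) (S.q (n + k)) := ⟨S.comp n k (g x), comp_mem hS n k (g x).2⟩ with hf
  have hιf : ι (n + k) f = ι n (g x) := h.comp n k (g x)
  have h1 : ‖Θ ⟨W, hW⟩ * φ (ι (n + k) f) * star (Θ ⟨W, hW⟩) - ψ (ι (n + k) f)‖ ≤ 4 * δ := by
    have e1 : φ (ι (n + k) f) = Θ ⟨lft (f : CM _ _), lft_mem f.2⟩ := (hΘl f).symm
    have e2 : ψ (ι (n + k) f) = Θ ⟨rgt (f : CM _ _), rgt_mem f.2⟩ := (hΘr f).symm
    rw [e1, e2, ← map_star, ← map_mul, ← map_mul, ← map_sub]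
    refine (hΘn _).trans ?_
    exact hWf f f.2 δ hδ0.le (hk x hx)
  rw [hιf] at h1
  have h2 : ‖φ (ι n (g x)) - φ x‖ ≤ δ := by
    rw [← map_sub]
    exact (NonUnitalStarAlgHom.norm_apply_le (φ : Z →⋆ₙₐ[ℂ] B) _).trans (hg x hx).le
  have h3 : ‖ψ (ι n (g x)) - ψ x‖ ≤ δ := by
    rw [← map_sub]
    exact (NonUnitalStarAlgHom.norm_apply_le (ψ : Z →⋆ₙₐ[ℂ] B) _).trans (hg x hx).le
  refine (est_conj hv h1 h2 h3).trans_lt ?_
  rw [hδ]; linarith

theorem mem_DD_iff {p q : ℕ} (hp : 0 < p) (hq : 0 < q) (f : CM p q) : f ∈ DD p q ↔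
    (∃ x : Matrix (Fin p) (Fin p) ℂ, f 0 = x ⊗ₖ (1 : Matrix (Fin q) (Fin q) ℂ)) ∧
      (∃ y : Matrix (Fin q) (Fin q) ℂ, f 1 = (1 : Matrix (Fin p) (Fin p) ℂ) ⊗ₖ y) := by
  constructor
  · intro hf
    obtain ⟨x, hx⟩ := exists_one1 hq hf.1
    obtain ⟨y, hy⟩ := exists_one2 hp hf.2
    exact ⟨⟨x, hx⟩, ⟨y, hy⟩⟩
  · rintro ⟨⟨x, hx⟩, ⟨y, hy⟩⟩
    refine ⟨fun z => ?_, fun z => ?_⟩
    · rw [hx]
      exact one1_comm x z
    · rw [hy]
      exact (one1_comm z y).symm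

/-- The limit is a Jiang-Su algebra. -/
theorem Sys.isJiangSuAlgebra (h : Sys S hS Z ι) : P101.IsJiangSuAlgebra Z := by
  refine ⟨⟨S.p, S.q, fun n => (ι n).range, h.range_mono, fun n => ⟨hS.p_pos n, hS.q_pos n,
    hS.coprime n, ⟨⟨DD (S.p n) (S.q n), mem_DD_iff (hS.p_pos n) (hS.q_pos n),
      ⟨StarAlgEquiv.ofInjective (ι n) (h.inj n)⟩⟩⟩⟩, ?_⟩, fun B _ => h.halfFlip B⟩
  exact h.dense

end Vale.Agent.JS.PartE
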