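import Vale.Agent.P095JS.PartE1
import Vale.Agent.P101.StmtChar

/-! Part E, second half: the central sequence algebra of the limit has no characters. -/

open Filter Topology
open scoped Kronecker Matrix.Norms.L2Operator

namespace Vale.Agent.JS.PartE

open PartB PartD

universe u

/-! ### Conjugates of a matrix by a path of unitaries -/

section cone

variable {p q : ℕ}

/-- The path `l(s) w(s) z w(s)*`. -/
noncomputable def cone (l : C(unitInterval, ℂ)) (w : CM p q) (z : MM p q) : CM p q :=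
  ⟨fun s => l s • (w s * z * star (w s)),
    l.continuous.smul ((w.continuous.mul continuous_const).mul w.continuous.star)⟩

@[simp] theorem cone_apply (l : C(unitInterval, ℂ)) (w : CM p q) (z : MM p q) (s) :
    cone l w z s = l s • (w s * z * star (w s)) := rfl

theorem conj_mul_conj {M : Type*} [Ring M] [StarRing M] {w : M} (hw : star w * w = 1) (a b : M) :
    (w * a * star w) * (w * b * star w) = w * (a * b) * star w := by
  calc (w * a * star w) * (w * b * star w) = w * a * (star w * w) * b * star w := by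
        simp only [mul_assoc]
    _ = w * (a * b) * star w := by rw [hw, mul_one]; simp only [mul_assoc]

theorem cone_sq (l : C(unitInterval, ℂ)) {w : CM p q} (hw : ∀ s, w s ∈ unitary (MM p q))
    {z : MM p q} (hz : z * z = 0) : cone l w z * cone l w z = 0 := by
  ext s : 1
  rw [ContinuousMap.mul_apply, cone_apply, smul_mul_smul_comm,
    conj_mul_conj (Unitary.mem_iff.1 (hw s)).1, hz, mul_zero, zero_mul, smul_zero]
  rfl

theorem cone_sum {κ : Type*} [Fintype κ] (l : C(unitInterval, ℂ)) {w : CM p q}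
    (hw : ∀ s, w s ∈ unitary (MM p q)) {z : κ → MM p q} (hz : ∑ i, star (z i) * z i = 1)
    (s : unitInterval) :
    (∑ i, star (cone l w (z i)) * cone l w (z i)) s = (star (l s) * l s) • (1 : MM p q) := by
  have h : ∀ i, (star (cone l w (z i)) * cone l w (z i)) s =
      (star (l s) * l s) • (w s * (star (z i) * z i) * star (w s)) := fun i => by
    rw [ContinuousMap.mul_apply, ContinuousMap.star_apply, cone_apply, star_smul,
      smul_mul_smul_comm, ← conj_mul_conj (Unitary.mem_iff.1 (hw s)).1]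
    simp only [star_mul, star_star, mul_assoc]
  rw [ContinuousMap.sum_apply]
  simp only [h]
  rw [← Finset.smul_sum, ← Finset.sum_mul, ← Finset.mul_sum, hz, mul_one,
    (Unitary.mem_iff.1 (hw s)).2]

theorem comm_est {M : Type*} [CStarAlgebra M] {w z c g : M} (hw : w ∈ unitary M) (hz : ‖z‖ ≤ 1)
    (h : Commute c z) {δ : ℝ} (hδ : ‖g - w * c * star w‖ ≤ δ) :
    ‖(w * z * star w) * g - g * (w * z * star w)‖ ≤ 2 * δ := by
  have h1 : (w * z * star w) * (w * c * star w) = (w * c * star w) * (w * z * star w) := by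
    rw [conj_mul_conj (Unitary.mem_iff.1 hw).1, conj_mul_conj (Unitary.mem_iff.1 hw).1, h.eq]
  have h2 : (w * z * star w) * g - g * (w * z * star w) =
      (w * z * star w) * (g - w * c * star w) - (g - w * c * star w) * (w * z * star w) := by
    rw [mul_sub, sub_mul, h1]; abel
  have h3 : ‖w * z * star w‖ ≤ 1 := by rw [norm_conj hw]; exact hz
  have hδ0 : 0 ≤ δ := (norm_nonneg _).trans hδ
  rw [h2]
  calc _ ≤ ‖(w * z * star w) * (g - w * c * star w)‖ + ‖(g - w * c * star w) * (w * z * star w)‖ :=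
        norm_sub_le _ _
    _ ≤ ‖w * z * star w‖ * ‖g - w * c * star w‖ + ‖g - w * c * star w‖ * ‖w * z * star w‖ :=
        add_le_add (norm_mul_le _ _) (norm_mul_le _ _)
    _ ≤ 1 * δ + δ * 1 := by gcongr
    _ = 2 * δ := by ring

theorem cone_comm {l : C(unitInterval, ℂ)} (hl : ∀ s, ‖l s‖ ≤ 1) {w : CM p q}
    (hw : ∀ s, w s ∈ unitary (MM p q)) {z c : MM p q} (hz : ‖z‖ ≤ 1) (h : Commute c z) {g : CM p q}
    {δ : ℝ} (hδ0 : 0 ≤ δ) (hδ : ∀ s, ‖g s - w s * c * star (w s)‖ ≤ δ) :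
    ‖cone l w z * g - g * cone l w z‖ ≤ 2 * δ := by
  refine (ContinuousMap.norm_le _ (by linarith)).2 fun s => ?_
  rw [ContinuousMap.sub_apply, ContinuousMap.mul_apply, ContinuousMap.mul_apply, cone_apply,
    smul_mul_assoc, mul_smul_comm, ← smul_sub, norm_smul]
  calc _ ≤ 1 * (2 * δ) := mul_le_mul (hl s) (comm_est (hw s) hz h (hδ s)) (norm_nonneg _) zero_le_one
    _ = 2 * δ := one_mul _

/-- `cos (π s / 2)` and `sin (π s / 2)`. -/
noncomputable def l0 : C(unitInterval, ℂ) :=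
  ⟨fun s => ((Real.cos (Real.pi / 2 * (s : ℝ)) : ℝ) : ℂ), by fun_prop⟩
noncomputable def l1 : C(unitInterval, ℂ) :=
  ⟨fun s => ((Real.sin (Real.pi / 2 * (s : ℝ)) : ℝ) : ℂ), by fun_prop⟩

theorem l0_one : l0 1 = 0 := by simp [l0]
theorem l1_zero : l1 0 = 0 := by simp [l1]
theorem l0_zero : l0 0 = 1 := by simp [l0]
theorem l1_one : l1 1 = 1 := by simp [l1]
theorem norm_l0 (s) : ‖l0 s‖ ≤ 1 := by
  change ‖((Real.cos (Real.pi / 2 * (s : ℝ)) : ℝ) : ℂ)‖ ≤ 1
  rw [Complex.norm_real]; exact Real.abs_cos_le_one _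
theorem norm_l1 (s) : ‖l1 s‖ ≤ 1 := by
  change ‖((Real.sin (Real.pi / 2 * (s : ℝ)) : ℝ) : ℂ)‖ ≤ 1
  rw [Complex.norm_real]; exact Real.abs_sin_le_one _
theorem l01 (s) : star (l0 s) * l0 s + star (l1 s) * l1 s = 1 := by
  change star ((Real.cos (Real.pi / 2 * (s : ℝ)) : ℝ) : ℂ) *
    ((Real.cos (Real.pi / 2 * (s : ℝ)) : ℝ) : ℂ) + star ((Real.sin (Real.pi / 2 * (s : ℝ)) : ℝ) : ℂ) *
    ((Real.sin (Real.pi / 2 * (s : ℝ)) : ℝ) : ℂ) = 1
  rw [Complex.star_def, Complex.conj_ofReal, Complex.conj_ofReal]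
  have := Real.cos_sq_add_sin_sq (Real.pi / 2 * (s : ℝ))
  norm_cast
  nlinarith

end cone

/-! ### Partitions of unity by nilpotents -/

theorem norm_le_one_of_sum {M : Type*} [CStarAlgebra M] {κ : Type*} [Fintype κ]
    {z : κ → M} (hz : ∑ i, star (z i) * z i = 1) (i : κ) : ‖z i‖ ≤ 1 := by
  classical
  let _ := CStarAlgebra.spectralOrder M
  have := CStarAlgebra.spectralOrderedRing M
  have h1 : star (z i) * z i ≤ 1 := by
    rw [← hz]
    exact Finset.single_le_sum (f := fun i => star (z i) * z i)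
      (fun j _ => star_mul_self_nonneg (z j)) (Finset.mem_univ i)
  have h2 : ‖star (z i) * z i‖ ≤ 1 := by
    rcases subsingleton_or_nontrivial M with hM | hM
    · rw [Subsingleton.elim (star (z i) * z i) 0, norm_zero]; exact zero_le_one
    · exact (CStarAlgebra.norm_le_one_iff_of_nonneg _ (star_mul_self_nonneg _)).2 h1
  rw [CStarRing.norm_star_mul_self] at h2
  nlinarith [norm_nonneg (z i)]

/-- Every finite set commutes up to `ε` with a partition of unity by nilpotents. -/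
structure HasNil (κ : Type) [Fintype κ] (A : Type u) [CStarAlgebra A] : Prop where
  ex : ∀ (F : Finset A) (ε : ℝ), 0 < ε → ∃ z : κ → A, (∀ i, z i * z i = 0) ∧
    ∑ i, star (z i) * z i = 1 ∧ ∀ i, ∀ a ∈ F, ‖z i * a - a * z i‖ ≤ ε

theorem HasNil.no_char {κ : Type} [Fintype κ] {A : Type u} [CStarAlgebra A]
    [TopologicalSpace.SeparableSpace A] (h : HasNil κ A) (ω : Ultrafilter ℕ)
    (hω : (ω : Filter ℕ) ≤ Filter.cofinite) :
    ¬ ∃ χ : (ℕ → A) → ℂ, P101.IsCharacter (ω : Filter ℕ) χ := by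
  classical
  rintro ⟨χ, hχ⟩
  choose z hz0 hz1 hzc using fun n : ℕ => h.ex
    ((Finset.range (n + 1)).image (TopologicalSpace.denseSeq A)) (1 / ((n : ℝ) + 1)) (by positivity)
  have hcen : ∀ i, P101.IsCentral (ω : Filter ℕ) (fun n => z n i) := by
    intro i
    have hb : ∀ n, ‖z n i‖ ≤ 1 := fun n => norm_le_one_of_sum (hz1 n) i
    refine ⟨⟨1, hb⟩, fun a => ?_⟩
    refine Tendsto.mono_left ?_ hω
    rw [Nat.cofinite_eq_atTop]
    refine Metric.tendsto_atTop.2 fun ε hε => ?_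
    obtain ⟨y, hy, ⟨m, rfl⟩⟩ := Metric.dense_iff.1 (TopologicalSpace.denseRange_denseSeq A) a
      (ε / 4) (by positivity)
    obtain ⟨K, hK⟩ := exists_nat_one_div_lt (show (0:ℝ) < ε / 4 by positivity)
    refine ⟨max m K, fun n hn => ?_⟩
    rw [Real.dist_eq, sub_zero, abs_norm]
    set y := TopologicalSpace.denseSeq A m with hy'
    have hya : ‖a - y‖ ≤ ε / 4 := by
      rw [← dist_eq_norm, dist_comm]; exact (Metric.mem_ball.1 hy).le
    have h1 : ‖z n i * y - y * z n i‖ ≤ 1 / ((n : ℝ) + 1) := hzc n i y (Finset.mem_image.2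
      ⟨m, Finset.mem_range.2 (Nat.lt_succ_of_le ((le_max_left _ _).trans hn)), rfl⟩)
    have h2 : 1 / ((n : ℝ) + 1) ≤ 1 / ((K : ℝ) + 1) := by
      apply one_div_le_one_div_of_le (by positivity)
      have : (K : ℝ) ≤ n := by exact_mod_cast (le_max_right _ _).trans hn
      linarith
    have h3 : z n i * a - a * z n i =
        z n i * (a - y) - (a - y) * z n i + (z n i * y - y * z n i) := by
      rw [mul_sub, sub_mul]; abel
    rw [h3]
    calc _ ≤ ‖z n i * (a - y) - (a - y) * z n i‖ + ‖z n i * y - y * z n i‖ := norm_add_le _ _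
      _ ≤ (‖z n i * (a - y)‖ + ‖(a - y) * z n i‖) + ‖z n i * y - y * z n i‖ := by
          gcongr; exact norm_sub_le _ _
      _ ≤ (‖z n i‖ * ‖a - y‖ + ‖a - y‖ * ‖z n i‖) + ‖z n i * y - y * z n i‖ := by
          gcongr <;> exact norm_mul_le _ _
      _ ≤ (1 * (ε / 4) + (ε / 4) * 1) + 1 / ((n : ℝ) + 1) := by
          gcongr <;> exact hb n
      _ < ε := by linarith
  have hcenS : ∀ i, P101.IsCentral (ω : Filter ℕ) (star (fun n => z n i)) := fun i => by
    refine ⟨⟨1, fun n => ?_⟩, fun a => ?_⟩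
    · rw [Pi.star_apply, norm_star]; exact norm_le_one_of_sum (hz1 n) i
    · have := (hcen i).central (star a)
      refine this.congr fun n => ?_
      rw [Pi.star_apply, ← norm_star, star_sub, star_mul, star_mul, star_star, norm_sub_rev]
  have hmul : ∀ {x y : ℕ → A}, P101.IsCentral (ω : Filter ℕ) x → P101.IsCentral (ω : Filter ℕ) y →
      P101.IsCentral (ω : Filter ℕ) (x * y) := by
    intro x y hx hy
    obtain ⟨C, hC⟩ := hx.bounded
    obtain ⟨D, hD⟩ := hy.bounded
    have hC0 : 0 ≤ C := (norm_nonneg _).trans (hC 0)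
    refine ⟨⟨C * D, fun n => (norm_mul_le _ _).trans
      (mul_le_mul (hC n) (hD n) (norm_nonneg _) hC0)⟩, fun a => ?_⟩
    have h1 := ((hy.central a).const_mul C).add ((hx.central a).mul_const D)
    rw [mul_zero, zero_mul, add_zero] at h1
    refine squeeze_zero (fun n => norm_nonneg _) (fun n => ?_) h1
    have h2 : x n * y n * a - a * (x n * y n) =
        x n * (y n * a - a * y n) + (x n * a - a * x n) * y n := by
      rw [mul_sub, sub_mul]; simp only [mul_assoc]; abel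
    calc ‖(x * y) n * a - a * (x * y) n‖ = ‖x n * (y n * a - a * y n) + (x n * a - a * x n) * y n‖ := by
          rw [← h2]; rfl
      _ ≤ ‖x n * (y n * a - a * y n)‖ + ‖(x n * a - a * x n) * y n‖ := norm_add_le _ _
      _ ≤ ‖x n‖ * ‖y n * a - a * y n‖ + ‖x n * a - a * x n‖ * ‖y n‖ :=
          add_le_add (norm_mul_le _ _) (norm_mul_le _ _)
      _ ≤ C * ‖y n * a - a * y n‖ + ‖x n * a - a * x n‖ * D := by
          gcongr
          · exact hC n
          · exact hD n
  have hzero : ∀ i, χ (fun n => z n i) = 0 := fun i => by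
    have h1 : χ ((fun n => z n i) * fun n => z n i) = 0 := by
      refine hχ.null _ (hmul (hcen i) (hcen i)) ?_
      have : (fun n => ‖((fun n => z n i) * fun n => z n i) n‖) = fun _ => (0 : ℝ) := by
        funext n
        rw [Pi.mul_apply, hz0 n i, norm_zero]
      rw [this]
      exact tendsto_const_nhds
    rw [hχ.mul _ _ (hcen i) (hcen i)] at h1
    exact mul_self_eq_zero.1 h1
  have hzero' : ∀ i, χ (star (fun n => z n i) * fun n => z n i) = 0 := fun i => by
    rw [hχ.mul _ _ (hcenS i) (hcen i), hzero i, mul_zero]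
  have h0cen : P101.IsCentral (ω : Filter ℕ) (0 : ℕ → A) :=
    ⟨⟨0, fun n => by simp⟩, fun a => by simp⟩
  have hsum : ∀ T : Finset κ, P101.IsCentral (ω : Filter ℕ)
      (∑ i ∈ T, star (fun n => z n i) * fun n => z n i) ∧
      χ (∑ i ∈ T, star (fun n => z n i) * fun n => z n i) = 0 := by
    intro T
    induction T using Finset.induction_on with
    | empty =>
      rw [Finset.sum_empty]
      exact ⟨h0cen, hχ.null _ h0cen (by simp)⟩
    | insert i T hi ih =>
      rw [Finset.sum_insert hi]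
      have hm := hmul (hcenS i) (hcen i)
      refine ⟨?_, ?_⟩
      · obtain ⟨C, hC⟩ := hm.bounded
        obtain ⟨D, hD⟩ := ih.1.bounded
        refine ⟨⟨C + D, fun n => (norm_add_le _ _).trans (add_le_add (hC n) (hD n))⟩, fun a => ?_⟩
        have h1 := (hm.central a).add (ih.1.central a)
        rw [add_zero] at h1
        refine squeeze_zero (fun n => norm_nonneg _) (fun n => ?_) h1
        refine le_trans (le_of_eq ?_) (norm_add_le _ _)
        rw [Pi.add_apply, add_mul, mul_add]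
        congr 1
        abel
      · rw [hχ.add _ _ hm ih.1, hzero' i, ih.2, add_zero]
  have hone : (∑ i, star (fun n => z n i) * fun n => z n i) = (1 : ℕ → A) := by
    funext n
    rw [Finset.sum_apply]
    exact hz1 n
  have := (hsum Finset.univ).2
  rw [hone, hχ.one] at this
  exact one_ne_zero this

/-! ### The limit algebra -/

variable {S : Seq} {hS : S.Good} {Z : Type u} [CStarAlgebra Z]
  {ι : ∀ n, DD (S.p n) (S.q n) →⋆ₐ[ℂ] Z}

theorem norm_o1_le {p q : ℕ} {x : Matrix (Fin p) (Fin p) ℂ} (hx : ‖x‖ ≤ 1) :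
    ‖one1 q x‖ ≤ 1 :=
  (NonUnitalStarAlgHom.norm_apply_le
    ((o1 : Matrix (Fin p) (Fin p) ℂ →⋆ₐ[ℂ] MM p q) : Matrix (Fin p) (Fin p) ℂ →⋆ₙₐ[ℂ] MM p q)
    x).trans hx

theorem norm_o2_le {p q : ℕ} {x : Matrix (Fin q) (Fin q) ℂ} (hx : ‖x‖ ≤ 1) :
    ‖one2 p x‖ ≤ 1 :=
  (NonUnitalStarAlgHom.norm_apply_le
    ((o2 : Matrix (Fin q) (Fin q) ℂ →⋆ₐ[ℂ] MM p q) : Matrix (Fin q) (Fin q) ℂ →⋆ₙₐ[ℂ] MM p q)
    x).trans hx

/-- The elements of the dimension drop algebra. -/
theorem dim_elements {p q : ℕ} {u : CM p q} (hu : ∀ s, u s ∈ unitary (MM p q)) (hu0 : u 0 = 1)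
    {x : Fin 2 → Matrix (Fin p) (Fin p) ℂ} (hx : ∀ i, x i * x i = 0)
    (hx1 : ∑ i, star (x i) * x i = 1)
    {y : Fin 3 → Matrix (Fin q) (Fin q) ℂ} (hy : ∀ i, y i * y i = 0)
    (hy1 : ∑ i, star (y i) * y i = 1) :
    ∃ z : Fin 2 ⊕ Fin 3 → DD p q, (∀ i, z i * z i = 0) ∧ ∑ i, star (z i) * z i = 1 ∧
      ∀ (g : CM p q), (∀ i, Commute (g 0) (one1 q (x i))) → (∀ i, Commute (g 1) (one2 p (y i))) →
        ∀ δ : ℝ, 0 ≤ δ → (∀ s, ‖g s - u s * g 0 * star (u s)‖ ≤ δ) →
        ∀ i, ‖(z i : CM p q) * g - g * (z i : CM p q)‖ ≤ 4 * δ := by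
  classical
  have hu1 := Unitary.mem_iff.1 (hu 1)
  let w : CM p q := ⟨fun s => u s * star (u 1), u.continuous.mul continuous_const⟩
  have hw : ∀ s, w s ∈ unitary (MM p q) := fun s => mul_mem (hu s) (Unitary.star_mem (hu 1))
  have hw1 : w 1 = 1 := hu1.2
  have m1 : ∀ i, cone l0 u (one1 q (x i)) ∈ DD p q := fun i => by
    refine ⟨fun t => ?_, fun t => ?_⟩
    · rw [cone_apply, hu0, l0_zero, one_smul, star_one, one_mul, mul_one]
      exact one1_comm _ _
    · rw [cone_apply, l0_one, zero_smul]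
      exact Commute.zero_left _
  have m2 : ∀ i, cone l1 w (one2 p (y i)) ∈ DD p q := fun i => by
    refine ⟨fun t => ?_, fun t => ?_⟩
    · rw [cone_apply, l1_zero, zero_smul]
      exact Commute.zero_left _
    · rw [cone_apply, hw1, l1_one, one_smul, star_one, one_mul, mul_one]
      exact (one1_comm _ _).symm
  have hx2 : ∀ i, one1 q (x i) * one1 q (x i) = 0 := fun i => by
    have := map_mul (o1 : Matrix (Fin p) (Fin p) ℂ →⋆ₐ[ℂ] MM p q) (x i) (x i)
    rw [hx i, map_zero] at this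
    exact this.symm
  have hy2 : ∀ i, one2 p (y i) * one2 p (y i) = 0 := fun i => by
    have := map_mul (o2 : Matrix (Fin q) (Fin q) ℂ →⋆ₐ[ℂ] MM p q) (y i) (y i)
    rw [hy i, map_zero] at this
    exact this.symm
  have hx3 : ∑ i, star (one1 q (x i)) * one1 q (x i) = 1 := by
    have := congrArg (o1 : Matrix (Fin p) (Fin p) ℂ →⋆ₐ[ℂ] MM p q) hx1
    rw [map_sum, map_one] at this
    rw [← this]
    refine Finset.sum_congr rfl fun i _ => ?_
    rw [map_mul, map_star]
    rfl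
  have hy3 : ∑ i, star (one2 p (y i)) * one2 p (y i) = 1 := by
    have := congrArg (o2 : Matrix (Fin q) (Fin q) ℂ →⋆ₐ[ℂ] MM p q) hy1
    rw [map_sum, map_one] at this
    rw [← this]
    refine Finset.sum_congr rfl fun i _ => ?_
    rw [map_mul, map_star]
    rfl
  refine ⟨Sum.elim (fun i => ⟨cone l0 u (one1 q (x i)), m1 i⟩)
    (fun i => ⟨cone l1 w (one2 p (y i)), m2 i⟩), ?_, ?_, ?_⟩
  · rintro (i | i)
    · exact Subtype.ext (cone_sq l0 hu (hx2 i))
    · exact Subtype.ext (cone_sq l1 hw (hy2 i))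
  · rw [Fintype.sum_sum_type]
    apply Subtype.ext
    have e1 : ((∑ i, star (⟨cone l0 u (one1 q (x i)), m1 i⟩ : DD p q) *
        ⟨cone l0 u (one1 q (x i)), m1 i⟩ : DD p q) : CM p q) =
        ∑ i, star (cone l0 u (one1 q (x i))) * cone l0 u (one1 q (x i)) := by
      rw [AddSubmonoidClass.coe_finsetSum]
      rfl
    have e2 : ((∑ i, star (⟨cone l1 w (one2 p (y i)), m2 i⟩ : DD p q) *
        ⟨cone l1 w (one2 p (y i)), m2 i⟩ : DD p q) : CM p q) =
        ∑ i, star (cone l1 w (one2 p (y i))) * cone l1 w (one2 p (y i)) := by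
      rw [AddSubmonoidClass.coe_finsetSum]
      rfl
    change ((∑ i, star (⟨cone l0 u (one1 q (x i)), m1 i⟩ : DD p q) *
        ⟨cone l0 u (one1 q (x i)), m1 i⟩ : DD p q) : CM p q) +
      ((∑ i, star (⟨cone l1 w (one2 p (y i)), m2 i⟩ : DD p q) *
        ⟨cone l1 w (one2 p (y i)), m2 i⟩ : DD p q) : CM p q) = 1
    rw [e1, e2]
    ext s : 1
    rw [ContinuousMap.add_apply, cone_sum l0 hu hx3, cone_sum l1 hw hy3, ← add_smul, l01, one_smul]
    rfl
  · rintro g hg0 hg1 δ hδ0 hδ (i | i)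
    · refine (cone_comm norm_l0 hu (norm_o1_le (norm_le_one_of_sum hx1 i)) (hg0 i) hδ0 hδ).trans ?_
      linarith
    · refine (cone_comm norm_l1 hw (norm_o2_le (norm_le_one_of_sum hy1 i)) (hg1 i)
        (mul_nonneg zero_le_two hδ0) fun s => ?_).trans (le_of_eq (by ring))
      have h1 : w s * (u 1 * g 0 * star (u 1)) * star (w s) = u s * g 0 * star (u s) := by
        change u s * star (u 1) * (u 1 * g 0 * star (u 1)) * star (u s * star (u 1)) = _
        rw [star_mul, star_star]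
        calc u s * star (u 1) * (u 1 * g 0 * star (u 1)) * (u 1 * star (u s))
            = u s * (star (u 1) * u 1) * g 0 * (star (u 1) * u 1) * star (u s) := by
              simp only [mul_assoc]
          _ = _ := by rw [hu1.1, mul_one, mul_one]
      have h2 : ‖u s * g 0 * star (u s) - w s * g 1 * star (w s)‖ ≤ δ := by
        rw [← h1, norm_conj_sub (hw s), norm_sub_rev]
        exact hδ 1
      have h3 := norm_sub_le_norm_sub_add_norm_sub (g s) (u s * g 0 * star (u s))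
        (w s * g 1 * star (w s))
      linarith [hδ s]

theorem map_sum_rel {p q : ℕ} (φ : DD p q →⋆ₐ[ℂ] Z) {κ : Type*} [Fintype κ] {z : κ → DD p q}
    (h : ∑ i, star (z i) * z i = 1) : ∑ i, star (φ (z i)) * φ (z i) = 1 := by
  rw [← map_one φ, ← h, map_sum]
  refine Finset.sum_congr rfl fun i _ => ?_
  rw [map_mul, map_star]

theorem map_sq_rel {p q : ℕ} (φ : DD p q →⋆ₐ[ℂ] Z) {z : DD p q} (h : z * z = 0) :
    φ z * φ z = 0 := by
  rw [← map_mul, h, map_zero]

theorem map_comm_le {p q : ℕ} (φ : DD p q →⋆ₐ[ℂ] Z) (z f : DD p q) {c : ℝ}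
    (h : ‖(z : CM p q) * f - f * (z : CM p q)‖ ≤ c) : ‖φ z * φ f - φ f * φ z‖ ≤ c := by
  rw [← map_mul, ← map_mul, ← map_sub]
  exact (norm_hom_le _ _).trans h

theorem Sys.hasNil (h : Sys S hS Z ι) : HasNil (Fin 2 ⊕ Fin 3) Z := by
  classical
  refine ⟨fun F ε hε => ?_⟩
  obtain ⟨u, hu, hu0, hcol⟩ := hS.collapse
  set δ := ε / 6 with hδ
  have hδ0 : 0 < δ := by positivity
  obtain ⟨n, hn⟩ := h.exists_approx F hδ0
  choose! g hg using hn
  have hk : ∀ x ∈ F, ∀ᶠ k in atTop, ∀ s,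
      ‖S.comp n k (g x) s - u n k s * S.comp n k (g x) 0 * star (u n k s)‖ ≤ δ := fun x _ =>
    eventually_atTop.2 (hcol n (g x) δ hδ0)
  obtain ⟨k, hk, hk1⟩ := (((F.eventually_all).2 hk).and (eventually_ge_atTop 1)).exists
  obtain ⟨k, rfl⟩ : ∃ k', k = k' + 1 := ⟨k - 1, by omega⟩
  obtain ⟨x, hx, hx1, hxc⟩ := hS.left (n + k)
  obtain ⟨y, hy, hy1, hyc⟩ := hS.right (n + k)
  obtain ⟨z, hz, hz1, hzc⟩ := dim_elements (hu n (k + 1)) (hu0 n (k + 1)) hx hx1 hy hy1
  refine ⟨fun i => ι (n + (k + 1)) (z i), fun i => map_sq_rel _ (hz i), map_sum_rel _ hz1, ?_⟩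
  · intro i a ha
    have hzi : ‖ι (n + (k + 1)) (z i)‖ ≤ 1 := 
      norm_le_one_of_sum (z := fun i => ι (n + (k + 1)) (z i)) (map_sum_rel _ hz1) i
    set f : DD (S.p (n + (k + 1))) (S.q (n + (k + 1))) :=
      ⟨S.comp n (k + 1) (g a), comp_mem hS n (k + 1) (g a).2⟩ with hf
    have hιf : ι (n + (k + 1)) f = ι n (g a) := h.comp n (k + 1) (g a)
    have h1 : ‖ι (n + (k + 1)) (z i) * ι n (g a) - ι n (g a) * ι (n + (k + 1)) (z i)‖ ≤ 4 * δ := by
      rw [← hιf]
      refine map_comm_le _ _ _ ?_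
      exact hzc (S.comp n (k + 1) (g a)) (fun j => hxc _ (comp_mem hS n k (g a).2) j)
        (fun j => hyc _ (comp_mem hS n k (g a).2) j) δ hδ0.le (hk a ha) i
    have h2 : ι (n + (k + 1)) (z i) * a - a * ι (n + (k + 1)) (z i) =
        (ι (n + (k + 1)) (z i) * ι n (g a) - ι n (g a) * ι (n + (k + 1)) (z i)) -
        (ι (n + (k + 1)) (z i) * (ι n (g a) - a) - (ι n (g a) - a) * ι (n + (k + 1)) (z i)) := by
      rw [mul_sub, sub_mul]; abel
    rw [h2]
    calc _ ≤ ‖ι (n + (k + 1)) (z i) * ι n (g a) - ι n (g a) * ι (n + (k + 1)) (z i)‖ +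
          ‖ι (n + (k + 1)) (z i) * (ι n (g a) - a) - (ι n (g a) - a) * ι (n + (k + 1)) (z i)‖ :=
          norm_sub_le _ _
      _ ≤ 4 * δ + (‖ι (n + (k + 1)) (z i) * (ι n (g a) - a)‖ +
          ‖(ι n (g a) - a) * ι (n + (k + 1)) (z i)‖) := add_le_add h1 (norm_sub_le _ _)
      _ ≤ 4 * δ + (‖ι (n + (k + 1)) (z i)‖ * ‖ι n (g a) - a‖ +
          ‖ι n (g a) - a‖ * ‖ι (n + (k + 1)) (z i)‖) := by
          gcongr <;> exact norm_mul_le _ _
      _ ≤ 4 * δ + (1 * δ + δ * 1) := by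
          gcongr
          · exact (hg a ha).le
          · exact (hg a ha).le
      _ = ε := by rw [hδ]; ring

theorem Sys.no_char [TopologicalSpace.SeparableSpace Z] (h : Sys S hS Z ι) (ω : Ultrafilter ℕ)
    (hω : (ω : Filter ℕ) ≤ Filter.cofinite) :
    ¬ ∃ χ : (ℕ → Z) → ℂ, P101.IsCharacter (ω : Filter ℕ) χ :=
  h.hasNil.no_char ω hω

end Vale.Agent.JS.PartE
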