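import Vale.Agent.P095JS.PartE2
import Vale.Agent.P095J.StmtAbs

/-! Part E, third part: the limit is strongly self-absorbing. -/

open Filter Topology
open scoped Kronecker Matrix.Norms.L2Operator

namespace Vale.Agent.JS.PartE

open PartB PartD

universe u

/-- A separable algebra whose central sequence algebra has no characters absorbs every Jiang-Su
algebra. -/
def Absorption : Prop :=
  ∀ (A Z E : Type u) [CStarAlgebra A] [CStarAlgebra Z] [CStarAlgebra E]
    [TopologicalSpace.SeparableSpace A], P101.IsJiangSuAlgebra Z →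
    (∃ ω : Ultrafilter ℕ, (ω : Filter ℕ) ≤ Filter.cofinite ∧
      ¬ ∃ χ : (ℕ → A) → ℂ, P101.IsCharacter (ω : Filter ℕ) χ) →
    ∀ (i : A →⋆ₐ[ℂ] E) (j : Z →⋆ₐ[ℂ] E), P101.IsTensorCompletion i j →
    ∃ (θ : A ≃⋆ₐ[ℂ] E) (U : ℕ → E), (∀ n, U n ∈ unitary E) ∧
      ∀ a, Tendsto (fun n => U n * i a * star (U n)) atTop (𝓝 (θ a))

theorem conj_small {A E : Type u} [CStarAlgebra A] [CStarAlgebra E] {i : A →⋆ₐ[ℂ] E}
    {θ : A ≃⋆ₐ[ℂ] E} {U : ℕ → E} (hU : ∀ n, U n ∈ unitary E)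
    (h : ∀ a, Tendsto (fun n => U n * i a * star (U n)) atTop (𝓝 (θ a))) (F : Finset A) {ε : ℝ}
    (hε : 0 < ε) : ∃ v ∈ unitary E, ∀ x ∈ F, ‖v * θ x * star v - i x‖ < ε := by
  have h1 : ∀ x ∈ F, ∀ᶠ n in atTop, ‖U n * i x * star (U n) - θ x‖ < ε := fun x _ => by
    have := (tendsto_iff_norm_sub_tendsto_zero.1 (h x)).eventually (gt_mem_nhds hε)
    exact this
  obtain ⟨n, hn⟩ := ((F.eventually_all).2 h1).exists
  refine ⟨star (U n), Unitary.star_mem (hU n), fun x hx => ?_⟩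
  have h2 : star (U n) * (U n * i x * star (U n)) * star (star (U n)) = i x := by
    have := (Unitary.mem_iff.1 (hU n)).1
    rw [star_star]
    calc star (U n) * (U n * i x * star (U n)) * U n
        = (star (U n) * U n) * i x * (star (U n) * U n) := by simp only [mul_assoc]
      _ = _ := by rw [this, one_mul, mul_one]
  have h3 := norm_conj_sub (Unitary.star_mem (hU n)) (θ x) (U n * i x * star (U n))
  rw [h2] at h3
  rw [h3, norm_sub_rev]
  exact hn x hx

theorem ssa_of_completion (habs : Absorption.{u}) {Z E : Type u} [CStarAlgebra Z] [CStarAlgebra E]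
    [TopologicalSpace.SeparableSpace Z] (hZ : P101.IsJiangSuAlgebra Z)
    (h : ∃ ω : Ultrafilter ℕ, (ω : Filter ℕ) ≤ Filter.cofinite ∧
      ¬ ∃ χ : (ℕ → Z) → ℂ, P101.IsCharacter (ω : Filter ℕ) χ)
    {i j : Z →⋆ₐ[ℂ] E} (hE : P101.IsTensorCompletion i j) : P095.IsStronglySelfAbsorbing Z := by
  obtain ⟨θ, U, hU, hlim⟩ := habs Z Z E hZ h i j hE
  exact ⟨⟨E, inferInstance, ⟨⟨i, j, θ, hE, fun F ε hε => conj_small hU hlim F hε⟩⟩⟩⟩

variable {S : Seq} {hS : S.Good} {Z : Type u} [CStarAlgebra Z]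
  {ι : ∀ n, DD (S.p n) (S.q n) →⋆ₐ[ℂ] Z}

/-- A Jiang-Su algebra is separable. -/
theorem separable_of_isJiangSu {Z : Type u} [CStarAlgebra Z] (hZ : P101.IsJiangSuAlgebra Z) :
    TopologicalSpace.SeparableSpace Z := by
  obtain ⟨p, q, R, -, hR, hd⟩ := hZ.limit
  have h1 : ∀ n, TopologicalSpace.IsSeparable (R n : Set Z) := fun n => by
    obtain ⟨hp, hq, -, ⟨S, hS, ⟨e⟩⟩⟩ := hR n
    have hSD : S = DD (p n) (q n) := by
      ext f
      rw [hS f, mem_DD_iff hp hq]
    subst hSD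
    let φ : DD (p n) (q n) →⋆ₐ[ℂ] Z := (R n).subtype.comp (e : DD (p n) (q n) →⋆ₐ[ℂ] R n)
    have h2 : (R n : Set Z) = Set.range φ := by
      ext z
      constructor
      · intro hz
        refine ⟨e.symm ⟨z, hz⟩, ?_⟩
        change ((e (e.symm ⟨z, hz⟩) : R n) : Z) = z
        rw [e.apply_symm_apply]
      · rintro ⟨x, rfl⟩
        exact (e x).2
    rw [h2]
    refine TopologicalSpace.isSeparable_range ?_
    refine AddMonoidHomClass.continuous_of_bound φ 1 fun x => ?_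
    rw [one_mul]
    exact norm_hom_le φ x
  have h3 := (TopologicalSpace.IsSeparable.iUnion h1).closure
  rw [hd.closure_eq] at h3
  exact TopologicalSpace.isSeparable_univ_iff.1 h3

theorem Sys.ssa (habs : Absorption.{u}) (h : Sys S hS Z ι) {E : Type u} [CStarAlgebra E]
    {i j : Z →⋆ₐ[ℂ] E} (hE : P101.IsTensorCompletion i j) : P095.IsStronglySelfAbsorbing Z := by
  have := separable_of_isJiangSu h.isJiangSuAlgebra
  exact ssa_of_completion habs h.isJiangSuAlgebra
    ⟨Filter.hyperfilter ℕ, Filter.hyperfilter_le_cofinite,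
      h.no_char _ Filter.hyperfilter_le_cofinite⟩ hE

end Vale.Agent.JS.PartE
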