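import Mathlib

/-! Part T1: positive functionals separate the points of a C*-algebra. -/

open scoped ComplexOrder ComplexStarModule

namespace Vale.Agent.JS.PartT1

universe u

variable {A : Type u} [CStarAlgebra A] [PartialOrder A] [StarOrderedRing A]

/-- The complexification of a real functional that is nonnegative on the positive cone. -/
theorem exists_ext (g : A →L[ℝ] ℝ) (hg : ∀ a : A, 0 ≤ a → 0 ≤ g a) :
    ∃ f : A →ₚ[ℂ] ℂ, ∀ a : A, IsSelfAdjoint a → f a = g a := by
  let r : A →ₗ[ℝ] ℝ := (g : A →ₗ[ℝ] ℝ) ∘ₗ (selfAdjoint.submodule ℝ A).subtype ∘ₗ realPart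
  have hr : ∀ a, r a = g (realPart a : A) := fun a => rfl
  let F : A →ₗ[ℂ] ℂ := Module.Dual.extendRCLike (𝕜 := ℂ) r
  have hF : ∀ a : A, IsSelfAdjoint a → F a = g a := by
    intro a ha
    have h1 : F a = (r a : ℂ) - Complex.I * (r (Complex.I • a) : ℂ) := rfl
    have h2 : (realPart a : A) = a := ha.coe_realPart
    have h3 : (realPart (Complex.I • a) : A) = 0 := by
      rw [realPart_I_smul]
      simp [ha.imaginaryPart]
    rw [h1, hr, hr, h2, h3, map_zero]
    simp
  refine ⟨PositiveLinearMap.mk₀ F fun a ha => ?_, fun a ha => hF a ha⟩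
  rw [hF a ha.isSelfAdjoint]
  exact_mod_cast hg a ha

theorem exists_of_not_nonneg {h : A} (h0 : ¬ 0 ≤ h) :
    ∃ g : A →L[ℝ] ℝ, (∀ a : A, 0 ≤ a → 0 ≤ g a) ∧ g h < 0 := by
  have hconv : Convex ℝ {a : A | 0 ≤ a} := by
    intro a ha b hb s t hs ht _
    exact add_nonneg (smul_nonneg hs ha) (smul_nonneg ht hb)
  have hclosed : IsClosed {a : A | 0 ≤ a} := isClosed_Ici (a := (0 : A))
  obtain ⟨g, u, hgu, hg⟩ := geometric_hahn_banach_point_closed (E := A) hconv hclosed (x := h) h0
  have hu : u < 0 := by simpa using hg 0 (le_refl (0 : A))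
  refine ⟨g, fun a ha => ?_, hgu.trans hu⟩
  by_contra hneg
  push Not at hneg
  have h1 := hg ((u / g a) • a) (smul_nonneg (div_nonneg_of_nonpos hu.le hneg.le) ha)
  rw [map_smul, smul_eq_mul, div_mul_cancel₀ _ hneg.ne] at h1
  exact lt_irrefl _ h1

/-- Positive functionals separate points. -/
theorem exists_pos_functional {a : A} (ha : a ≠ 0) : ∃ f : A →ₚ[ℂ] ℂ, f a ≠ 0 := by
  have key : ∀ h : A, IsSelfAdjoint h → h ≠ 0 → ∃ f : A →ₚ[ℂ] ℂ, f h ≠ 0 := by
    intro h hh h0
    by_cases hp : 0 ≤ h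
    · have hn : ¬ 0 ≤ -h := fun hn => h0 (le_antisymm (by simpa using hn) hp)
      obtain ⟨g, hg, hgh⟩ := exists_of_not_nonneg hn
      obtain ⟨f, hf⟩ := exists_ext g hg
      refine ⟨f, ?_⟩
      rw [hf h hh]
      rw [map_neg] at hgh
      exact_mod_cast (by linarith : g h ≠ 0)
    · obtain ⟨g, hg, hgh⟩ := exists_of_not_nonneg hp
      obtain ⟨f, hf⟩ := exists_ext g hg
      refine ⟨f, ?_⟩
      rw [hf h hh]
      exact_mod_cast hgh.ne
  have hreal : ∀ (f : A →ₚ[ℂ] ℂ) (x : selfAdjoint A), ∃ r : ℝ, f (x : A) = r := by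
    intro f x
    have : star (f (x : A)) = f (x : A) := by
      rw [← map_star f, x.2.star_eq]
    exact ⟨(f (x : A)).re, (Complex.conj_eq_iff_re.1 this).symm⟩
  by_contra hcon
  push Not at hcon
  have hsplit : ∀ f : A →ₚ[ℂ] ℂ, f (realPart a : A) = 0 ∧ f (imaginaryPart a : A) = 0 := by
    intro f
    have h1 := hcon f
    rw [← realPart_add_I_smul_imaginaryPart a, map_add, map_smul] at h1
    obtain ⟨r, hr⟩ := hreal f (realPart a)
    obtain ⟨s, hs⟩ := hreal f (imaginaryPart a)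
    rw [hr, hs] at h1 ⊢
    have h2 := congrArg Complex.re h1
    have h3 := congrArg Complex.im h1
    simp at h2 h3
    simp [h2, h3]
  have hR : (realPart a : A) = 0 := by
    by_contra h
    obtain ⟨f, hf⟩ := key _ (realPart a).2 h
    exact hf (hsplit f).1
  have hI : (imaginaryPart a : A) = 0 := by
    by_contra h
    obtain ⟨f, hf⟩ := key _ (imaginaryPart a).2 h
    exact hf (hsplit f).2
  apply ha
  rw [← realPart_add_I_smul_imaginaryPart a, hR, hI, smul_zero, add_zero]

end Vale.Agent.JS.PartT1
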