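import Mathlib

/-! Part T2: the Hilbert space tensor product. -/

open scoped TensorProduct

namespace Vale.Agent.JS.PartT2

universe u

/-- Existence of the Hilbert space tensor product, with the two amplification maps. -/
def HilbertTensor : Prop := ∀ (H K : Type u) [NormedAddCommGroup H] [InnerProductSpace ℂ H]
  [CompleteSpace H] [NormedAddCommGroup K] [InnerProductSpace ℂ K] [CompleteSpace K],
  ∃ (L : Type u) (_ : NormedAddCommGroup L) (_ : InnerProductSpace ℂ L) (_ : CompleteSpace L)
    (l : (H →L[ℂ] H) →⋆ₐ[ℂ] (L →L[ℂ] L)) (r : (K →L[ℂ] K) →⋆ₐ[ℂ] (L →L[ℂ] L))
    (t : H →ₗ[ℂ] K →ₗ[ℂ] L), (∀ S T, Commute (l S) (r T)) ∧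
    (∀ h k h' k', inner ℂ (t h k) (t h' k') = inner ℂ h h' * inner ℂ k k') ∧
    (∀ S h k, l S (t h k) = t (S h) k) ∧ (∀ T h k, r T (t h k) = t h (T k))

section

variable {E : Type u} [NormedAddCommGroup E] [InnerProductSpace ℂ E]

open UniformSpace

theorem compl_ext {F : Type*} [NormedAddCommGroup F] [InnerProductSpace ℂ F]
    {f g : Completion E →L[ℂ] F} (h : ∀ x : E, f x = g x) : f = g := by
  ext x
  induction x using Completion.induction_on with
  | hp => exact isClosed_eq f.continuous g.continuous
  | ih x => exact h x

theorem completion_mul (f g : E →L[ℂ] E) :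
    (f * g).completion = f.completion * g.completion := by
  apply compl_ext
  intro x
  simp

theorem completion_add (f g : E →L[ℂ] E) :
    (f + g).completion = f.completion + g.completion := by
  apply compl_ext
  intro x
  simp [Completion.coe_add]

theorem completion_smul (c : ℂ) (f : E →L[ℂ] E) :
    (c • f).completion = c • f.completion := by
  apply compl_ext
  intro x
  simp

theorem completion_one : (1 : E →L[ℂ] E).completion = 1 := by
  apply compl_ext
  intro x
  simp

theorem inner_completion {f g : E →L[ℂ] E} (h : ∀ x y, inner ℂ (f x) y = inner ℂ x (g y))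
    (x y : Completion E) : inner ℂ (f.completion x) y = inner ℂ x (g.completion y) := by
  induction x, y using Completion.induction_on₂ with
  | hp =>
    apply isClosed_eq
    · exact Continuous.inner (f.completion.continuous.comp continuous_fst) continuous_snd
    · exact Continuous.inner continuous_fst (g.completion.continuous.comp continuous_snd)
  | ih x y => simp [h]

theorem completion_adjoint {f g : E →L[ℂ] E} (h : ∀ x y, inner ℂ (f x) y = inner ℂ x (g y)) :
    star f.completion = g.completion := by
  rw [ContinuousLinearMap.star_eq_adjoint]
  symm
  rw [ContinuousLinearMap.eq_adjoint_iff]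
  intro x y
  have := inner_completion h y x
  rw [← inner_conj_symm, ← this, inner_conj_symm]

end

theorem inner_rTensor {H K : Type u} [NormedAddCommGroup H] [InnerProductSpace ℂ H]
    [CompleteSpace H] [NormedAddCommGroup K] [InnerProductSpace ℂ K] (S : H →L[ℂ] H)
    (x y : H ⊗[ℂ] K) : inner ℂ (S.rTensor K x) y = inner ℂ x ((star S).rTensor K y) := by
  induction x with
  | zero => simp
  | add a b ha hb => rw [map_add, inner_add_left, inner_add_left, ha, hb]
  | tmul a b =>
    induction y with
    | zero => simp
    | add c d hc hd => rw [map_add, inner_add_right, inner_add_right, hc, hd]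
    | tmul c d =>
      rw [ContinuousLinearMap.rTensor_tmul, ContinuousLinearMap.rTensor_tmul,
        TensorProduct.inner_tmul, TensorProduct.inner_tmul, ContinuousLinearMap.star_eq_adjoint,
        ContinuousLinearMap.adjoint_inner_right]

theorem inner_lTensor {H K : Type u} [NormedAddCommGroup H] [InnerProductSpace ℂ H]
    [NormedAddCommGroup K] [InnerProductSpace ℂ K] [CompleteSpace K] (S : K →L[ℂ] K)
    (x y : H ⊗[ℂ] K) : inner ℂ (S.lTensor H x) y = inner ℂ x ((star S).lTensor H y) := by
  induction x with
  | zero => simp
  | add a b ha hb => rw [map_add, inner_add_left, inner_add_left, ha, hb]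
  | tmul a b =>
    induction y with
    | zero => simp
    | add c d hc hd => rw [map_add, inner_add_right, inner_add_right, hc, hd]
    | tmul c d =>
      rw [ContinuousLinearMap.lTensor_tmul, ContinuousLinearMap.lTensor_tmul,
        TensorProduct.inner_tmul, TensorProduct.inner_tmul, ContinuousLinearMap.star_eq_adjoint,
        ContinuousLinearMap.adjoint_inner_right]

open UniformSpace in
theorem main : HilbertTensor.{u} := by
  intro H K _ _ _ _ _ _
  refine ⟨Completion (H ⊗[ℂ] K), inferInstance, inferInstance, inferInstance,
    { toFun := fun S => (S.rTensor K).completion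
      map_one' := by rw [ContinuousLinearMap.rTensor_one, completion_one]
      map_mul' := fun S T => by rw [ContinuousLinearMap.rTensor_mul, completion_mul]
      map_zero' := by
        rw [ContinuousLinearMap.rTensor_zero]
        exact compl_ext (fun x => by simp)
      map_add' := fun S T => by rw [ContinuousLinearMap.rTensor_add, completion_add]
      commutes' := fun c => by
        rw [Algebra.algebraMap_eq_smul_one, Algebra.algebraMap_eq_smul_one,
          ContinuousLinearMap.rTensor_smul, completion_smul, ContinuousLinearMap.rTensor_one,
          completion_one]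
      map_star' := fun S => (completion_adjoint (inner_rTensor S)).symm },
    { toFun := fun S => (S.lTensor H).completion
      map_one' := by rw [ContinuousLinearMap.lTensor_one, completion_one]
      map_mul' := fun S T => by rw [ContinuousLinearMap.lTensor_mul, completion_mul]
      map_zero' := by
        rw [ContinuousLinearMap.lTensor_zero]
        exact compl_ext (fun x => by simp)
      map_add' := fun S T => by rw [ContinuousLinearMap.lTensor_add, completion_add]
      commutes' := fun c => by
        rw [Algebra.algebraMap_eq_smul_one, Algebra.algebraMap_eq_smul_one,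
          ContinuousLinearMap.lTensor_smul, completion_smul, ContinuousLinearMap.lTensor_one,
          completion_one]
      map_star' := fun S => (completion_adjoint (inner_lTensor S)).symm },
    (TensorProduct.mk ℂ H K).compr₂
      (Completion.toComplL (𝕜 := ℂ) (E := H ⊗[ℂ] K)).toLinearMap, ?_, ?_, ?_, ?_⟩
  · intro S T
    show (S.rTensor K).completion * (T.lTensor H).completion =
      (T.lTensor H).completion * (S.rTensor K).completion
    rw [← completion_mul, ← completion_mul]
    congr 1
    ext x
    induction x with
    | zero => simp
    | add a b ha hb => rw [map_add, map_add, ha, hb]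
    | tmul a b => rfl
  · intro h k h' k'
    simp
  · intro S h k
    simp
  · intro T h k
    simp

end Vale.Agent.JS.PartT2
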