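import Vale.Agent.P095JS.PartT1
import Vale.Agent.P095JS.PartT2
import Vale.Agent.P101.StmtZ

/-! Part T3: C*-completions of algebraic tensor products exist. -/

open scoped ComplexOrder TensorProduct InnerProductSpace ENNReal

namespace Vale.Agent.JS.PartT3

universe u

/-- Products of C*-algebras. -/
theorem exists_prod {κ : Type u} (B : κ → Type u) [∀ k, CStarAlgebra (B k)]
    [∀ k, Nontrivial (B k)] : ∃ (P : Type u) (_ : CStarAlgebra P) (π : ∀ k, P →⋆ₐ[ℂ] B k),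
      (∀ x y : P, (∀ k, π k x = π k y) → x = y) ∧
      ∀ (A : Type u) [CStarAlgebra A] (φ : ∀ k, A →⋆ₐ[ℂ] B k),
        ∃ Φ : A →⋆ₐ[ℂ] P, ∀ k a, π k (Φ a) = φ k a := by
  let _ : CStarAlgebra (lp B ∞) := { }
  refine ⟨lp B ∞, inferInstance, fun k =>
    { toFun := fun x => x k
      map_one' := rfl
      map_mul' := fun x y => rfl
      map_zero' := rfl
      map_add' := fun x y => rfl
      commutes' := fun r => rfl
      map_star' := fun x => rfl }, ?_, ?_⟩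
  · intro x y h
    exact lp.ext (funext h)
  · intro A _ φ
    have hmem : ∀ a : A, Memℓp (fun k => φ k a) ∞ := fun a =>
      memℓp_infty ⟨‖a‖, by
        rintro _ ⟨k, rfl⟩
        exact NonUnitalStarAlgHom.norm_apply_le (φ k : A →⋆ₙₐ[ℂ] B k) a⟩
    refine ⟨{ toFun := fun a => ⟨fun k => φ k a, hmem a⟩
              map_one' := lp.ext (funext fun k => map_one (φ k))
              map_mul' := fun x y => lp.ext (funext fun k => map_mul (φ k) x y)
              map_zero' := lp.ext (funext fun k => map_zero (φ k))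
              map_add' := fun x y => lp.ext (funext fun k => map_add (φ k) x y)
              commutes' := fun r => lp.ext (funext fun k => AlgHomClass.commutes (φ k) r)
              map_star' := fun x => lp.ext (funext fun k => map_star (φ k) x) }, ?_⟩
    intro k a
    rfl

/-- A functional on a tensor product. -/
theorem pair {A B : Type u} [CStarAlgebra A] [PartialOrder A] [StarOrderedRing A]
    [CStarAlgebra B] [PartialOrder B] [StarOrderedRing B] (f : A →ₚ[ℂ] ℂ) (g : B →ₚ[ℂ] ℂ) :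
    ∃ (Q : Type u) (_ : CStarAlgebra Q) (φ : A →⋆ₐ[ℂ] Q) (ψ : B →⋆ₐ[ℂ] Q) (Ω : Q →L[ℂ] ℂ),
      (∀ a b, Commute (φ a) (ψ b)) ∧ (∀ a b, Ω (φ a * ψ b) = f a * g b) ∧
      ‖Ω‖ ≤ ‖f 1 * g 1‖ := by
  obtain ⟨L, _, _, _, l, r, t, hc, hi, hl, hr⟩ := PartT2.main f.GNS g.GNS
  let ξ : f.GNS := (f.toPreGNS 1 : f.PreGNS)
  let η : g.GNS := (g.toPreGNS 1 : g.PreGNS)
  have hξ : ∀ a, inner ℂ ξ (f.gnsStarAlgHom a ξ) = f a := fun a => by
    have h1 : f.gnsStarAlgHom a ξ = ((f.toPreGNS a : f.PreGNS) : f.GNS) := by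
      refine (f.gnsNonUnitalStarAlgHom_apply_coe (a := a) (b := f.toPreGNS 1)).trans ?_
      rw [f.leftMulMapPreGNS_apply, f.ofPreGNS_toPreGNS, mul_one]
    rw [h1]
    simp [ξ, PositiveLinearMap.preGNS_inner_def]
  have hη : ∀ a, inner ℂ η (g.gnsStarAlgHom a η) = g a := fun a => by
    have h1 : g.gnsStarAlgHom a η = ((g.toPreGNS a : g.PreGNS) : g.GNS) := by
      refine (g.gnsNonUnitalStarAlgHom_apply_coe (a := a) (b := g.toPreGNS 1)).trans ?_
      rw [g.leftMulMapPreGNS_apply, g.ofPreGNS_toPreGNS, mul_one]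
    rw [h1]
    simp [η, PositiveLinearMap.preGNS_inner_def]
  refine ⟨L →L[ℂ] L, inferInstance, l.comp f.gnsStarAlgHom, r.comp g.gnsStarAlgHom,
    (innerSL ℂ (t ξ η)).comp (ContinuousLinearMap.apply ℂ L (t ξ η)), fun a b => hc _ _,
    fun a b => ?_, ContinuousLinearMap.opNorm_le_bound _ (norm_nonneg _) fun T => ?_⟩
  · change inner ℂ (t ξ η) (l (f.gnsStarAlgHom a) (r (g.gnsStarAlgHom b) (t ξ η))) = _
    rw [hr, hl, hi, hξ, hη]
  · change ‖inner ℂ (t ξ η) (T (t ξ η))‖ ≤ _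
    have h1 : ‖f 1 * g 1‖ = ‖t ξ η‖ ^ 2 := by
      have h2 : inner ℂ (t ξ η) (t ξ η) = f 1 * g 1 := by
        have h3 := hξ 1
        have h4 := hη 1
        rw [map_one] at h3 h4
        rw [hi, ← h3, ← h4]
        rfl
      rw [← h2, inner_self_eq_norm_sq_to_K, norm_pow]
      simp
    rw [h1]
    calc _ ≤ ‖t ξ η‖ * ‖T (t ξ η)‖ := norm_inner_le_norm _ _
      _ ≤ ‖t ξ η‖ * (‖T‖ * ‖t ξ η‖) := by gcongr; exact T.le_opNorm _
      _ = _ := by ring

/-- The product functional on the algebraic tensor product. -/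
noncomputable def fg {A B : Type u} [CStarAlgebra A] [CStarAlgebra B] (f : A →ₗ[ℂ] ℂ)
    (g : B →ₗ[ℂ] ℂ) : A ⊗[ℂ] B →ₗ[ℂ] ℂ := LinearMap.mul' ℂ ℂ ∘ₗ TensorProduct.map f g

@[simp] theorem fg_tmul {A B : Type u} [CStarAlgebra A] [CStarAlgebra B] (f : A →ₗ[ℂ] ℂ)
    (g : B →ₗ[ℂ] ℂ) (a : A) (b : B) : fg f g (a ⊗ₜ b) = f a * g b := by simp [fg]

theorem tensor_separate {A B : Type u} [CStarAlgebra A] [PartialOrder A] [StarOrderedRing A]
    [CStarAlgebra B] [PartialOrder B] [StarOrderedRing B] (x : A ⊗[ℂ] B)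
    (h : ∀ (f : A →ₚ[ℂ] ℂ) (g : B →ₚ[ℂ] ℂ), fg (f : A →ₗ[ℂ] ℂ) (g : B →ₗ[ℂ] ℂ) x = 0) :
    x = 0 := by
  let 𝒞 := Module.Free.chooseBasis ℂ B
  let e := TensorProduct.equivFinsuppOfBasisRight (M := A) 𝒞
  have he : e x = 0 := by
    ext c
    by_contra hne
    obtain ⟨f, hf⟩ := PartT1.exists_pos_functional (a := e x c) hne
    let s : A ⊗[ℂ] B →ₗ[ℂ] B := (TensorProduct.lid ℂ B).toLinearMap ∘ₗ
      TensorProduct.map (f : A →ₗ[ℂ] ℂ) LinearMap.id
    have hs : ∀ a b, s (a ⊗ₜ b) = f a • b := fun a b => by simp [s]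
    have h1 : s x = 0 := by
      by_contra hy
      obtain ⟨g, hg⟩ := PartT1.exists_pos_functional hy
      apply hg
      rw [← h f g]
      have : (g : B →ₗ[ℂ] ℂ) ∘ₗ s = fg (f : A →ₗ[ℂ] ℂ) (g : B →ₗ[ℂ] ℂ) := by
        refine TensorProduct.ext' fun a b => ?_
        rw [LinearMap.comp_apply, hs, map_smul, fg_tmul]
        rfl
      exact LinearMap.congr_fun this x
    have h2 : ∀ x : A ⊗[ℂ] B, 𝒞.coord c (s x) = f (e x c) := by
      intro x
      induction x with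
      | zero => simp
      | add x y hx hy => rw [map_add, map_add, hx, hy, map_add, Finsupp.add_apply, map_add]
      | tmul a b =>
        rw [hs, map_smul]
        have h3 : e (a ⊗ₜ b) c = 𝒞.repr b c • a :=
          TensorProduct.equivFinsuppOfBasisRight_apply_tmul_apply 𝒞 a b c
        rw [h3, map_smul, Module.Basis.coord_apply, smul_eq_mul, smul_eq_mul, mul_comm]
    have h3 := h2 x
    rw [h1, map_zero] at h3
    exact hf h3.symm
  exact e.map_eq_zero_iff.1 he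

/-- The star subalgebra of finite sums of products. -/
noncomputable def RR {A B P : Type u} [CStarAlgebra A] [CStarAlgebra B] [CStarAlgebra P]
    (i : A →⋆ₐ[ℂ] P) (j : B →⋆ₐ[ℂ] P) (comm : ∀ a z, Commute (i a) (j z)) :
    StarSubalgebra ℂ P where
  toSubalgebra := (Algebra.TensorProduct.lift (i : A →ₐ[ℂ] P) (j : B →ₐ[ℂ] P) comm).range
  star_mem' := by
    rintro _ ⟨t, rfl⟩
    induction t with
    | zero => rw [map_zero, star_zero]; exact Subalgebra.zero_mem _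
    | add x y hx hy => rw [map_add, star_add]; exact Subalgebra.add_mem _ hx hy
    | tmul x y =>
      refine ⟨star x ⊗ₜ star y, ?_⟩
      rw [AlgHom.toRingHom_eq_coe, RingHom.coe_coe, Algebra.TensorProduct.lift_tmul,
        Algebra.TensorProduct.lift_tmul]
      change i (star x) * j (star y) = star (i x * j y)
      rw [star_mul, ← map_star, ← map_star]
      exact (comm _ _).eq

/-- An injective map of the algebraic tensor product gives a completion. -/
theorem completion {A B P : Type u} [CStarAlgebra A] [CStarAlgebra B] [CStarAlgebra P]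
    (i : A →⋆ₐ[ℂ] P) (j : B →⋆ₐ[ℂ] P) (comm : ∀ a z, Commute (i a) (j z))
    (hinj : Function.Injective
      (Algebra.TensorProduct.lift (i : A →ₐ[ℂ] P) (j : B →ₐ[ℂ] P) comm)) :
    ∃ (E : Type u) (_ : CStarAlgebra E) (i' : A →⋆ₐ[ℂ] E) (j' : B →⋆ₐ[ℂ] E) (s : E →⋆ₐ[ℂ] P),
      P101.IsTensorCompletion i' j' ∧ (∀ a, s (i' a) = i a) ∧ ∀ b, s (j' b) = j b := by
  have hi : ∀ a, i a ∈ (RR i j comm).topologicalClosure := fun a => by
    refine StarSubalgebra.le_topologicalClosure _ ⟨a ⊗ₜ 1, ?_⟩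
    change Algebra.TensorProduct.lift (i : A →ₐ[ℂ] P) (j : B →ₐ[ℂ] P) comm (a ⊗ₜ 1) = i a
    rw [Algebra.TensorProduct.lift_tmul, map_one, mul_one]
    rfl
  have hj : ∀ b, j b ∈ (RR i j comm).topologicalClosure := fun b => by
    refine StarSubalgebra.le_topologicalClosure _ ⟨1 ⊗ₜ b, ?_⟩
    change Algebra.TensorProduct.lift (i : A →ₐ[ℂ] P) (j : B →ₐ[ℂ] P) comm (1 ⊗ₜ b) = j b
    rw [Algebra.TensorProduct.lift_tmul, map_one, one_mul]
    rfl
  have hcl : IsClosed ((RR i j comm).topologicalClosure : Set P) :=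
    StarSubalgebra.isClosed_topologicalClosure _
  let i' : A →⋆ₐ[ℂ] (RR i j comm).topologicalClosure := i.codRestrict _ hi
  let j' : B →⋆ₐ[ℂ] (RR i j comm).topologicalClosure := j.codRestrict _ hj
  have hcomm : ∀ a z, Commute (i' a) (j' z) := fun a z => Subtype.ext (comm a z)
  have hval : ∀ x : A ⊗[ℂ] B, ((Algebra.TensorProduct.lift (i' : A →ₐ[ℂ] _) (j' : B →ₐ[ℂ] _)
      hcomm x : (RR i j comm).topologicalClosure) : P) =
      Algebra.TensorProduct.lift (i : A →ₐ[ℂ] P) (j : B →ₐ[ℂ] P) comm x := by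
    intro x
    induction x with
    | zero => rw [map_zero, map_zero]; rfl
    | add x y hx hy => rw [map_add, map_add, ← hx, ← hy]; rfl
    | tmul x y =>
      rw [Algebra.TensorProduct.lift_tmul, Algebra.TensorProduct.lift_tmul]
      rfl
  refine ⟨(RR i j comm).topologicalClosure,
    StarSubalgebra.cstarAlgebra (RR i j comm).topologicalClosure, i', j',
    StarSubalgebra.subtype _, ⟨hcomm, ?_, ?_⟩, fun a => rfl, fun b => rfl⟩
  · intro x y hxy
    refine hinj ?_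
    rw [← hval, ← hval, hxy]
  · intro z
    rw [Metric.mem_closure_iff]
    intro ε hε
    obtain ⟨w, ⟨x, hx⟩, hw⟩ := Metric.mem_closure_iff.mp z.2 ε hε
    refine ⟨_, ⟨x, rfl⟩, ?_⟩
    rw [Subtype.dist_eq]
    refine lt_of_eq_of_lt ?_ hw
    congr 1
    rw [← hx]
    exact hval x

/-- Existence of C*-tensor products. -/
theorem exists_completion (A B : Type u) [CStarAlgebra A] [CStarAlgebra B] :
    ∃ (E : Type u) (_ : CStarAlgebra E) (i : A →⋆ₐ[ℂ] E) (j : B →⋆ₐ[ℂ] E),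
      P101.IsTensorCompletion i j ∧ ∀ (f : A →ₗ[ℂ] ℂ) (g : B →ₗ[ℂ] ℂ),
        (∀ a, 0 ≤ f (star a * a)) → (∀ b, 0 ≤ g (star b * b)) → f 1 = 1 → g 1 = 1 →
        ∃ Ω : E →L[ℂ] ℂ, (∀ a b, Ω (i a * j b) = f a * g b) ∧ ‖Ω‖ ≤ 1 := by
  let _ := CStarAlgebra.spectralOrder A
  have _ := CStarAlgebra.spectralOrderedRing A
  let _ := CStarAlgebra.spectralOrder B
  have _ := CStarAlgebra.spectralOrderedRing B
  let κ : Type u := {k : (A →ₚ[ℂ] ℂ) × (B →ₚ[ℂ] ℂ) // k.1 1 ≠ 0 ∧ k.2 1 ≠ 0}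
  choose Q iQ φ ψ Ω hc hΩ hΩ1 using fun k : κ => pair k.1.1 k.1.2
  have hnt : ∀ k, Nontrivial (Q k) := fun k => ⟨⟨1, 0, fun h => by
    have h1 := hΩ k 1 1
    rw [map_one, map_one, mul_one, h, map_zero] at h1
    exact mul_ne_zero k.2.1 k.2.2 h1.symm⟩⟩
  obtain ⟨P, _, π, hπ, hP⟩ := exists_prod Q
  obtain ⟨i, hi⟩ := hP A φ
  obtain ⟨j, hj⟩ := hP B ψ
  have hcomm : ∀ a b, Commute (i a) (j b) := fun a b => hπ _ _ fun k => by
    rw [map_mul, map_mul, hi, hj, (hc k a b).eq]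
  have hfun : ∀ (k : κ) (x : A ⊗[ℂ] B), Ω k (π k (Algebra.TensorProduct.lift (i : A →ₐ[ℂ] P)
      (j : B →ₐ[ℂ] P) hcomm x)) = fg (k.1.1 : A →ₗ[ℂ] ℂ) (k.1.2 : B →ₗ[ℂ] ℂ) x := by
    intro k x
    induction x with
    | zero => simp
    | add x y hx hy => rw [map_add, map_add, map_add, hx, hy, map_add]
    | tmul a b =>
      rw [Algebra.TensorProduct.lift_tmul, map_mul, fg_tmul]
      change Ω k (π k (i a) * π k (j b)) = _
      rw [hi, hj, hΩ]
      rfl
  have hz1 : ∀ {C : Type u} [CStarAlgebra C] [PartialOrder C] [StarOrderedRing C] (f : C →ₚ[ℂ] ℂ),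
      f 1 = 0 → ∀ a, f a = 0 := by
    intro C _ _ _ f h a
    obtain ⟨y, hy, -, ha⟩ := CStarAlgebra.exists_sum_four_nonneg a
    rw [ha, map_sum]
    refine Finset.sum_eq_zero fun m _ => ?_
    have h1 := f.norm_apply_le_of_nonneg (y m) (hy m)
    rw [h, norm_zero, zero_mul] at h1
    rw [map_smul, norm_le_zero_iff.1 h1, smul_zero]
  have hinj : Function.Injective
      (Algebra.TensorProduct.lift (i : A →ₐ[ℂ] P) (j : B →ₐ[ℂ] P) hcomm) := by
    rw [injective_iff_map_eq_zero]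
    intro x hx
    refine tensor_separate x fun f g => ?_
    by_cases hf : f 1 = 0
    · have : (f : A →ₗ[ℂ] ℂ) = 0 := LinearMap.ext (hz1 f hf)
      rw [this]
      simp [fg]
    by_cases hg : g 1 = 0
    · have : (g : B →ₗ[ℂ] ℂ) = 0 := LinearMap.ext (hz1 g hg)
      rw [this]
      simp [fg]
    · have := hfun ⟨(f, g), hf, hg⟩ x
      rw [hx, map_zero, map_zero] at this
      exact this.symm
  obtain ⟨E, _, i', j', s, hE, hsi, hsj⟩ := completion i j hcomm hinj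
  refine ⟨E, inferInstance, i', j', hE, fun f g hf hg hf1 hg1 => ?_⟩
  have hpos : ∀ {C : Type u} [CStarAlgebra C] [PartialOrder C] [StarOrderedRing C]
      (f : C →ₗ[ℂ] ℂ), (∀ a, 0 ≤ f (star a * a)) → ∀ a, 0 ≤ a → 0 ≤ f a := by
    intro C _ _ _ f hf a ha
    obtain ⟨y, rfl⟩ := CStarAlgebra.nonneg_iff_eq_star_mul_self.1 ha
    exact hf y
  let f' : A →ₚ[ℂ] ℂ := PositiveLinearMap.mk₀ f (hpos f hf)
  let g' : B →ₚ[ℂ] ℂ := PositiveLinearMap.mk₀ g (hpos g hg)
  have hf1' : f' 1 ≠ 0 := by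
    change f 1 ≠ 0
    rw [hf1]; exact one_ne_zero
  have hg1' : g' 1 ≠ 0 := by
    change g 1 ≠ 0
    rw [hg1]; exact one_ne_zero
  let k : κ := ⟨(f', g'), hf1', hg1'⟩
  let T : E →ₗ[ℂ] ℂ :=
    { toFun := fun x => Ω k (π k (s x))
      map_add' := fun x y => by rw [map_add, map_add, map_add]
      map_smul' := fun c x => by rw [map_smul, map_smul, map_smul]; rfl }
  refine ⟨T.mkContinuous 1 fun x => ?_, fun a b => ?_, T.mkContinuous_norm_le zero_le_one _⟩
  · refine ((Ω k).le_opNorm _).trans ?_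
    have h1 : ‖Ω k‖ ≤ 1 := (hΩ1 k).trans (by
      change ‖f 1 * g 1‖ ≤ 1
      rw [hf1, hg1, mul_one, norm_one])
    gcongr
    exact (NonUnitalStarAlgHom.norm_apply_le (π k : P →⋆ₙₐ[ℂ] Q k) _).trans
      (NonUnitalStarAlgHom.norm_apply_le (s : E →⋆ₙₐ[ℂ] P) _)
  · change Ω k (π k (s (i' a * j' b))) = f a * g b
    rw [map_mul, hsi, hsj, map_mul, hi, hj, hΩ]
    rfl

end Vale.Agent.JS.PartT3
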