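import Vale.Agent.P095JS.PartT3
import Vale.Agent.P095K.GStmt

/-! Part T6: C*-completions of `A ⊗ Z`, `A` not necessarily unital, with the automorphisms
`α ⊗ id`. -/

open scoped TensorProduct ENNReal

namespace Vale.Agent.JS.PartT6

universe u

variable {A Z : Type u} [NonUnitalCStarAlgebra A] [CStarAlgebra Z]

/-- Multiplicative, star-preserving, contractive bilinear maps. -/
structure IsMS {P : Type u} [NonUnitalCStarAlgebra P] (T : A →ₗ[ℂ] Z →ₗ[ℂ] P) : Prop where
  map_mul : ∀ a a' z z', T (a * a') (z * z') = T a z * T a' z'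
  map_star : ∀ a z, T (star a) (star z) = star (T a z)
  bound : ∀ a z, ‖T a z‖ ≤ ‖a‖ * ‖z‖

theorem IsMS.lift_star {P : Type u} [NonUnitalCStarAlgebra P] {T : A →ₗ[ℂ] Z →ₗ[ℂ] P}
    (h : IsMS T) (x : A ⊗[ℂ] Z) : star (TensorProduct.lift T x) ∈
      LinearMap.range (TensorProduct.lift T) := by
  induction x with
  | zero => rw [map_zero, star_zero]; exact Submodule.zero_mem _
  | add x y hx hy => rw [map_add, star_add]; exact Submodule.add_mem _ hx hy
  | tmul a z =>
    refine ⟨star a ⊗ₜ star z, ?_⟩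
    rw [TensorProduct.lift.tmul, TensorProduct.lift.tmul, h.map_star]

theorem IsMS.lift_mul {P : Type u} [NonUnitalCStarAlgebra P] {T : A →ₗ[ℂ] Z →ₗ[ℂ] P}
    (h : IsMS T) (x y : A ⊗[ℂ] Z) : TensorProduct.lift T x * TensorProduct.lift T y =
      TensorProduct.lift T (x * y) := by
  induction x with
  | zero => simp
  | add x x' hx hx' => rw [map_add, add_mul, hx, hx', add_mul, map_add]
  | tmul a z =>
    induction y with
    | zero => simp
    | add y y' hy hy' => rw [map_add, mul_add, hy, hy', mul_add, map_add]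
    | tmul a' z' =>
      rw [Algebra.TensorProduct.tmul_mul_tmul, TensorProduct.lift.tmul, TensorProduct.lift.tmul,
        TensorProduct.lift.tmul, h.map_mul]

/-- The range of a multiplicative map. -/
noncomputable def rng {P : Type u} [NonUnitalCStarAlgebra P] {T : A →ₗ[ℂ] Z →ₗ[ℂ] P}
    (h : IsMS T) : NonUnitalStarSubalgebra ℂ P where
  carrier := LinearMap.range (TensorProduct.lift T)
  add_mem' := fun ha hb => Submodule.add_mem _ ha hb
  zero_mem' := Submodule.zero_mem _
  smul_mem' := fun c _ hx => Submodule.smul_mem _ c hx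
  mul_mem' := by
    rintro _ _ ⟨x, rfl⟩ ⟨y, rfl⟩
    exact ⟨x * y, (h.lift_mul x y).symm⟩
  star_mem' := by
    rintro _ ⟨x, rfl⟩
    exact h.lift_star x

theorem closure_lemma {P : Type u} [NonUnitalCStarAlgebra P] {T : A →ₗ[ℂ] Z →ₗ[ℂ] P}
    (h : IsMS T) : ∃ (B : Type u) (_ : NonUnitalCStarAlgebra B) (T' : A →ₗ[ℂ] Z →ₗ[ℂ] B),
      IsMS T' ∧ DenseRange (TensorProduct.lift T') ∧
      ∀ x, ‖TensorProduct.lift T' x‖ = ‖TensorProduct.lift T x‖ := by
  have hcl : IsClosed ((rng h).topologicalClosure : Set P) :=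
    NonUnitalStarSubalgebra.isClosed_topologicalClosure _
  have hmem : ∀ a z, T a z ∈ (rng h).topologicalClosure := fun a z =>
    NonUnitalStarSubalgebra.le_topologicalClosure _ ⟨a ⊗ₜ z, TensorProduct.lift.tmul _ _⟩
  let T' : A →ₗ[ℂ] Z →ₗ[ℂ] (rng h).topologicalClosure :=
    LinearMap.mk₂ ℂ (fun a z => ⟨T a z, hmem a z⟩)
      (fun a a' z => Subtype.ext (by simp)) (fun c a z => Subtype.ext (by simp))
      (fun a z z' => Subtype.ext (by simp)) (fun c a z => Subtype.ext (by simp))
  have hval : ∀ x, ((TensorProduct.lift T' x : (rng h).topologicalClosure) : P) =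
      TensorProduct.lift T x := by
    intro x
    induction x with
    | zero => simp
    | add x y hx hy => rw [map_add, map_add, ← hx, ← hy]; rfl
    | tmul a z => rw [TensorProduct.lift.tmul, TensorProduct.lift.tmul]; rfl
  refine ⟨(rng h).topologicalClosure,
    NonUnitalStarSubalgebra.nonUnitalCStarAlgebra (rng h).topologicalClosure, T',
    ⟨fun a a' z z' => Subtype.ext (h.map_mul a a' z z'),
      fun a z => Subtype.ext (h.map_star a z), fun a z => h.bound a z⟩, ?_, fun x => ?_⟩
  · intro z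
    rw [Metric.mem_closure_iff]
    intro ε hε
    obtain ⟨w, ⟨x, hx⟩, hw⟩ := Metric.mem_closure_iff.mp z.2 ε hε
    refine ⟨_, ⟨x, rfl⟩, ?_⟩
    rw [Subtype.dist_eq]
    refine lt_of_eq_of_lt ?_ hw
    congr 1
    rw [← hx]
    exact hval x
  · exact congrArg norm (hval x)

variable (A Z) in
/-- The seminorms. -/
def S : Set (A ⊗[ℂ] Z → ℝ) := {n | ∃ (P : Type u) (_ : NonUnitalCStarAlgebra P)
  (T : A →ₗ[ℂ] Z →ₗ[ℂ] P), IsMS T ∧ ∀ x, n x = ‖TensorProduct.lift T x‖}

theorem prod_lemma : ∃ (P : Type u) (_ : NonUnitalCStarAlgebra P) (T : A →ₗ[ℂ] Z →ₗ[ℂ] P),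
    IsMS T ∧ (∀ n ∈ S A Z, ∀ x, n x ≤ ‖TensorProduct.lift T x‖) ∧
      ∀ x C, 0 ≤ C → (∀ n ∈ S A Z, n x ≤ C) → ‖TensorProduct.lift T x‖ ≤ C := by
  choose P iP T hT hn using fun k : S A Z => k.2
  have hmem : ∀ a z, Memℓp (fun k => T k a z) ∞ := fun a z =>
    memℓp_infty ⟨‖a‖ * ‖z‖, by
      rintro _ ⟨k, rfl⟩
      exact (hT k).bound a z⟩
  let T' : A →ₗ[ℂ] Z →ₗ[ℂ] lp P ∞ :=
    LinearMap.mk₂ ℂ (fun a z => ⟨fun k => T k a z, hmem a z⟩)
      (fun a a' z => lp.ext (funext fun k => by
        change T k (a + a') z = T k a z + T k a' z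
        simp))
      (fun c a z => lp.ext (funext fun k => by
        change T k (c • a) z = c • T k a z
        simp))
      (fun a z z' => lp.ext (funext fun k => by
        change T k a (z + z') = T k a z + T k a z'
        simp))
      (fun c a z => lp.ext (funext fun k => by
        change T k a (c • z) = c • T k a z
        simp))
  have hval : ∀ k x, (TensorProduct.lift T' x : lp P ∞) k = TensorProduct.lift (T k) x := by
    intro k x
    induction x with
    | zero => rw [map_zero, map_zero]; rfl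
    | add x y hx hy => rw [map_add, map_add, ← hx, ← hy]; rfl
    | tmul a z => rw [TensorProduct.lift.tmul, TensorProduct.lift.tmul]; rfl
  refine ⟨lp P ∞, inferInstance, T', ⟨fun a a' z z' => lp.ext (funext fun k =>
    (hT k).map_mul a a' z z'), fun a z => lp.ext (funext fun k => (hT k).map_star a z),
    fun a z => ?_⟩, ?_, ?_⟩
  · exact lp.norm_le_of_forall_le (by positivity) fun k => (hT k).bound a z
  · intro n hnS x
    have h1 := hn ⟨n, hnS⟩ x
    rw [← hval] at h1
    rw [show n x = _ from h1]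
    exact lp.norm_apply_le_norm ENNReal.top_ne_zero _ _
  · intro x C hC h
    refine lp.norm_le_of_forall_le hC fun k => ?_
    rw [hval, ← hn k x]
    exact h k.1 k.2

theorem ext_lemma {V : Type*} [AddCommGroup V] [Module ℂ V] {B : Type u}
    [NonUnitalCStarAlgebra B] (L : V →ₗ[ℂ] B) (hL : DenseRange L) (L2 : V →ₗ[ℂ] B)
    (hle : ∀ x, ‖L2 x‖ ≤ ‖L x‖) : ∃ β : B →L[ℂ] B, ∀ x, β (L x) = L2 x :=
  ⟨L2.extendOfNorm L, fun x => LinearMap.extendOfNorm_eq hL ⟨1, fun x => by simpa using hle x⟩ x⟩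

theorem exists_injective : ∃ n ∈ S A Z, ∀ x, n x = 0 → x = 0 := by
  obtain ⟨E, _, i, j, hE, -⟩ := PartT3.exists_completion (Unitization ℂ A) Z
  let ι : A →⋆ₙₐ[ℂ] Unitization ℂ A := Unitization.inrNonUnitalStarAlgHom ℂ A
  let T : A →ₗ[ℂ] Z →ₗ[ℂ] E :=
    LinearMap.mk₂ ℂ (fun a z => i (ι a) * j z)
      (fun a a' z => by rw [map_add, map_add, add_mul])
      (fun c a z => by rw [map_smul, map_smul, smul_mul_assoc])
      (fun a z z' => by rw [map_add, mul_add])
      (fun c a z => by rw [map_smul, mul_smul_comm])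
  have hTd : ∀ a z, T a z = i (ι a) * j z := fun a z => rfl
  have hT : IsMS T := by
    refine ⟨fun a a' z z' => ?_, fun a z => ?_, fun a z => ?_⟩
    · rw [hTd, hTd, hTd, map_mul, map_mul, map_mul, mul_assoc, mul_assoc,
        ← mul_assoc (i (ι a')) (j z), (hE.comm (ι a') z).eq, mul_assoc]
    · rw [hTd, hTd, star_mul, ← map_star, ← map_star, ← map_star]
      exact (hE.comm _ _).eq
    · refine (norm_mul_le _ _).trans ?_
      have h1 : ‖i (ι a)‖ ≤ ‖a‖ :=
        (NonUnitalStarAlgHom.norm_apply_le (i : Unitization ℂ A →⋆ₙₐ[ℂ] E) _).trans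
          (NonUnitalStarAlgHom.norm_apply_le ι a)
      have h2 : ‖j z‖ ≤ ‖z‖ := NonUnitalStarAlgHom.norm_apply_le (j : Z →⋆ₙₐ[ℂ] E) _
      gcongr
  refine ⟨fun x => ‖TensorProduct.lift T x‖, ⟨E, inferInstance, T, hT, fun x => rfl⟩,
    fun x hx => ?_⟩
  let ιl : A →ₗ[ℂ] Unitization ℂ A := (ι : A →ₗ[ℂ] Unitization ℂ A)
  have h1 : ∀ x, TensorProduct.lift T x =
      Algebra.TensorProduct.lift (i : Unitization ℂ A →ₐ[ℂ] E) (j : Z →ₐ[ℂ] E) hE.comm
        (ιl.rTensor Z x) := by
    intro x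
    induction x with
    | zero => simp
    | add x y hx hy => rw [map_add, map_add, map_add, hx, hy]
    | tmul a z =>
      rw [TensorProduct.lift.tmul, LinearMap.rTensor_tmul, Algebra.TensorProduct.lift_tmul]
      rfl
  have h2 : TensorProduct.lift T x = 0 := norm_eq_zero.1 hx
  rw [h1] at h2
  have h3 : ιl.rTensor Z x = 0 := hE.injective (by rw [h2, map_zero])
  have h4 : Function.Injective (ιl.rTensor Z) :=
    Module.Flat.rTensor_preserves_injective_linearMap ιl Unitization.inr_injective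
  exact h4 (by rw [h3, map_zero])

/-- Existence of C*-tensor products, with the automorphisms of the first factor. -/
theorem exists_tensorProd (A Z : Type u) [NonUnitalCStarAlgebra A] [CStarAlgebra Z] :
    ∃ (B : Type u) (_ : NonUnitalCStarAlgebra B) (T : A →ₗ[ℂ] Z →ₗ[ℂ] B),
      P095K.IsTensorProd T ∧ ∀ α : A ≃⋆ₐ[ℂ] A, ∃ β : B ≃⋆ₐ[ℂ] B, ∀ a z, β (T a z) = T (α a) z := by
  obtain ⟨P, _, T0, hT0, hle, hsup⟩ := prod_lemma (A := A) (Z := Z)
  obtain ⟨B, _, T, hT, hd, hnorm⟩ := closure_lemma hT0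
  obtain ⟨n0, hn0, hinj0⟩ := exists_injective (A := A) (Z := Z)
  have hinj : Function.Injective (TensorProduct.lift T) := by
    rw [injective_iff_map_eq_zero]
    intro x hx
    refine hinj0 x (le_antisymm ?_ ?_)
    · have := hle n0 hn0 x
      rwa [← hnorm, hx, norm_zero] at this
    · obtain ⟨_, _, _, _, h⟩ := hn0
      rw [h]
      exact norm_nonneg _
  -- the maps `α ⊗ id`
  let αl : (A ≃⋆ₐ[ℂ] A) → (A →ₗ[ℂ] A) := fun α =>
    { toFun := α
      map_add' := map_add α
      map_smul' := map_smul α }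
  have hiso : ∀ (α : A ≃⋆ₐ[ℂ] A) (a : A), ‖α a‖ = ‖a‖ := fun α a =>
    le_antisymm (NonUnitalStarAlgHom.norm_apply_le (α : A →⋆ₙₐ[ℂ] A) a) (by
      have := NonUnitalStarAlgHom.norm_apply_le (α.symm : A →⋆ₙₐ[ℂ] A) (α a)
      simpa using this)
  have hS : ∀ (α : A ≃⋆ₐ[ℂ] A), ∀ n ∈ S A Z, (fun x => n ((αl α).rTensor Z x)) ∈ S A Z := by
    rintro α n ⟨Q, _, T1, hT1, hn⟩
    refine ⟨Q, inferInstance, T1 ∘ₗ αl α, ⟨fun a a' z z' => ?_, fun a z => ?_, fun a z => ?_⟩,
      fun x => ?_⟩
    · change T1 (α (a * a')) (z * z') = T1 (α a) z * T1 (α a') z'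
      rw [map_mul α, hT1.map_mul]
    · change T1 (α (star a)) (star z) = star (T1 (α a) z)
      rw [map_star α, hT1.map_star]
    · refine (hT1.bound (α a) z).trans ?_
      rw [hiso]
    · change n ((αl α).rTensor Z x) = _
      rw [hn]
      congr 1
      induction x with
      | zero => simp
      | add x y hx hy => rw [map_add, map_add, map_add, hx, hy]
      | tmul a z =>
        rw [LinearMap.rTensor_tmul, TensorProduct.lift.tmul, TensorProduct.lift.tmul]
        rfl
  have hcon : ∀ (α : A ≃⋆ₐ[ℂ] A) (x : A ⊗[ℂ] Z),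
      ‖TensorProduct.lift T ((αl α).rTensor Z x)‖ ≤ ‖TensorProduct.lift T x‖ := by
    intro α x
    rw [hnorm, hnorm]
    exact hsup _ _ (norm_nonneg _) fun n hn => hle _ (hS α n hn) x
  have hext : ∀ α : A ≃⋆ₐ[ℂ] A, ∃ β : B →L[ℂ] B, ∀ x,
      β (TensorProduct.lift T x) = TensorProduct.lift T ((αl α).rTensor Z x) := fun α =>
    ext_lemma _ hd (TensorProduct.lift T ∘ₗ (αl α).rTensor Z) (hcon α)
  choose β hβ using hext
  have hinv : ∀ (α α' : A ≃⋆ₐ[ℂ] A), (∀ a, α' (α a) = a) → ∀ b, β α' (β α b) = b := by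
    intro α α' h b
    refine hd.induction_on (p := fun b => β α' (β α b) = b) b
      (isClosed_eq (by fun_prop) continuous_id) fun x => ?_
    rw [hβ, hβ]
    congr 1
    induction x with
    | zero => simp
    | add x y hx hy => rw [map_add, map_add, hx, hy]
    | tmul a z =>
      rw [LinearMap.rTensor_tmul, LinearMap.rTensor_tmul]
      congr 1
      exact h a
  have hmulT : ∀ (α : A ≃⋆ₐ[ℂ] A) (x y : A ⊗[ℂ] Z), (αl α).rTensor Z (x * y) =
      (αl α).rTensor Z x * (αl α).rTensor Z y := by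
    intro α x y
    induction x with
    | zero => simp
    | add x x' hx hx' => rw [map_add, add_mul, map_add, hx, hx', add_mul]
    | tmul a z =>
      induction y with
      | zero => simp
      | add y y' hy hy' => rw [map_add, mul_add, map_add, hy, hy', mul_add]
      | tmul a' z' =>
        rw [Algebra.TensorProduct.tmul_mul_tmul, LinearMap.rTensor_tmul, LinearMap.rTensor_tmul,
          LinearMap.rTensor_tmul, Algebra.TensorProduct.tmul_mul_tmul]
        congr 1
        exact map_mul α a a'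
  have hmul : ∀ (α : A ≃⋆ₐ[ℂ] A) (b c : B), β α (b * c) = β α b * β α c := by
    intro α b c
    refine hd.induction_on₂ (p := fun b c => β α (b * c) = β α b * β α c)
      (isClosed_eq (by fun_prop) (by fun_prop)) (fun x y => ?_) b c
    rw [hT.lift_mul, hβ, hβ, hβ, hT.lift_mul, hmulT]
  have hstar : ∀ (α : A ≃⋆ₐ[ℂ] A) (b : B), β α (star b) = star (β α b) := by
    intro α b
    refine hd.induction_on (p := fun b => β α (star b) = star (β α b)) b
      (isClosed_eq (by fun_prop) (by fun_prop)) fun x => ?_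
    induction x with
    | zero => simp
    | add x y hx hy => rw [map_add, star_add, map_add, map_add, star_add, hx, hy]
    | tmul a z =>
      rw [hβ, LinearMap.rTensor_tmul, TensorProduct.lift.tmul, TensorProduct.lift.tmul,
        ← hT.map_star, ← TensorProduct.lift.tmul, hβ, LinearMap.rTensor_tmul,
        TensorProduct.lift.tmul, ← hT.map_star]
      congr 2
      exact map_star α a
  refine ⟨B, inferInstance, T, ⟨hT.map_mul, hT.map_star, hinj, hd⟩, fun α => ?_⟩
  refine ⟨{ toFun := β α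
            invFun := β α.symm
            left_inv := hinv α α.symm (fun a => α.symm_apply_apply a)
            right_inv := hinv α.symm α (fun a => α.apply_symm_apply a)
            map_mul' := hmul α
            map_add' := map_add (β α)
            map_star' := hstar α
            map_smul' := map_smul (β α) }, fun a z => ?_⟩
  have := hβ α (a ⊗ₜ z)
  rw [LinearMap.rTensor_tmul, TensorProduct.lift.tmul, TensorProduct.lift.tmul] at this
  exact this

end Vale.Agent.JS.PartT6
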