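import Vale.Agent.P095JS.PartE3

/-! Part U: characterless central sequence algebras, and uniqueness of the Jiang-Su algebra. -/

open Filter Topology
open scoped Kronecker TensorProduct Matrix.Norms.L2Operator

namespace Vale.Agent.JS.PartU

open PartB PartD PartE

universe u

/-! ### Partitions of unity by nilpotents in tensor products -/

theorem HasNil.of_equiv {κ : Type} [Fintype κ] {A B : Type u} [CStarAlgebra A] [CStarAlgebra B]
    (h : HasNil κ A) (e : A ≃⋆ₐ[ℂ] B) : HasNil κ B := by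
  classical
  refine ⟨fun F ε hε => ?_⟩
  obtain ⟨z, hz, hz1, hzc⟩ := h.ex (F.image e.symm) ε hε
  refine ⟨fun i => e (z i), fun i => by rw [← map_mul, hz i, map_zero], ?_, fun i b hb => ?_⟩
  · rw [← map_one e, ← hz1, map_sum]
    refine Finset.sum_congr rfl fun i _ => ?_
    rw [map_mul, map_star]
  · have h1 := hzc i (e.symm b) (Finset.mem_image_of_mem _ hb)
    have h2 : e (z i) * b - b * e (z i) = e (z i * e.symm b - e.symm b * z i) := by
      rw [map_sub, map_mul, map_mul, e.apply_symm_apply]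
    rw [h2]
    exact (NonUnitalStarAlgHom.norm_apply_le ((e : A →⋆ₐ[ℂ] B) : A →⋆ₙₐ[ℂ] B) _).trans h1

/-- If `Z` has partitions of unity by nilpotents, so does every completion of `A ⊗ Z`. -/
theorem HasNil.of_tensor {κ : Type} [Fintype κ] {A Z E : Type u} [CStarAlgebra A] [CStarAlgebra Z]
    [CStarAlgebra E] (h : HasNil κ Z) {i : A →⋆ₐ[ℂ] E} {j : Z →⋆ₐ[ℂ] E}
    (hE : P101.IsTensorCompletion i j) : HasNil κ E := by
  classical
  -- approximate commutation with one element of the algebraic tensor product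
  have key : ∀ (x : A ⊗[ℂ] Z) (ε : ℝ), 0 < ε → ∃ (F : Finset Z) (δ : ℝ), 0 < δ ∧
      ∀ z : Z, (∀ a ∈ F, ‖z * a - a * z‖ ≤ δ) →
        ‖j z * Algebra.TensorProduct.lift (i : A →ₐ[ℂ] E) (j : Z →ₐ[ℂ] E) hE.comm x -
          Algebra.TensorProduct.lift (i : A →ₐ[ℂ] E) (j : Z →ₐ[ℂ] E) hE.comm x * j z‖ ≤ ε := by
    intro x
    induction x with
    | zero =>
      intro ε hε
      exact ⟨∅, 1, one_pos, fun z _ => by simp [hε.le]⟩
    | add x y hx hy =>
      intro ε hε
      obtain ⟨F, δ, hδ, h1⟩ := hx (ε / 2) (by positivity)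
      obtain ⟨F', δ', hδ', h2⟩ := hy (ε / 2) (by positivity)
      refine ⟨F ∪ F', min δ δ', lt_min hδ hδ', fun z hz => ?_⟩
      have h3 := h1 z fun a ha => (hz a (Finset.mem_union_left _ ha)).trans (min_le_left _ _)
      have h4 := h2 z fun a ha => (hz a (Finset.mem_union_right _ ha)).trans (min_le_right _ _)
      rw [map_add, mul_add, add_mul]
      refine le_trans (le_of_eq ?_) ((norm_add_le _ _).trans ((add_le_add h3 h4).trans
        (le_of_eq (add_halves ε))))
      congr 1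
      abel
    | tmul a b =>
      intro ε hε
      refine ⟨{b}, ε / (‖a‖ + 1), by positivity, fun z hz => ?_⟩
      have h1 := hz b (Finset.mem_singleton_self b)
      rw [Algebra.TensorProduct.lift_tmul]
      change ‖j z * (i a * j b) - i a * j b * j z‖ ≤ ε
      have h2 : j z * (i a * j b) - i a * j b * j z = i a * j (z * b - b * z) := by
        rw [map_sub, map_mul, map_mul, mul_sub, ← mul_assoc, ← (hE.comm a z).eq]
        simp only [mul_assoc]
      rw [h2]
      calc _ ≤ ‖i a‖ * ‖j (z * b - b * z)‖ := norm_mul_le _ _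
        _ ≤ ‖a‖ * (ε / (‖a‖ + 1)) := by
            gcongr
            · exact NonUnitalStarAlgHom.norm_apply_le (i : A →⋆ₙₐ[ℂ] E) a
            · exact (NonUnitalStarAlgHom.norm_apply_le (j : Z →⋆ₙₐ[ℂ] E) _).trans h1
        _ ≤ ε := by
            rw [mul_div_assoc', div_le_iff₀ (by positivity)]
            nlinarith [norm_nonneg a]
  refine ⟨fun F ε hε => ?_⟩
  have key2 : ∀ e : E, ∃ (T : Finset Z) (δ : ℝ), 0 < δ ∧ ∀ z : Z, ‖z‖ ≤ 1 →
      (∀ a ∈ T, ‖z * a - a * z‖ ≤ δ) → ‖j z * e - e * j z‖ ≤ ε := by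
    intro e
    obtain ⟨y, hy, ⟨x, rfl⟩⟩ := Metric.dense_iff.1 hE.dense e (ε / 4) (by positivity)
    obtain ⟨T, δ, hδ, hT⟩ := key x (ε / 2) (by positivity)
    refine ⟨T, δ, hδ, fun z hz1 hz => ?_⟩
    set w := Algebra.TensorProduct.lift (i : A →ₐ[ℂ] E) (j : Z →ₐ[ℂ] E) hE.comm x with hw
    have h1 := hT z hz
    have h2 : ‖e - w‖ ≤ ε / 4 := by
      rw [← dist_eq_norm, dist_comm]; exact (Metric.mem_ball.1 hy).le
    have h3 : ‖j z‖ ≤ 1 := (NonUnitalStarAlgHom.norm_apply_le (j : Z →⋆ₙₐ[ℂ] E) z).trans hz1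
    have h4 : j z * e - e * j z = (j z * (e - w) - (e - w) * j z) + (j z * w - w * j z) := by
      rw [mul_sub, sub_mul]; abel
    rw [h4]
    calc _ ≤ ‖j z * (e - w) - (e - w) * j z‖ + ‖j z * w - w * j z‖ := norm_add_le _ _
      _ ≤ (‖j z * (e - w)‖ + ‖(e - w) * j z‖) + ε / 2 := by
          gcongr; exact norm_sub_le _ _
      _ ≤ (‖j z‖ * ‖e - w‖ + ‖e - w‖ * ‖j z‖) + ε / 2 := by
          gcongr <;> exact norm_mul_le _ _
      _ ≤ (1 * (ε / 4) + (ε / 4) * 1) + ε / 2 := by gcongr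
      _ = ε := by ring
  choose T δ hδ hT using key2
  obtain ⟨δ', hδ', hle⟩ : ∃ δ' > 0, ∀ e ∈ F, δ' ≤ δ e := by
    rcases F.eq_empty_or_nonempty with rfl | hne
    · exact ⟨1, one_pos, fun e he => absurd he (Finset.notMem_empty e)⟩
    · obtain ⟨e0, he0, hmin⟩ := F.exists_min_image δ hne
      exact ⟨δ e0, hδ e0, fun e he => hmin e he⟩
  obtain ⟨z, hz, hz1, hzc⟩ := h.ex (F.biUnion T) δ' hδ'
  refine ⟨fun k => j (z k), fun k => by rw [← map_mul, hz k, map_zero], ?_, fun k e he => ?_⟩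
  · rw [← map_one j, ← hz1, map_sum]
    refine Finset.sum_congr rfl fun k _ => ?_
    rw [map_mul, map_star]
  · exact hT e (z k) (norm_le_one_of_sum hz1 k) fun a ha =>
      (hzc k a (Finset.mem_biUnion.2 ⟨e, he, ha⟩)).trans (hle e he)

end Vale.Agent.JS.PartU
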