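import Vale.Agent.P095JS.PartU
import Vale.Agent.P095JS.PartT3

/-! Part V: uniqueness of the Jiang-Su algebra. -/

open Filter Topology
open scoped Kronecker TensorProduct Matrix.Norms.L2Operator

namespace Vale.Agent.JS.PartV

open PartB PartD PartE PartU

universe u

/-- The function `t (1 - t)` times the unit. -/
noncomputable def bump (p q : ℕ) : CM p q :=
  ⟨fun t => ((((t : ℝ) * (1 - (t : ℝ)) : ℝ)) : ℂ) • (1 : MM p q), by fun_prop⟩

theorem bump_zero (p q : ℕ) : bump p q 0 = 0 := by simp [bump]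
theorem bump_one (p q : ℕ) : bump p q 1 = 0 := by simp [bump]
theorem bump_half (p q : ℕ) : bump p q ⟨1 / 2, by norm_num, by norm_num⟩ =
    (1 / 4 : ℂ) • (1 : MM p q) := by
  simp only [bump, ContinuousMap.coe_mk]
  norm_num

/-- A dimension drop algebra contains an element which is not a scalar. -/
theorem exists_not_scalar {Z : Type u} [CStarAlgebra Z] (hZ : P101.IsJiangSuAlgebra Z) :
    ∃ z : Z, ∀ c : ℂ, z ≠ c • 1 := by
  obtain ⟨p, q, R, -, hR, -⟩ := hZ.limit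
  obtain ⟨hp, hq, -, hd⟩ := hR 0
  obtain ⟨S, hS, ⟨e⟩⟩ := hd.iso
  have hm : bump (p 0) (q 0) ∈ S := (hS _).2 ⟨⟨0, by rw [bump_zero]; simp⟩, ⟨0, by
    rw [bump_one]; simp⟩⟩
  refine ⟨e ⟨_, hm⟩, fun c hc => ?_⟩
  have h1 : e ⟨_, hm⟩ = e (c • 1) := by
    apply Subtype.ext
    rw [hc, map_smul, map_one]
    rfl
  have h2 : bump (p 0) (q 0) = c • (1 : CM (p 0) (q 0)) := congrArg Subtype.val (e.injective h1)
  have hne : Nonempty (Fin (p 0) × Fin (q 0)) := ⟨⟨⟨0, hp⟩, ⟨0, hq⟩⟩⟩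
  have h3 := congrArg (fun f : CM (p 0) (q 0) => f 0) h2
  have h4 := congrArg (fun f : CM (p 0) (q 0) => f ⟨1 / 2, by norm_num, by norm_num⟩) h2
  simp only [bump_zero, bump_half, ContinuousMap.smul_apply, ContinuousMap.one_apply] at h3 h4
  have h5 : c = 0 := by
    by_contra hc0
    exact smul_ne_zero hc0 one_ne_zero h3.symm
  rw [h5, zero_smul] at h4
  exact smul_ne_zero (by norm_num) one_ne_zero h4

/-- A Jiang-Su algebra has no characters. -/
theorem isEmpty_hom {Z : Type u} [CStarAlgebra Z] (hZ : P101.IsJiangSuAlgebra Z) :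
    IsEmpty (Z →⋆ₐ[ℂ] ℂ) := by
  refine ⟨fun χ => ?_⟩
  let ψ : Z →⋆ₐ[ℂ] Z := (StarAlgHom.ofId ℂ Z).comp χ
  have hψ : ∀ z, ψ z = χ z • 1 := fun z => Algebra.algebraMap_eq_smul_one _
  have hcomm : ∀ x y, Commute (StarAlgHom.id ℂ Z x) (ψ y) := fun x y => by
    rw [hψ]
    exact (Commute.one_right _).smul_right _
  obtain ⟨z, hz⟩ := exists_not_scalar hZ
  have key : ∀ x : Z, χ x = 0 → x = 0 := by
    intro x hx
    by_contra hx0
    obtain ⟨v, hv, hvx⟩ := ((hZ.half_flip Z).flip _ _ hcomm) {x} ‖x‖ (norm_pos_iff.2 hx0)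
    have h1 := hvx x (Finset.mem_singleton_self x)
    rw [hψ, hx, zero_smul, sub_zero] at h1
    change ‖v * x * star v‖ < ‖x‖ at h1
    rw [norm_conj hv] at h1
    exact lt_irrefl _ h1
  have h1 := key (z - χ z • 1) (by rw [map_sub, map_smul, map_one]; simp)
  exact hz _ (sub_eq_zero.1 h1)

/-- Approximately central copies of a strongly self-absorbing algebra. -/
theorem ssa_maps {D : Type u} [CStarAlgebra D] (h : P095.IsStronglySelfAbsorbing D)
    (F : Finset D) {ε : ℝ} (hε : 0 < ε) :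
    ∃ ψ : D →⋆ₐ[ℂ] D, ∀ x ∈ F, ∀ y, ‖ψ y * x - x * ψ y‖ ≤ ε * ‖y‖ := by
  obtain ⟨E, _, ⟨i, j, φ, hE, happ⟩⟩ := h.square
  obtain ⟨v, hv, hvx⟩ := happ F (ε / 2) (by positivity)
  let V : unitary E := ⟨v, hv⟩
  let ad : E ≃⋆ₐ[ℂ] E := Unitary.conjStarAlgAut ℂ E V
  have had : ∀ x, ad x = v * x * star v := fun x => rfl
  let ψ : D →⋆ₐ[ℂ] D := ((φ.symm : E →⋆ₐ[ℂ] D).comp (ad.symm : E →⋆ₐ[ℂ] E)).comp j
  have hψ : ∀ y, ad (φ (ψ y)) = j y := fun y => by
    change ad (φ (φ.symm (ad.symm (j y)))) = j y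
    rw [φ.apply_symm_apply, ad.apply_symm_apply]
  have hiso : ∀ x : D, ‖ad (φ x)‖ = ‖x‖ := fun x => by
    rw [had, norm_conj hv]
    exact NonUnitalStarAlgHom.norm_map (φ : D →⋆ₐ[ℂ] E) φ.injective x
  refine ⟨ψ, fun x hx y => ?_⟩
  have h1 := hvx x hx
  rw [← had] at h1
  rw [← hiso, map_sub, map_sub, map_mul, map_mul, map_mul, map_mul, hψ]
  have h2 : j y * ad (φ x) - ad (φ x) * j y =
      j y * (ad (φ x) - i x) - (ad (φ x) - i x) * j y := by
    rw [mul_sub, sub_mul, (hE.comm x y).eq]; abel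
  have hj : ‖j y‖ ≤ ‖y‖ := NonUnitalStarAlgHom.norm_apply_le (j : D →⋆ₙₐ[ℂ] E) y
  rw [h2]
  calc _ ≤ ‖j y * (ad (φ x) - i x)‖ + ‖(ad (φ x) - i x) * j y‖ := norm_sub_le _ _
    _ ≤ ‖j y‖ * ‖ad (φ x) - i x‖ + ‖ad (φ x) - i x‖ * ‖j y‖ :=
        add_le_add (norm_mul_le _ _) (norm_mul_le _ _)
    _ ≤ ‖y‖ * (ε / 2) + (ε / 2) * ‖y‖ := by gcongr
    _ = ε * ‖y‖ := by ring

/-- If a strongly self-absorbing algebra has no characters, then neither does its central sequence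
algebra. -/
theorem no_char_of_ssa {D : Type u} [CStarAlgebra D] [TopologicalSpace.SeparableSpace D]
    (h : P095.IsStronglySelfAbsorbing D) (hD : IsEmpty (D →⋆ₐ[ℂ] ℂ)) (ω : Ultrafilter ℕ)
    (hω : (ω : Filter ℕ) ≤ Filter.cofinite) :
    ¬ ∃ χ : (ℕ → D) → ℂ, P101.IsCharacter (ω : Filter ℕ) χ := by
  classical
  rintro ⟨χ, hχ⟩
  choose ψ hψ using fun n : ℕ => ssa_maps h
    ((Finset.range (n + 1)).image (TopologicalSpace.denseSeq D))
    (show (0 : ℝ) < 1 / ((n : ℝ) + 1) by positivity)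
  have hb : ∀ n y, ‖ψ n y‖ ≤ ‖y‖ := fun n y =>
    NonUnitalStarAlgHom.norm_apply_le (ψ n : D →⋆ₙₐ[ℂ] D) y
  have hcen : ∀ y, P101.IsCentral (ω : Filter ℕ) (fun n => ψ n y) := by
    intro y
    refine ⟨⟨‖y‖, fun n => hb n y⟩, fun a => ?_⟩
    refine Tendsto.mono_left ?_ hω
    rw [Nat.cofinite_eq_atTop]
    refine Metric.tendsto_atTop.2 fun ε hε => ?_
    set δ := ε / (4 * (‖y‖ + 1)) with hδ
    have hδ0 : 0 < δ := by positivity
    obtain ⟨d, hd, ⟨m, rfl⟩⟩ := Metric.dense_iff.1 (TopologicalSpace.denseRange_denseSeq D) a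
      δ hδ0
    obtain ⟨K, hK⟩ := exists_nat_one_div_lt hδ0
    refine ⟨max m K, fun n hn => ?_⟩
    rw [Real.dist_eq, sub_zero, abs_norm]
    set d := TopologicalSpace.denseSeq D m with hd'
    have hda : ‖a - d‖ ≤ δ := by
      rw [← dist_eq_norm, dist_comm]; exact (Metric.mem_ball.1 hd).le
    have h1 : ‖ψ n y * d - d * ψ n y‖ ≤ 1 / ((n : ℝ) + 1) * ‖y‖ := hψ n d (Finset.mem_image.2
      ⟨m, Finset.mem_range.2 (Nat.lt_succ_of_le ((le_max_left _ _).trans hn)), rfl⟩) y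
    have h2 : 1 / ((n : ℝ) + 1) ≤ δ := by
      refine le_trans ?_ hK.le
      apply one_div_le_one_div_of_le (by positivity)
      have : (K : ℝ) ≤ n := by exact_mod_cast (le_max_right _ _).trans hn
      linarith
    have h3 : ψ n y * a - a * ψ n y =
        ψ n y * (a - d) - (a - d) * ψ n y + (ψ n y * d - d * ψ n y) := by
      rw [mul_sub, sub_mul]; abel
    rw [h3]
    calc _ ≤ ‖ψ n y * (a - d) - (a - d) * ψ n y‖ + ‖ψ n y * d - d * ψ n y‖ := norm_add_le _ _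
      _ ≤ (‖ψ n y * (a - d)‖ + ‖(a - d) * ψ n y‖) + ‖ψ n y * d - d * ψ n y‖ := by
          gcongr; exact norm_sub_le _ _
      _ ≤ (‖ψ n y‖ * ‖a - d‖ + ‖a - d‖ * ‖ψ n y‖) + ‖ψ n y * d - d * ψ n y‖ := by
          gcongr <;> exact norm_mul_le _ _
      _ ≤ (‖y‖ * δ + δ * ‖y‖) + δ * ‖y‖ := by
          gcongr
          · exact hb n y
          · exact hb n y
          · exact h1.trans (by gcongr)
      _ = 3 * δ * ‖y‖ := by ring
      _ < ε := by
          have h4 : δ * (4 * (‖y‖ + 1)) = ε := by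
            rw [hδ]; field_simp
          nlinarith [norm_nonneg y]
  refine hD.false
    { toFun := fun y => χ fun n => ψ n y
      map_one' := ?_
      map_mul' := fun x y => ?_
      map_zero' := ?_
      map_add' := fun x y => ?_
      commutes' := fun r => ?_
      map_star' := fun x => ?_ }
  · have : (fun n => ψ n 1) = (1 : ℕ → D) := funext fun n => map_one (ψ n)
    rw [this, hχ.one]
  · have : (fun n => ψ n (x * y)) = (fun n => ψ n x) * fun n => ψ n y :=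
      funext fun n => map_mul (ψ n) x y
    rw [this, hχ.mul _ _ (hcen x) (hcen y)]
  · refine hχ.null _ (hcen 0) ?_
    simp
  · have : (fun n => ψ n (x + y)) = (fun n => ψ n x) + fun n => ψ n y :=
      funext fun n => map_add (ψ n) x y
    rw [this, hχ.add _ _ (hcen x) (hcen y)]
  · have : (fun n => ψ n (algebraMap ℂ D r)) = r • fun n => ψ n 1 := funext fun n => by
      rw [Algebra.algebraMap_eq_smul_one, map_smul]
      rfl
    have h1 : (fun n => ψ n 1) = (1 : ℕ → D) := funext fun n => map_one (ψ n)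
    change χ (fun n => ψ n (algebraMap ℂ D r)) = algebraMap ℂ ℂ r
    rw [this, hχ.smul r _ (hcen 1), h1, hχ.one, mul_one]
    rfl
  · have : (fun n => ψ n (star x)) = star fun n => ψ n x := funext fun n => map_star (ψ n) x
    change χ (fun n => ψ n (star x)) = star (χ fun n => ψ n x)
    rw [this, hχ.star _ (hcen x)]

/-! ### Uniqueness -/

/-- Completions of tensor products are symmetric. -/
theorem completion_symm {A B E : Type u} [CStarAlgebra A] [CStarAlgebra B] [CStarAlgebra E]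
    {i : A →⋆ₐ[ℂ] E} {j : B →⋆ₐ[ℂ] E} (h : P101.IsTensorCompletion i j) :
    P101.IsTensorCompletion j i := by
  have hc : ∀ b a, Commute (j b) (i a) := fun b a => (h.comm a b).symm
  have key : ∀ x, Algebra.TensorProduct.lift (j : B →ₐ[ℂ] E) (i : A →ₐ[ℂ] E) hc x =
      Algebra.TensorProduct.lift (i : A →ₐ[ℂ] E) (j : B →ₐ[ℂ] E) h.comm
        (TensorProduct.comm ℂ B A x) := by
    intro x
    induction x with
    | zero => simp
    | add x y hx hy => rw [map_add, hx, hy, map_add, map_add]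
    | tmul b a =>
      rw [Algebra.TensorProduct.lift_tmul, TensorProduct.comm_tmul,
        Algebra.TensorProduct.lift_tmul]
      exact (hc b a).eq
  refine ⟨hc, fun x y hxy => ?_, ?_⟩
  · rw [key, key] at hxy
    exact (TensorProduct.comm ℂ B A).injective (h.injective hxy)
  · intro e
    refine closure_mono ?_ (h.dense e)
    rintro _ ⟨x, rfl⟩
    refine ⟨(TensorProduct.comm ℂ B A).symm x, ?_⟩
    rw [key, LinearEquiv.apply_symm_apply]

/-- The Jiang-Su algebra is unique. -/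
theorem unique (habs : Absorption.{u}) {Z Z' : Type u} [CStarAlgebra Z] [CStarAlgebra Z']
    (hZ : P101.IsJiangSuAlgebra Z) (h : P095.IsStronglySelfAbsorbing Z)
    (hZ' : P101.IsJiangSuAlgebra Z') (h' : P095.IsStronglySelfAbsorbing Z') :
    Nonempty (Z ≃⋆ₐ[ℂ] Z') := by
  have := separable_of_isJiangSu hZ
  have := separable_of_isJiangSu hZ'
  obtain ⟨E, _, i, j, hE, -⟩ := PartT3.exists_completion Z Z'
  have h1 : ∃ ω : Ultrafilter ℕ, (ω : Filter ℕ) ≤ Filter.cofinite ∧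
      ¬ ∃ χ : (ℕ → Z) → ℂ, P101.IsCharacter (ω : Filter ℕ) χ :=
    ⟨Filter.hyperfilter ℕ, Filter.hyperfilter_le_cofinite,
      no_char_of_ssa h (isEmpty_hom hZ) _ Filter.hyperfilter_le_cofinite⟩
  have h2 : ∃ ω : Ultrafilter ℕ, (ω : Filter ℕ) ≤ Filter.cofinite ∧
      ¬ ∃ χ : (ℕ → Z') → ℂ, P101.IsCharacter (ω : Filter ℕ) χ :=
    ⟨Filter.hyperfilter ℕ, Filter.hyperfilter_le_cofinite,
      no_char_of_ssa h' (isEmpty_hom hZ') _ Filter.hyperfilter_le_cofinite⟩
  obtain ⟨θ, -⟩ := habs Z Z' E hZ' h1 i j hE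
  obtain ⟨θ', -⟩ := habs Z' Z E hZ h2 j i (completion_symm hE)
  exact ⟨θ.trans θ'.symm⟩

end Vale.Agent.JS.PartV
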