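import Vale.Agent.P095JS.PartE3
import Vale.Agent.P095.H413.Strong

/-! The absorption theorem, from the proof for P095. -/

open Filter Topology

namespace Vale.Agent.JS.Side095

open PartE
open Vale.Agent.P101 Vale.Agent.P095 Vale.Agent.P095.ZS

universe u

theorem absorption : Absorption.{u} := by
  classical
  intro A Z E _ _ _ _ hZ h i j hE
  obtain ⟨ω, hω, hno⟩ := h
  let γ : Unit →* (A ≃⋆ₐ[ℂ] A) := 1
  have hmem : ∀ x : ℕ → A, IsCentral (ω : Filter ℕ) x → x ∈ fixSeq γ (ω : Filter ℕ) := by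
    intro x hx
    refine (mem_fixSeq γ _ x).2 ⟨⟨hx.bounded, hx.central⟩, fun g => ?_⟩
    have : (fun n => ‖γ g (x n) - x n‖) = fun _ => (0 : ℝ) := by
      funext n
      have : γ g (x n) = x n := rfl
      rw [this, sub_self, norm_zero]
    rw [this]
    exact tendsto_const_nhds
  have hemp : IsEmpty (Fa γ (ω : Filter ℕ) →⋆ₐ[ℂ] ℂ) := by
    refine ⟨fun χ => ?_⟩
    let χ' : (ℕ → A) → ℂ := fun x => if hx : x ∈ fixSeq γ (ω : Filter ℕ) then
      χ (Fa.mk γ _ ⟨x, hx⟩) else 0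
    have hχ' : ∀ x (hx : x ∈ fixSeq γ (ω : Filter ℕ)), χ' x = χ (Fa.mk γ _ ⟨x, hx⟩) :=
      fun x hx => dif_pos hx
    refine hno ⟨χ', fun x hx h0 => ?_, ?_, fun x y hx hy => ?_, fun x y hx hy => ?_,
      fun c x hx => ?_, fun x hx => ?_⟩
    · have hx' := hmem x hx
      rw [hχ' x hx']
      have h1 : Fa.mk γ (ω : Filter ℕ) ⟨x, hx'⟩ = Fa.mk γ (ω : Filter ℕ) 0 :=
        (Fa.mk_eq_iff γ _ _ _).2 (by
          refine h0.congr fun n => ?_
          change ‖x n‖ = ‖x n - 0‖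
          rw [sub_zero])
      rw [h1]
      exact map_zero χ
    · rw [hχ' 1 (one_mem _)]
      exact map_one χ
    · have hx' := hmem x hx
      have hy' := hmem y hy
      rw [hχ' _ (add_mem hx' hy'), hχ' x hx', hχ' y hy']
      exact map_add χ (Fa.mk γ _ ⟨x, hx'⟩) (Fa.mk γ _ ⟨y, hy'⟩)
    · have hx' := hmem x hx
      have hy' := hmem y hy
      rw [hχ' _ (mul_mem hx' hy'), hχ' x hx', hχ' y hy']
      exact map_mul χ (Fa.mk γ _ ⟨x, hx'⟩) (Fa.mk γ _ ⟨y, hy'⟩)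
    · have hx' := hmem x hx
      rw [hχ' _ (SMulMemClass.smul_mem c hx'), hχ' x hx']
      exact map_smul χ c (Fa.mk γ _ ⟨x, hx'⟩)
    · have hx' := hmem x hx
      rw [hχ' _ (star_mem hx'), hχ' x hx']
      exact map_star χ (Fa.mk γ _ ⟨x, hx'⟩)
  obtain ⟨Φ, u, V, hV, -, -, -, hlim, -⟩ := P095.H413.conj_limit_strong γ
    (1 : Unit →* (E ≃⋆ₐ[ℂ] E)) ℕ (ω : Filter ℕ) hemp hZ i j hE ⟨fun g a => rfl, fun g z => rfl⟩
  exact ⟨Φ, V, hV, hlim⟩

end Vale.Agent.JS.Side095
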