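import Vale.Agent.P095JS.PartE3
import Vale.Agent.P101.H574.Final

/-! The absorption theorem, from the proof for P101. -/

open Filter Topology

namespace Vale.Agent.JS.Side101

open PartE

universe u

theorem absorption : Absorption.{u} := by
  intro A Z E _ _ _ _ hZ h i j hE
  obtain ⟨ω, hω, hno⟩ := h
  have hfix : ∀ x : ℕ → A, P101.IsCentral (ω : Filter ℕ) x →
      P101.IsFixedCentral (1 : Unit →* (A ≃⋆ₐ[ℂ] A)) ⊤ (ω : Filter ℕ) x := fun x hx =>
    ⟨hx, fun n => trivial, fun g => by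
      have : (fun n => ‖(1 : Unit →* (A ≃⋆ₐ[ℂ] A)) g (x n) - x n‖) = fun _ => (0 : ℝ) := by
        funext n
        have : (1 : Unit →* (A ≃⋆ₐ[ℂ] A)) g (x n) = x n := rfl
        rw [this, sub_self, norm_zero]
      rw [this]
      exact tendsto_const_nhds⟩
  have hno' : ¬ ∃ χ : (ℕ → A) → ℂ,
      P101.IsFixedCharacter (1 : Unit →* (A ≃⋆ₐ[ℂ] A)) ⊤ (ω : Filter ℕ) χ := by
    rintro ⟨χ, hχ⟩
    exact hno ⟨χ, fun x hx h0 => hχ.null x (hfix x hx) h0, hχ.one,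
      fun x y hx hy => hχ.add x y (hfix x hx) (hfix y hy),
      fun x y hx hy => hχ.mul x y (hfix x hx) (hfix y hy),
      fun c x hx => hχ.smul c x (hfix x hx), fun x hx => hχ.star x (hfix x hx)⟩
  have hstable := (P101.H574.main_over (1 : Unit →* (A ≃⋆ₐ[ℂ] A)) ⊤ isClosed_univ
    (fun _ _ _ => trivial) ω hω).1 hno'
  obtain ⟨θ, U, w, hθ, -⟩ := (hstable.absorbs Z E hZ i j 1 ⟨hE, fun g a => rfl,
    fun g z => rfl⟩).iso
  exact ⟨θ, U, fun n => (hθ.unitary n).1, hθ.lim⟩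

end Vale.Agent.JS.Side101
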