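import Vale.Agent.P095K.GStmt

/-! Tensor products with actions, for the final statements. -/

namespace Vale.Agent.JS

universe u w

/-- For every action `α` on `A` there is an action `β = α ⊗ id` on `B`. Here `T a z` stands for
`a ⊗ z`, and `B` is the tensor product `A ⊗ Z`. -/
def HasTensorActions {A Z B : Type u} [NonUnitalCStarAlgebra A] [CStarAlgebra Z]
    [NonUnitalCStarAlgebra B] (T : A →ₗ[ℂ] Z →ₗ[ℂ] B) : Prop :=
  ∀ (G : Type w) [Group G] (α : G →* (A ≃⋆ₐ[ℂ] A)), ∃ β : G →* (B ≃⋆ₐ[ℂ] B),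
    ∀ g a z, β g (T a z) = T (α g a) z

end Vale.Agent.JS
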